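import Vale.Agent.P245.Cube.Assembly

/-! # From the defective to the tight inequality for regular potentials

Apply `exists_defective` to the normalised `f ^ 2 + δ` (bounded `C¹` `f` with bounded gradient) and let `δ → 0`.
If `f` lives on a set of probability at most `1/2`, then `log 2 * ex f² ≤ Ent f² ≤ K n^(1/3) Fisher + ex f² / 10`.
With smooth truncations at an approximate median this is a Poincaré inequality, and a comparison of
`f` with its centring tightens the defective inequality. -/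

namespace Vale.P245.Cube

open MeasureTheory Vale.P254.Skew Filter Topology

/-- The entropy of `f ^ 2`. -/
noncomputable def Ent2 {n : ℕ} (V f : E n → ℝ) : ℝ :=
  ex V (fun x => f x ^ 2 * Real.log (f x ^ 2))
    - ex V (fun x => f x ^ 2) * Real.log (ex V fun x => f x ^ 2)

variable {n : ℕ} {V f : E n → ℝ} {ε Λ M L : ℝ}

/-- The test functions: bounded, smooth, with bounded gradient. -/
structure Test (f : E n → ℝ) : Prop where
  smooth : ContDiff ℝ 1 f
  bdd : ∃ M, ∀ x, |f x| ≤ M
  lip : ∃ L, ∀ x, ‖fderiv ℝ f x‖ ≤ L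

/-- The Dirichlet form. -/
noncomputable def Dir (V f : E n → ℝ) : ℝ := ex V fun x => ∑ i, fderiv ℝ f x (bv i) ^ 2

theorem tame_bounded_comp {φ : ℝ → ℝ} (hφ : Continuous φ) {u : E n → ℝ} (hu : Continuous u)
    (hb : ∃ M, ∀ x, |u x| ≤ M) : Tame fun x => φ (u x) := by
  obtain ⟨M, hM⟩ := hb
  obtain ⟨C, hC⟩ := (isCompact_Icc (a := -M) (b := M)).exists_bound_of_continuousOn hφ.continuousOn
  exact Tame.bounded (hφ.comp hu) fun x => hC _ ⟨(abs_le.1 (hM x)).1, (abs_le.1 (hM x)).2⟩

theorem Test.tame_comp (hf : Test f) {φ : ℝ → ℝ} (hφ : Continuous φ) : Tame fun x => φ (f x) :=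
  tame_bounded_comp hφ hf.smooth.continuous hf.bdd

theorem Test.tame (hf : Test f) : Tame f := hf.tame_comp continuous_id

theorem Test.tame_sq (hf : Test f) : Tame fun x => f x ^ 2 := hf.tame.pow 2

theorem Test.tame_log (hf : Test f) : Tame fun x => f x ^ 2 * Real.log (f x ^ 2) :=
  hf.tame_comp (φ := fun r => r ^ 2 * Real.log (r ^ 2))
    (Real.continuous_mul_log.comp (continuous_pow 2))

theorem Test.tame_dir (hf : Test f) : Tame fun x => ∑ i, fderiv ℝ f x (bv i) ^ 2 := by
  obtain ⟨L, hL⟩ := hf.lip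
  refine Tame.sum _ fun i _ => Tame.pow (Tame.bounded
    ((hf.smooth.continuous_fderiv one_ne_zero).clm_apply continuous_const) (C := L) fun x => ?_) 2
  exact ((fderiv ℝ f x).le_opNorm _).trans (by simpa using hL x)

theorem Dir_nonneg (h : Reg V ε Λ) : 0 ≤ Dir V f :=
  h.pin.ex_nonneg fun _ => Finset.sum_nonneg fun _ _ => sq_nonneg _

/-- The defective inequality, for `f` itself. -/
theorem ent2_defective (h : Reg V ε Λ) {B : ℝ} (hB : 0 ≤ B)
    (hdef : ∀ g, Dens V g → Hent V g ≤ B * Fish V g + 1 / 10) (hf : Test f) :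
    Ent2 V f ≤ 4 * B * Dir V f + ex V (fun x => f x ^ 2) / 10 := by
  set a := ex V fun x => f x ^ 2 with ha
  have ha0 : 0 ≤ a := h.pin.ex_nonneg fun x => sq_nonneg _
  have key : ∀ δ : ℝ, 0 < δ → ex V (fun x => f x ^ 2 * Real.log (f x ^ 2))
      + δ * Real.log δ - (a + δ) * Real.log (a + δ) - (a + δ) / 10 ≤ 4 * B * Dir V f := by
    intro δ hδ
    set m := a + δ
    have hm : 0 < m := by positivity
    set g : E n → ℝ := fun x => m⁻¹ * (f x ^ 2 + δ) with hg
    have hgd : ∀ x v, fderiv ℝ g x v = m⁻¹ * (2 * f x * fderiv ℝ f x v) := fun x v => by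
      rw [hg, (((hf.smooth.differentiable one_ne_zero x).hasFDerivAt.pow 2).add_const
        δ |>.const_mul m⁻¹).fderiv]
      simp
    obtain ⟨M, hM⟩ := hf.bdd
    obtain ⟨L, hL⟩ := hf.lip
    have hM0 : ∀ x, f x ^ 2 ≤ M ^ 2 := fun x => by
      rw [← sq_abs (f x)]; exact pow_le_pow_left₀ (abs_nonneg _) (hM x) 2
    have hdens : Dens V g := by
      refine ⟨contDiff_const.mul ((hf.smooth.pow 2).add contDiff_const),
        ⟨m⁻¹ * δ, by positivity, fun x => mul_le_mul_of_nonneg_left
          (le_add_of_nonneg_left (sq_nonneg _)) (by positivity)⟩,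
        ⟨m⁻¹ * (M ^ 2 + δ), fun x => mul_le_mul_of_nonneg_left
          (by linarith [hM0 x]) (by positivity)⟩,
        ⟨m⁻¹ * (2 * |M| * |L|), fun x => ?_⟩, ?_⟩
      · refine ContinuousLinearMap.opNorm_le_bound _ (by positivity) fun v => ?_
        rw [hgd, Real.norm_eq_abs, abs_mul, abs_of_pos (inv_pos.2 hm), abs_mul, abs_mul, abs_two,
          mul_assoc (m⁻¹ : ℝ)]
        refine mul_le_mul_of_nonneg_left ?_ (by positivity)
        rw [mul_assoc (2 * |M|)]
        refine mul_le_mul (mul_le_mul_of_nonneg_left ((hM x).trans (le_abs_self M)) zero_le_two) ?_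
          (abs_nonneg _) (by positivity)
        exact ((fderiv ℝ f x).le_opNorm v).trans
          (mul_le_mul_of_nonneg_right ((hL x).trans (le_abs_self L)) (norm_nonneg _))
      · rw [hg, ex_const_mul, h.pin.ex_add hf.tame_sq (Tame.const δ), h.pin.ex_const, ← ha,
          inv_mul_cancel₀ hm.ne']
    have hF : Fish V g ≤ 4 * m⁻¹ * Dir V f := by
      rw [Fish, Dir, ← ex_const_mul]
      refine h.pin.ex_mono ?_ (hf.tame_dir.const_mul _) fun x => ?_
      · obtain ⟨L', hL'⟩ := hdens.lip
        have hd : Tame fun x => ∑ i, fderiv ℝ g x (bv i) ^ 2 := Tame.sum _ fun i _ =>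
          Tame.pow (Tame.bounded ((hdens.smooth.continuous_fderiv one_ne_zero).clm_apply
            continuous_const) (C := L') fun x =>
              ((fderiv ℝ g x).le_opNorm _).trans (by simpa using hL' x)) 2
        refine Tame.of_bound (hd.1.div hdens.smooth.continuous fun x => (hdens.pos x).ne')
          (hd.const_mul (m⁻¹ * δ)⁻¹) fun x => ?_
        rw [Real.norm_eq_abs, abs_div, abs_of_pos (hdens.pos x),
          abs_of_nonneg (Finset.sum_nonneg fun i _ => sq_nonneg _), div_eq_mul_inv, mul_comm]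
        refine mul_le_mul_of_nonneg_right ?_ (Finset.sum_nonneg fun i _ => sq_nonneg _)
        exact inv_anti₀ (by positivity)
          (mul_le_mul_of_nonneg_left (le_add_of_nonneg_left (sq_nonneg _)) (by positivity))
      · rw [div_le_iff₀ (hdens.pos x), Finset.mul_sum, Finset.sum_mul]
        refine Finset.sum_le_sum fun i _ => ?_
        rw [hgd, hg]
        nlinarith [mul_nonneg (mul_nonneg (sq_nonneg m⁻¹) hδ.le) (sq_nonneg (fderiv ℝ f x (bv i)))]
    have hlog : ∀ x, g x * Real.log (g x) =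
        m⁻¹ * ((f x ^ 2 + δ) * Real.log (f x ^ 2 + δ)) - Real.log m * g x := fun x => by
      have : 0 < f x ^ 2 + δ := by positivity
      rw [hg]
      simp only [Real.log_mul (inv_ne_zero hm.ne') this.ne', Real.log_inv]
      ring
    have hT : Tame fun x => (f x ^ 2 + δ) * Real.log (f x ^ 2 + δ) :=
      hf.tame_comp (φ := fun r => (r ^ 2 + δ) * Real.log (r ^ 2 + δ))
        (Real.continuous_mul_log.comp ((continuous_pow 2).add continuous_const))
    have hH : Hent V g = m⁻¹ * ex V (fun x => (f x ^ 2 + δ) * Real.log (f x ^ 2 + δ))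
        - Real.log m := by
      rw [Hent, ex_congr hlog, h.pin.ex_sub (hT.const_mul _) (hdens.tame.const_mul _),
        ex_const_mul, ex_const_mul, hdens.mass, mul_one]
    have hlow : ex V (fun x => f x ^ 2 * Real.log (f x ^ 2)) + δ * Real.log δ
        ≤ ex V fun x => (f x ^ 2 + δ) * Real.log (f x ^ 2 + δ) := by
      rw [← h.pin.ex_const (δ * Real.log δ), ← h.pin.ex_add hf.tame_log (Tame.const _)]
      refine h.pin.ex_mono (hf.tame_log.add (Tame.const _)) hT fun x => ?_
      rw [add_mul]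
      refine add_le_add ?_ (mul_le_mul_of_nonneg_left
        (Real.log_le_log hδ (le_add_of_nonneg_left (sq_nonneg _))) hδ.le)
      rcases eq_or_lt_of_le (sq_nonneg (f x)) with h0 | h0
      · simp [← h0]
      · exact mul_le_mul_of_nonneg_left (Real.log_le_log h0 (le_add_of_nonneg_right hδ.le)) h0.le
    have h1 := (hdef g hdens).trans (add_le_add (mul_le_mul_of_nonneg_left hF hB) le_rfl)
    rw [hH] at h1
    have h2 := mul_le_mul_of_nonneg_left h1 hm.le
    rw [mul_sub, mul_add, ← mul_assoc, mul_inv_cancel₀ hm.ne', one_mul] at h2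
    have h3 : m * (B * (4 * m⁻¹ * Dir V f)) = 4 * B * Dir V f := by field_simp
    rw [h3] at h2
    linarith
  have hcont : Continuous fun δ : ℝ => ex V (fun x => f x ^ 2 * Real.log (f x ^ 2))
      + δ * Real.log δ - (a + δ) * Real.log (a + δ) - (a + δ) / 10 :=
    ((continuous_const.add Real.continuous_mul_log).sub
      (Real.continuous_mul_log.comp (continuous_const.add continuous_id))).sub
      ((continuous_const.add continuous_id).div_const 10)
  have hlim := le_of_tendsto ((hcont.tendsto 0).mono_left (nhdsWithin_le_nhds (s := Set.Ioi 0)))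
    (eventually_nhdsWithin_of_forall key)
  simp only [Real.log_zero, mul_zero, add_zero] at hlim
  rw [Ent2, ← ha]
  linarith

/-- A function living on half of the mass has entropy at least `log 2` times its mass. -/
theorem log_two_le_ent2 (h : Reg V ε Λ) (hf : Test f) {χ : E n → ℝ} (hχ : Tame χ)
    (hχ0 : ∀ x, 0 ≤ χ x) (hχ1 : ∀ x, f x ≠ 0 → χ x = 1) (hχm : ex V χ ≤ 1 / 2) :
    ex V (fun x => f x ^ 2) * Real.log 2 ≤ Ent2 V f := by
  set a := ex V fun x => f x ^ 2 with ha
  have ha0 : 0 ≤ a := h.pin.ex_nonneg fun x => sq_nonneg _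
  rcases eq_or_lt_of_le ha0 with h0 | h0
  · rw [Ent2, ← ha, ← h0, zero_mul, zero_mul, sub_zero]
    have hb : ∀ t : ℝ, 0 < t → -t ≤ ex V fun x => f x ^ 2 * Real.log (f x ^ 2) := fun t ht => by
      have e : ∀ x, f x ^ 2 * Real.log t - f x ^ 2 * 0 + (f x ^ 2 - t) ≤
          f x ^ 2 * Real.log (f x ^ 2) := fun x => by
        rcases eq_or_lt_of_le (sq_nonneg (f x)) with hu | hu
        · simp [← hu, ht.le]
        · have := young hu (Real.log t)
          rw [Real.exp_log ht] at this
          linarith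
      have := h.pin.ex_mono (((hf.tame_sq.mul (Tame.const _)).sub (hf.tame_sq.mul
        (Tame.const _))).add (hf.tame_sq.sub (Tame.const _))) hf.tame_log e
      rw [h.pin.ex_add ((hf.tame_sq.mul (Tame.const _)).sub (hf.tame_sq.mul (Tame.const _)))
        (hf.tame_sq.sub (Tame.const _)), h.pin.ex_sub (hf.tame_sq.mul (Tame.const _))
        (hf.tame_sq.mul (Tame.const _)), ex_mul_const, ex_mul_const,
        h.pin.ex_sub hf.tame_sq (Tame.const _), h.pin.ex_const, ← ha, ← h0] at this
      linarith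
    exact le_of_forall_pos_le_add fun t ht => by linarith [hb t ht]
  · have e : ∀ x, f x ^ 2 * Real.log (2 * a) + (f x ^ 2 - 2 * a * χ x) ≤
        f x ^ 2 * Real.log (f x ^ 2) := fun x => by
      by_cases hu : f x = 0
      · simp only [hu, ne_eq, OfNat.ofNat_ne_zero, not_false_eq_true, zero_pow, zero_mul,
          zero_add, zero_sub, neg_le_iff_add_nonneg]
        nlinarith [hχ0 x]
      · have := young (u := f x ^ 2) (by positivity) (Real.log (2 * a))
        rw [Real.exp_log (by positivity)] at this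
        rw [hχ1 x hu]
        linarith
    have h1 := h.pin.ex_mono ((hf.tame_sq.mul (Tame.const _)).add
      (hf.tame_sq.sub (hχ.const_mul _))) hf.tame_log e
    rw [h.pin.ex_add (hf.tame_sq.mul (Tame.const _)) (hf.tame_sq.sub (hχ.const_mul _)),
      ex_mul_const, h.pin.ex_sub hf.tame_sq (hχ.const_mul _), ex_const_mul, ← ha,
      Real.log_mul two_ne_zero h0.ne'] at h1
    rw [Ent2, ← ha]
    nlinarith

/-! ## Smooth truncation -/

/-- A smooth version of the positive part, vanishing on the negative half line. -/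
noncomputable def trunc (η s : ℝ) : ℝ := Real.sqrt (max s 0 ^ 2 + η ^ 2) - η

theorem hasDerivAt_max_sq (s : ℝ) : HasDerivAt (fun r : ℝ => max r 0 ^ 2) (2 * max s 0) s := by
  rcases lt_trichotomy s 0 with hs | rfl | hs
  · rw [max_eq_right hs.le, mul_zero]
    exact (hasDerivAt_const s 0).congr_of_eventuallyEq
      ((eventually_lt_nhds hs).mono fun r hr => by simp [max_eq_right hr.le])
  · rw [max_self, mul_zero, hasDerivAt_iff_isLittleO]
    refine (Asymptotics.IsBigO.of_bound 1 (Eventually.of_forall fun r => ?_)).trans_isLittleO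
      (Asymptotics.isLittleO_pow_id (n := 2) one_lt_two) |>.congr_right (by simp)
    rw [max_self, zero_pow two_ne_zero, sub_zero, smul_zero, sub_zero, one_mul, norm_pow, norm_pow]
    refine pow_le_pow_left₀ (norm_nonneg _) ?_ 2
    rcases le_total r 0 with h | h <;> simp [h]
  · rw [max_eq_left hs.le]
    simpa using (hasDerivAt_pow 2 s).congr_of_eventuallyEq
      ((eventually_gt_nhds hs).mono fun r hr => by simp [max_eq_left hr.le])

variable {η : ℝ}

theorem hasDerivAt_trunc (hη : 0 < η) (s : ℝ) :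
    HasDerivAt (trunc η) (max s 0 / Real.sqrt (max s 0 ^ 2 + η ^ 2)) s := by
  have h := (((hasDerivAt_max_sq s).add_const (η ^ 2)).sqrt (by positivity)).sub_const η
  exact h.congr_deriv (by ring)

theorem contDiff_trunc (hη : 0 < η) : ContDiff ℝ 1 (trunc η) := by
  rw [contDiff_one_iff_deriv]
  refine ⟨fun s => (hasDerivAt_trunc hη s).differentiableAt, ?_⟩
  rw [funext fun s => (hasDerivAt_trunc hη s).deriv]
  exact (continuous_id.max continuous_const).div (by fun_prop) fun s => by positivity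

theorem trunc_of_nonpos (hη : 0 < η) {s : ℝ} (hs : s ≤ 0) : trunc η s = 0 := by
  rw [trunc, max_eq_right hs, zero_pow two_ne_zero, zero_add, Real.sqrt_sq hη.le, sub_self]

theorem trunc_nonneg (η : ℝ) (s : ℝ) : 0 ≤ trunc η s := by
  rw [trunc, sub_nonneg]
  exact Real.le_sqrt_of_sq_le (by nlinarith [sq_nonneg (max s 0)])

theorem sub_le_trunc (η s : ℝ) : s - η ≤ trunc η s := by
  rw [trunc, sub_le_sub_iff_right]
  refine (le_max_left s 0).trans (Real.le_sqrt_of_sq_le ?_)
  nlinarith [sq_nonneg η]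

theorem Test.trunc (hf : Test f) (hη : 0 < η) {σ : ℝ} (hσ : |σ| ≤ 1) (b : ℝ) :
    Test (fun x => Vale.P245.Cube.trunc η (σ * f x + b)) ∧
      ∀ x v, fderiv ℝ (fun x => Vale.P245.Cube.trunc η (σ * f x + b)) x v ^ 2
        ≤ fderiv ℝ f x v ^ 2 := by
  have hd : ∀ x v, fderiv ℝ (fun x => Vale.P245.Cube.trunc η (σ * f x + b)) x v
      = max (σ * f x + b) 0 / Real.sqrt (max (σ * f x + b) 0 ^ 2 + η ^ 2)
        * (σ * fderiv ℝ f x v) := fun x v => by
    have hc : HasFDerivAt (fun x => Vale.P245.Cube.trunc η (σ * f x + b)) _ x :=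
      (hasDerivAt_trunc hη _).comp_hasFDerivAt x
        (((hf.smooth.differentiable one_ne_zero x).hasFDerivAt.const_mul σ).add_const b)
    rw [hc.fderiv]
    simp
  have hd1 : ∀ x v, |fderiv ℝ (fun x => Vale.P245.Cube.trunc η (σ * f x + b)) x v|
      ≤ |fderiv ℝ f x v| := fun x v => by
    rw [hd, abs_mul, abs_mul, abs_div, abs_of_nonneg (Real.sqrt_nonneg _)]
    have h1 : |max (σ * f x + b) 0| / Real.sqrt (max (σ * f x + b) 0 ^ 2 + η ^ 2) ≤ 1 := by
      rw [div_le_one (Real.sqrt_pos.2 (by positivity))]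
      exact Real.abs_le_sqrt (by nlinarith [sq_nonneg η])
    calc _ ≤ 1 * (1 * |fderiv ℝ f x v|) := mul_le_mul h1
            (mul_le_mul_of_nonneg_right hσ (abs_nonneg _)) (by positivity) zero_le_one
      _ = _ := by ring
  refine ⟨⟨(contDiff_trunc hη).comp ((contDiff_const.mul hf.smooth).add contDiff_const), ?_, ?_⟩,
    fun x v => sq_le_sq.2 (hd1 x v)⟩
  · obtain ⟨M, hM⟩ := hf.bdd
    obtain ⟨C, hC⟩ := (isCompact_Icc (a := -(|M| + |b|)) (b := |M| + |b|))
      |>.exists_bound_of_continuousOn (contDiff_trunc hη).continuous.continuousOn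
    refine ⟨C, fun x => hC _ (abs_le.1 ?_)⟩
    refine (abs_add_le _ _).trans (add_le_add ?_ le_rfl)
    rw [abs_mul]
    exact (mul_le_of_le_one_left (abs_nonneg _) hσ).trans ((hM x).trans (le_abs_self M))
  · obtain ⟨L, hL⟩ := hf.lip
    refine ⟨|L|, fun x => ContinuousLinearMap.opNorm_le_bound _ (abs_nonneg L) fun v => ?_⟩
    exact (hd1 x v).trans (((fderiv ℝ f x).le_opNorm v).trans
      (mul_le_mul_of_nonneg_right ((hL x).trans (le_abs_self L)) (norm_nonneg v)))

/-- The Poincaré inequality from the defective one. -/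
theorem poincare_of_defective (h : Reg V ε Λ) {B : ℝ} (hB : 0 ≤ B)
    (hdef : ∀ g, Dens V g → Hent V g ≤ B * Fish V g + 1 / 10) (hf : Test f) :
    ex V (fun x => f x ^ 2) - ex V f ^ 2 ≤ 48 * B * Dir V f := by
  refine le_of_forall_pos_le_add fun e he => ?_
  set η := Real.sqrt (e / 12) with hηd
  have hη : 0 < η := Real.sqrt_pos.2 (by positivity)
  have hη2 : 12 * η ^ 2 = e := by rw [hηd, Real.sq_sqrt (by positivity)]; ring
  set ρ : ℝ → ℝ := fun r => max 0 (min 1 ((r + η) / (2 * η))) with hρ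
  have hρc : Continuous ρ := by fun_prop
  have hρ0 : ∀ r, 0 ≤ ρ r := fun r => le_max_left _ _
  have hρ1 : ∀ r, ρ r ≤ 1 := fun r => max_le zero_le_one (min_le_left _ _)
  have hρhi : ∀ r, η ≤ r → ρ r = 1 := fun r hr => by
    simp only [hρ]
    rw [min_eq_left ((one_le_div (by positivity)).2 (by linarith)), max_eq_right zero_le_one]
  have hρlo : ∀ r, r ≤ -η → ρ r = 0 := fun r hr => by
    simp only [hρ]
    exact max_eq_left ((min_le_right _ _).trans
      (div_nonpos_of_nonpos_of_nonneg (by linarith) (by positivity)))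
  have hρlip : ∀ r r', ρ r ≤ ρ r' + |r - r'| / (2 * η) := fun r r' => by
    have h2 : (r + η) / (2 * η) ≤ (r' + η) / (2 * η) + |r - r'| / (2 * η) := by
      rw [← add_div]
      exact div_le_div_of_nonneg_right (by linarith [le_abs_self (r - r')]) (by positivity)
    have h3 : 0 ≤ |r - r'| / (2 * η) := by positivity
    simp only [hρ]
    refine max_le (by linarith [le_max_left (0 : ℝ) (min 1 ((r' + η) / (2 * η)))]) ?_
    have h4 : min 1 ((r' + η) / (2 * η)) ≤ max 0 (min 1 ((r' + η) / (2 * η))) := le_max_right _ _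
    rcases min_cases 1 ((r' + η) / (2 * η)) with ⟨e4, -⟩ | ⟨e4, -⟩ <;>
      linarith [min_le_left 1 ((r + η) / (2 * η)), min_le_right 1 ((r + η) / (2 * η))]
  set F : ℝ → ℝ := fun c => ex V fun x => ρ (f x - c) with hF
  have htρ : ∀ c, Tame fun x => ρ (f x - c) := fun c =>
    hf.tame_comp (φ := fun r => ρ (r - c)) (hρc.comp (continuous_id.sub continuous_const))
  have hFl : ∀ c c', F c ≤ F c' + |c - c'| / (2 * η) := fun c c' => by
    simp only [hF]
    rw [← h.pin.ex_const (|c - c'| / (2 * η)), ← h.pin.ex_add (htρ c') (Tame.const _)]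
    refine h.pin.ex_mono (htρ c) ((htρ c').add (Tame.const _)) fun x => ?_
    refine (hρlip _ (f x - c')).trans_eq ?_
    rw [show f x - c - (f x - c') = -(c - c') by ring, abs_neg]
  have hFc : Continuous F := (LipschitzWith.of_le_add_mul (1 / (2 * η)).toNNReal fun c c' => by
    rw [Real.coe_toNNReal _ (by positivity), Real.dist_eq]
    refine (hFl c c').trans_eq ?_
    ring).continuous
  obtain ⟨M, hM⟩ := hf.bdd
  obtain ⟨c, -, hc⟩ : ∃ c ∈ Set.Icc (-|M| - η) (|M| + η), F c = 1 / 2 := by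
    refine intermediate_value_Icc' (by linarith [abs_nonneg M]) hFc.continuousOn ⟨?_, ?_⟩
    · refine le_trans (le_of_eq ?_) (by norm_num : (0 : ℝ) ≤ 1 / 2)
      simp only [hF]
      rw [ex_congr fun x => hρlo (f x - (|M| + η))
        (by linarith [(abs_le.1 (hM x)).2, le_abs_self M]), h.pin.ex_const]
    · refine le_trans (by norm_num : (1 : ℝ) / 2 ≤ 1) (le_of_eq ?_)
      simp only [hF]
      rw [ex_congr fun x => hρhi (f x - (-|M| - η))
        (by linarith [(abs_le.1 (hM x)).1, le_abs_self M]), h.pin.ex_const]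
  simp only [hF] at hc
  have hpart : ∀ σ b : ℝ, |σ| ≤ 1 → ∀ χ : E n → ℝ, Tame χ → (∀ x, 0 ≤ χ x) →
      (∀ x, 0 < σ * f x + b → χ x = 1) → ex V χ ≤ 1 / 2 →
      ex V (fun x => trunc η (σ * f x + b) ^ 2) ≤ 8 * B * Dir V f := by
    intro σ b hσ χ hχ hχ0 hχ1 hχm
    obtain ⟨hT, hle⟩ := hf.trunc hη hσ b
    have h1 := log_two_le_ent2 h hT hχ hχ0 (fun x hx => hχ1 x (by
      by_contra hc
      exact hx (trunc_of_nonpos hη (not_lt.1 hc)))) hχm
    have h2 := ent2_defective h hB hdef hT
    have h3 : Dir V (fun x => trunc η (σ * f x + b)) ≤ Dir V f :=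
      h.pin.ex_mono hT.tame_dir hf.tame_dir fun x => Finset.sum_le_sum fun i _ => hle x _
    have h4 := mul_le_mul_of_nonneg_left h3 (by positivity : 0 ≤ 4 * B)
    have h5 : 0 ≤ ex V fun x => trunc η (σ * f x + b) ^ 2 := h.pin.ex_nonneg fun x => sq_nonneg _
    have h6 := mul_le_mul_of_nonneg_left Real.log_two_gt_d9.le h5
    linarith
  have hp := hpart 1 (-c - η) (by simp) _ (htρ c) (fun x => hρ0 _)
    (fun x hx => hρhi _ (by linarith)) (le_of_eq hc)
  have hq := hpart (-1) (c - η) (by simp) (fun x => 1 - ρ (f x - c))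
    ((Tame.const 1).sub (htρ c)) (fun x => sub_nonneg.2 (hρ1 _))
    (fun x hx => by rw [hρlo _ (by linarith), sub_zero])
    (by rw [h.pin.ex_sub (Tame.const 1) (htρ c), h.pin.ex_const, hc]; norm_num)
  have hsq : ex V (fun x => (f x - c) ^ 2) ≤ 48 * B * Dir V f + e := by
    have t1 : Tame fun x => trunc η (1 * f x + (-c - η)) ^ 2 := (hf.trunc hη (by simp) _).1.tame_sq
    have t2 : Tame fun x => trunc η (-1 * f x + (c - η)) ^ 2 := (hf.trunc hη (by simp) _).1.tame_sq
    have h1 := h.pin.ex_mono ((hf.tame.sub (Tame.const c)).pow 2)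
      (((t1.add t2).const_mul 3).add (Tame.const e)) fun x => by
      have a1 := sub_le_trunc η (1 * f x + (-c - η))
      have a2 := sub_le_trunc η (-1 * f x + (c - η))
      have b1 := trunc_nonneg η (1 * f x + (-c - η))
      have b2 := trunc_nonneg η (-1 * f x + (c - η))
      have habs : |f x - c| ≤ trunc η (1 * f x + (-c - η)) + trunc η (-1 * f x + (c - η)) + 2 * η :=
        abs_le.2 ⟨by linarith, by linarith⟩
      have h2 := pow_le_pow_left₀ (abs_nonneg _) habs 2
      rw [sq_abs] at h2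
      nlinarith [sq_nonneg (trunc η (1 * f x + (-c - η)) - trunc η (-1 * f x + (c - η))),
        sq_nonneg (trunc η (1 * f x + (-c - η)) - 2 * η),
        sq_nonneg (trunc η (-1 * f x + (c - η)) - 2 * η)]
    rw [h.pin.ex_add ((t1.add t2).const_mul 3) (Tame.const e), ex_const_mul,
      h.pin.ex_add t1 t2, h.pin.ex_const] at h1
    linarith
  refine le_trans ?_ hsq
  have e1 : ex V (fun x => (f x - c) ^ 2) = ex V (fun x => f x ^ 2) - 2 * c * ex V f + c ^ 2 := by
    rw [ex_congr fun x => show (f x - c) ^ 2 = f x ^ 2 - 2 * c * f x + c ^ 2 by ring,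
      h.pin.ex_add (hf.tame_sq.sub (hf.tame.const_mul _)) (Tame.const _),
      h.pin.ex_sub hf.tame_sq (hf.tame.const_mul _), ex_const_mul, h.pin.ex_const]
  rw [e1]
  nlinarith [sq_nonneg (ex V f - c)]

/-- `x log x - x + 1 ≤ (x - 1) ^ 2`. -/
theorem mul_log_le_sq {r : ℝ} (hr : 0 ≤ r) : r * Real.log r - r + 1 ≤ (r - 1) ^ 2 := by
  rcases eq_or_lt_of_le hr with rfl | h0
  · simp
  · nlinarith [mul_le_mul_of_nonneg_left (Real.log_le_sub_one_of_pos h0) hr]

/-- The pointwise comparison behind the centring. -/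
theorem centring_pointwise {a g w : ℝ} (hw : 0 < w) :
    (a + g) ^ 2 * Real.log ((a + g) ^ 2)
        - Real.log (a ^ 2 + w) * (a + g) ^ 2 - (a + g) ^ 2 + (a ^ 2 + w)
      ≤ 4 * (g ^ 2 * Real.log (g ^ 2) - Real.log w * g ^ 2) + 22 * g ^ 2 + 7 * w := by
  set t := a ^ 2 + w
  have ht : 0 < t := by positivity
  set u := g ^ 2
  set v := (a + g) ^ 2
  have hu : 0 ≤ u := sq_nonneg g
  have hv : 0 ≤ v := sq_nonneg _
  have elog : ∀ {r s : ℝ}, 0 ≤ r → 0 < s →
      r * Real.log r - Real.log s * r = s * ((r / s) * Real.log (r / s)) := by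
    intro r s hr hs
    rcases eq_or_lt_of_le hr with rfl | h0
    · simp
    · rw [Real.log_div h0.ne' hs.ne']
      field_simp
  have hlow : -w ≤ u * Real.log u - Real.log w * u := by
    rw [elog hu hw, ← mul_neg_one w]
    refine mul_le_mul_of_nonneg_left ?_ hw.le
    linarith [Real.self_sub_one_le_mul_log (div_nonneg hu hw.le), div_nonneg hu hw.le]
  rcases le_or_gt u t with hc | hc
  · have h1 : v * Real.log v - Real.log t * v - v + t ≤ (v - t) ^ 2 / t := by
      have := mul_le_mul_of_nonneg_left (mul_log_le_sq (div_nonneg hv ht.le)) ht.le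
      rw [elog hv ht]
      have e1 : t * (v / t) = v := by field_simp
      have e2 : t * (v / t - 1) ^ 2 = (v - t) ^ 2 / t := by field_simp
      nlinarith
    have h2 : (v - t) ^ 2 / t ≤ 15 * u + 3 * w := by
      rw [div_le_iff₀ ht]
      have e : v - t = 2 * a * g + u - w := by simp only [v, t, u]; ring
      have h3 : (v - t) ^ 2 ≤ 3 * (4 * (a ^ 2 * u) + u ^ 2 + w ^ 2) := by
        rw [e]
        nlinarith [sq_nonneg (2 * a * g - u), sq_nonneg (2 * a * g + w), sq_nonneg (u + w)]
      have h4 : a ^ 2 * u ≤ t * u := mul_le_mul_of_nonneg_right (by linarith) hu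
      have h5 : u ^ 2 ≤ t * u := by rw [sq]; exact mul_le_mul_of_nonneg_right hc hu
      have h6 : w ^ 2 ≤ t * w := by
        rw [sq]; exact mul_le_mul_of_nonneg_right (by nlinarith [sq_nonneg a]) hw.le
      linarith
    linarith
  · have hu0 : 0 < u := ht.trans hc
    have ha : a ^ 2 ≤ u := by linarith
    have hv4 : v ≤ 4 * u := by nlinarith [sq_nonneg (a - g)]
    have h1 : v * Real.log v - Real.log t * v ≤ 4 * u * (Real.log (4 * u) - Real.log w) := by
      rcases eq_or_lt_of_le hv with h0 | h0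
      · rw [← h0]
        simp only [zero_mul, mul_zero, sub_zero]
        refine mul_nonneg (by positivity) (sub_nonneg.2 (Real.log_le_log hw ?_))
        nlinarith [sq_nonneg a]
      · rw [mul_comm (Real.log t), ← mul_sub]
        have a1 : Real.log v - Real.log t ≤ Real.log (4 * u) - Real.log w :=
          sub_le_sub (Real.log_le_log h0 hv4) (Real.log_le_log hw (by nlinarith [sq_nonneg a]))
        have a2 : 0 ≤ Real.log (4 * u) - Real.log w :=
          sub_nonneg.2 (Real.log_le_log hw (by nlinarith [sq_nonneg a]))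
        exact (mul_le_mul_of_nonneg_left a1 hv).trans (mul_le_mul_of_nonneg_right hv4 a2)
    have h4 : Real.log 4 ≤ 3 := (Real.log_le_sub_one_of_pos (by norm_num)).trans (by norm_num)
    rw [Real.log_mul (by norm_num) hu0.ne'] at h1
    nlinarith

/-- Centring. -/
theorem ent2_le_centred (h : Reg V ε Λ) (hf : Test f) :
    Ent2 V f ≤ 4 * Ent2 V (fun x => f x - ex V f)
      + 29 * ex V (fun x => (f x - ex V f) ^ 2) := by
  set a := ex V f
  set g : E n → ℝ := fun x => f x - a
  set s := ex V fun x => g x ^ 2 with hs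
  have hs0 : 0 ≤ s := h.pin.ex_nonneg fun x => sq_nonneg _
  have tg : Tame fun x => g x ^ 2 := (hf.tame.sub (Tame.const a)).pow 2
  have tgl : Tame fun x => g x ^ 2 * Real.log (g x ^ 2) :=
    hf.tame_comp (φ := fun r => (r - a) ^ 2 * Real.log ((r - a) ^ 2))
      (Real.continuous_mul_log.comp ((continuous_id.sub continuous_const).pow 2))
  refine le_of_forall_pos_le_add fun e he => ?_
  set w := s + e / 7
  have hw : 0 < w := by positivity
  have hp : ∀ x, f x ^ 2 * Real.log (f x ^ 2) - Real.log (a ^ 2 + w) * f x ^ 2 - f x ^ 2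
      + (a ^ 2 + w) ≤ 4 * (g x ^ 2 * Real.log (g x ^ 2) - Real.log w * g x ^ 2) + 22 * g x ^ 2
        + 7 * w := fun x => by
    have := centring_pointwise (a := a) (g := g x) hw
    rwa [show a + g x = f x by simp [g]] at this
  have t1 : Tame fun x =>
      f x ^ 2 * Real.log (f x ^ 2) - Real.log (a ^ 2 + w) * f x ^ 2 :=
    hf.tame_log.sub (hf.tame_sq.const_mul _)
  have t2 : Tame fun x => 4 * (g x ^ 2 * Real.log (g x ^ 2) - Real.log w * g x ^ 2) :=
    (tgl.sub (tg.const_mul _)).const_mul 4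
  have h1 := h.pin.ex_mono ((t1.sub hf.tame_sq).add (Tame.const _))
    ((t2.add (tg.const_mul 22)).add (Tame.const _)) hp
  rw [h.pin.ex_add (t1.sub hf.tame_sq) (Tame.const _), h.pin.ex_sub t1 hf.tame_sq,
    h.pin.ex_sub hf.tame_log (hf.tame_sq.const_mul _), ex_const_mul, h.pin.ex_const,
    h.pin.ex_add (t2.add (tg.const_mul 22)) (Tame.const _), h.pin.ex_add t2 (tg.const_mul 22),
    ex_const_mul, ex_const_mul, h.pin.ex_sub tgl (tg.const_mul _), ex_const_mul,
    h.pin.ex_const, ← hs] at h1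
  set A := ex V fun x => f x ^ 2
  have hA : 0 ≤ A := h.pin.ex_nonneg fun x => sq_nonneg _
  have h2 : A * Real.log (a ^ 2 + w) + A - (a ^ 2 + w) ≤ A * Real.log A := by
    rcases eq_or_lt_of_le hA with h0 | h0
    · rw [← h0]
      simp only [zero_mul, zero_add, zero_sub, neg_nonpos]
      positivity
    · have := young h0 (Real.log (a ^ 2 + w))
      rw [Real.exp_log (by positivity)] at this
      linarith
  have h3 : s * Real.log s ≤ s * Real.log w := by
    rcases eq_or_lt_of_le hs0 with h0 | h0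
    · rw [← h0]; simp
    · exact mul_le_mul_of_nonneg_left (Real.log_le_log h0 (by simp only [w]; linarith)) hs0
  simp only [Ent2]
  rw [← hs]
  simp only [w] at h1 h2 h3 ⊢
  linarith

theorem exists_lsi_reg : ∃ K : ℝ, 0 < K ∧ ∀ (n : ℕ) (V : E n → ℝ) (ε Λ : ℝ), 1 ≤ n →
    Reg V ε Λ → Sub V → ∀ f : E n → ℝ, ContDiff ℝ 1 f → (∃ M, ∀ x, |f x| ≤ M) →
      (∃ L, ∀ x, ‖fderiv ℝ f x‖ ≤ L) →
      Ent2 V f ≤ K * (n : ℝ) ^ (1 / 3 : ℝ) * ex V (fun x => ∑ i, fderiv ℝ f x (bv i) ^ 2) := by
  obtain ⟨K, hK, hdef⟩ := exists_defective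
  refine ⟨2000 * K, by positivity, fun n V ε Λ hn h hsub f h1 h2 h3 => ?_⟩
  set B := K * (n : ℝ) ^ (1 / 3 : ℝ) with hB'
  have hB : 0 ≤ B := by positivity
  have hd : ∀ g, Dens V g → Hent V g ≤ B * Fish V g + 1 / 10 :=
    fun g hg => hdef n V g ε Λ hn h hsub hg
  have hf : Test f := ⟨h1, h2, h3⟩
  obtain ⟨M, hM⟩ := h2
  obtain ⟨L, hL⟩ := h3
  set a := ex V f
  have hg : Test fun x => f x - a := ⟨h1.sub contDiff_const,
    ⟨M + |a|, fun x => (abs_sub _ _).trans (add_le_add (hM x) le_rfl)⟩,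
    ⟨L, fun x => by simp [fderiv_sub_const, hL x]⟩⟩
  have e : Dir V (fun x => f x - a) = Dir V f :=
    ex_congr fun x => by simp [fderiv_sub_const]
  have q1 := ent2_le_centred h hf
  have q2 := ent2_defective h hB hd hg
  have q3 := poincare_of_defective h hB hd hg
  rw [e] at q2 q3
  have q4 : ex V (fun x => f x - a) = 0 := by
    rw [h.pin.ex_sub hf.tame (Tame.const a), h.pin.ex_const, sub_self]
  rw [q4, zero_pow two_ne_zero, sub_zero] at q3
  show _ ≤ _ * Dir V f
  have q5 : 0 ≤ B * Dir V f := mul_nonneg hB (Dir_nonneg h)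
  rw [show 2000 * K * (n : ℝ) ^ (1 / 3 : ℝ) * Dir V f = 2000 * (B * Dir V f) by rw [hB']; ring]
  linarith

end Vale.P245.Cube
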