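import Vale.Agent.P245.Cube.Limit
import Vale.Agent.P245.Cube.Tight

/-! # From regular potentials to log-concave densities

The law of `X + √δ Z`, tilted by `exp (-δ |x|² / 2)`, centred and divided by `a (1 + η)`, is regular and
subgaussian at scale one once `δ` is small. -/

namespace Vale.P245.Cube

open MeasureTheory Filter Topology Vale.P254.Skew
open scoped RealInnerProductSpace ENNReal

variable {n : ℕ}

theorem pinched_affine {W : E n → ℝ} {l u : ℝ} (h : Pinched W l u) {c : ℝ} (hc : 0 < c) (m : E n)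
    (d : ℝ) : Pinched (fun z => W (m + c • z) + d) (c ^ 2 * l) (c ^ 2 * u) := by
  refine pinched_of_secDiff ((h.smooth.comp (contDiff_const.add (contDiff_const_smul c))).add
    contDiff_const) (by have := h.pos; positivity) fun x w => ?_
  have e : secDiff (fun z => W (m + c • z) + d) x w = secDiff W (m + c • x) (c • w) := by
    simp only [secDiff, smul_add, smul_sub, add_sub_assoc, add_assoc]
    ring
  have := h.secDiff_mem (m + c • x) (c • w)
  rw [norm_smul, mul_pow, Real.norm_eq_abs, sq_abs] at this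
  rw [e]
  constructor <;> nlinarith

theorem integral_affine_pos (F : E n → ℝ) {c : ℝ} (hc : 0 < c) (m : E n) :
    ∫ z, F (m + c • z) = (c ^ n)⁻¹ * ∫ x, F x := by
  rw [Measure.integral_comp_smul volume (fun u => F (m + u)) c, integral_add_left_eq_self F m,
    finrank_euclideanSpace_fin, abs_of_pos (inv_pos.2 (pow_pos hc n)), smul_eq_mul]

theorem ex_affine (W G : E n → ℝ) {c : ℝ} (hc : 0 < c) (m : E n) (d : ℝ) :
    ex (fun z => W (m + c • z) + d) (fun z => G (m + c • z)) = ex W G := by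
  have e1 := integral_affine_pos (fun x => Real.exp (-(W x + d))) hc m
  have e2 := integral_affine_pos (fun x => Real.exp (-(W x + d)) * G x) hc m
  have e3 : ∀ x, Real.exp (-(W x + d)) = Real.exp (-d) * Real.exp (-W x) := fun x => by
    rw [← Real.exp_add]
    ring_nf
  simp only [ex, Zc, smul_eq_mul]
  rw [e1, e2]
  simp only [e3, mul_assoc, integral_const_mul]
  have : 0 < c ^ n := pow_pos hc n
  have := Real.exp_pos (-d)
  field_simp

theorem norm_le_sum_abs (x : E n) : ‖x‖ ≤ ∑ i, |x i| := by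
  conv_lhs => rw [← sum_smul_bv x]
  refine (norm_sum_le _ _).trans (le_of_eq ?_)
  simp [norm_smul]

theorem tendsto_norm_zero_of_coord {ι : Type} {l : Filter ι} {m : ι → E n}
    (h : ∀ i, Tendsto (fun δ => m δ i) l (𝓝 0)) : Tendsto (fun δ => ‖m δ‖) l (𝓝 0) := by
  refine squeeze_zero (fun δ => norm_nonneg _) (fun δ => norm_le_sum_abs (m δ)) ?_
  simpa using tendsto_finsetSum Finset.univ fun i _ => (h i).abs

variable {ρ : E n → ℝ} {a : ℝ}

/-- Linear subgaussianity of a density at scale `a`. -/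
def SubDens (ρ : E n → ℝ) (a : ℝ) : Prop :=
  ∀ v : E n, ‖v‖ = 1 → Integrable (fun x => ρ x * Real.exp (⟪x, v⟫ ^ 2 / a ^ 2)) ∧
    ∫ x, ρ x * Real.exp (⟪x, v⟫ ^ 2 / a ^ 2) ≤ 2

theorem SubDens.integrable_norm (hs : SubDens ρ a) (h : LogDens ρ) (ha : 0 < a) :
    Integrable fun y => ρ y * (1 + ‖y‖) := by
  have hi : Integrable fun y : E n =>
      ρ y + ∑ i, a * (ρ y * Real.exp (⟪y, bv i⟫ ^ 2 / a ^ 2)) :=
    h.integrable.add (integrable_finsetSum _ fun i _ => ((hs _ (norm_bv i)).1).const_mul a)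
  refine hi.mono' (h.meas.mul (by fun_prop : Measurable fun y : E n => 1 + ‖y‖)).aestronglyMeasurable
    (Eventually.of_forall fun y => ?_)
  rw [Real.norm_eq_abs, abs_of_nonneg (mul_nonneg (h.nonneg y) (by positivity)), mul_add, mul_one]
  simp only [inner_bv, mul_left_comm a, ← Finset.mul_sum]
  refine add_le_add le_rfl (mul_le_mul_of_nonneg_left ((norm_le_sum_abs y).trans
    ((Finset.sum_le_sum fun i _ => ?_).trans (Finset.mul_sum _ _ _).ge)) (h.nonneg y))
  have h1 := Real.add_one_le_exp (y i ^ 2 / a ^ 2)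
  have h2 : |y i| ≤ a * (y i ^ 2 / a ^ 2 + 1) := by
    have := two_mul_le_add_sq |y i| a
    rw [sq_abs] at this
    field_simp
    nlinarith [abs_nonneg (y i), mul_nonneg ha.le (abs_nonneg (y i)), sq_abs (y i)]
  exact h2.trans (mul_le_mul_of_nonneg_left h1 ha.le)

/-- The centre of the smoothed law. -/
noncomputable def ctr (ρ : E n → ℝ) (δ : ℝ) : E n :=
  ∑ i, ex (Wt δ ρ) (fun x => x i) • bv i

theorem ctr_apply (ρ : E n → ℝ) (δ : ℝ) (i : Fin n) :
    ctr ρ δ i = ex (Wt δ ρ) (fun x => x i) := by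
  simp [ctr, bv, Pi.single_apply]

theorem tendsto_ctr (hs : SubDens ρ a) (h : LogDens ρ) (ha : 0 < a)
    (hmean : ∀ i, ∫ x, ρ x * x i = 0) :
    Tendsto (fun δ => ‖ctr ρ δ‖) (𝓝[>] 0) (𝓝 0) := by
  refine tendsto_norm_zero_of_coord fun i => ?_
  simp only [ctr_apply]
  suffices H : Tendsto (fun δ => ex (Wt δ ρ) fun x => x i) (𝓝[>] 0)
      (𝓝 (∫ x, ρ x * x i)) by rwa [hmean i] at H
  refine tendsto_ex (G := fun x : E n => x i) (A := fun y => 1 + ‖y‖) (B := fun z => 1 + ‖z‖) h (fun δ hδ => ⟨by fun_prop,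
    hs.integrable_norm h ha, integrable_gker_linear, fun y z => ?_⟩) (by fun_prop)
  have h1 : |(y + Real.sqrt δ • z) i| ≤ ‖y + Real.sqrt δ • z‖ := by
    simpa using PiLp.norm_apply_le (y + Real.sqrt δ • z) i
  have h2 : Real.sqrt δ ≤ 1 := Real.sqrt_le_one.2 hδ.2
  have h3 := norm_add_le y (Real.sqrt δ • z)
  rw [norm_smul, Real.norm_of_nonneg (Real.sqrt_nonneg δ)] at h3
  nlinarith [norm_nonneg y, norm_nonneg z, mul_nonneg (norm_nonneg y) (norm_nonneg z),
    mul_le_mul_of_nonneg_right h2 (norm_nonneg z)]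

/-- The regularised potential. -/
noncomputable def Vd (ρ : E n → ℝ) (b δ : ℝ) (z : E n) : ℝ :=
  Wt δ ρ (ctr ρ δ + b • z) + Real.log ((b ^ n)⁻¹ * Zc (Wt δ ρ))

theorem reg_Vd (h : LogDens ρ) {b δ : ℝ} (hb : 0 < b) (hδ : 0 < δ) :
    Reg (Vd ρ b δ) (b ^ 2 * δ) (b ^ 2 * (δ⁻¹ + δ)) := by
  have hW := h.pinched_Wt hδ
  have hpos : 0 < (b ^ n)⁻¹ * Zc (Wt δ ρ) := mul_pos (inv_pos.2 (pow_pos hb n)) hW.zc_pos
  refine ⟨pinched_affine hW hb _ _, by positivity, ?_, fun v => ?_⟩
  · simp only [Zc, Vd, neg_add, Real.exp_add, integral_mul_const]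
    simp only [Zc] at hpos
    rw [integral_affine_pos (fun x => Real.exp (-Wt δ ρ x)) hb, Real.exp_neg, Real.exp_log hpos]
    exact mul_inv_cancel₀ hpos.ne'
  · have e : (fun z => ⟪z, v⟫) = fun z : E n =>
        (fun x => b⁻¹ * (⟪x, v⟫ - ⟪ctr ρ δ, v⟫)) (ctr ρ δ + b • z) := by
      funext z
      simp only [inner_add_left, real_inner_smul_left, add_sub_cancel_left]
      field_simp
    unfold Vd
    rw [e, ex_affine (Wt δ ρ) (fun x => b⁻¹ * (⟪x, v⟫ - ⟪ctr ρ δ, v⟫)) hb, ex_const_mul, hW.ex_sub (tame_inner v) (Tame.const _),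
      hW.ex_const]
    have e1 : ex (Wt δ ρ) (fun x => ⟪x, v⟫) = ⟪ctr ρ δ, v⟫ := by
      simp only [inner_eq_sum]
      rw [hW.ex_sum _ fun i _ => (tame_coord i).const_mul _]
      simp only [ex_const_mul, ctr_apply]
    rw [e1, sub_self, mul_zero]

theorem exp_mul_le_mix {p : ℝ} (hp : 0 ≤ p) (hp1 : p ≤ 1) (u : ℝ) :
    Real.exp (p * u) ≤ p * Real.exp u + (1 - p) := by
  have := convexOn_exp.2 (Set.mem_univ u) (Set.mem_univ (0 : ℝ)) hp (sub_nonneg.2 hp1)
    (by ring : p + (1 - p) = 1)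
  simpa using this

theorem sub_Vd (h : LogDens ρ) (hs : SubDens ρ a) (ha : 0 < a)
    (hmean : ∀ i, ∫ x, ρ x * x i = 0) {η : ℝ} (hη : 0 < η) :
    ∀ᶠ δ in 𝓝[>] (0 : ℝ), Sub (Vd ρ (a * (1 + η)) δ) := by
  set p := 1 / (1 + η) with hp
  have hp0 : 0 < p := by positivity
  have hp1 : p < 1 := (div_lt_one (by positivity)).2 (by linarith)
  set C := 2 / (a ^ 2 * η * (1 + η)) with hC
  have hZ := integral_gker_pos (n := n)
  set BI : ℝ → ℝ := fun δ => (1 + p) *
    ((∫ z : E n, gker z * Real.exp (C * δ * ‖z‖ ^ 2)) * Real.exp (C * ‖ctr ρ δ‖ ^ 2)) with hBI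
  have hlim : Tendsto BI (𝓝[>] 0) (𝓝 ((1 + p) * ((∫ z : E n, gker z) * 1))) := by
    refine ((tendsto_gker_exp C).mul ?_).const_mul _
    simpa using ((tendsto_ctr hs h ha hmean).pow 2 |>.const_mul C).rexp
  have hev1 := hlim.eventually_lt ((tendsto_Jd_one h).const_mul 2) (by nlinarith)
  have hC0 : 0 < C := by positivity
  have hev2 : ∀ᶠ δ in 𝓝[>] (0 : ℝ), δ ∈ Set.Ioo (0 : ℝ) (1 / (4 * C)) :=
    Ioo_mem_nhdsGT (by positivity)
  filter_upwards [hev1, hev2] with δ hB ⟨hδ, hδC⟩ v hv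
  set b := a * (1 + η) with hb
  have hb0 : 0 < b := by positivity
  set m := ctr ρ δ
  set G : E n → ℝ := fun x => Real.exp ((⟪x, v⟫ - ⟪m, v⟫) ^ 2 / b ^ 2) with hG
  set A : E n → ℝ := fun y => Real.exp (p * (⟪y, v⟫ ^ 2 / a ^ 2)) with hA
  set B : E n → ℝ := fun z => Real.exp (C * ‖m‖ ^ 2) * Real.exp (C * δ * ‖z‖ ^ 2) with hB'
  obtain ⟨hi, hle⟩ := hs v hv
  have hAle : ∀ y, ρ y * A y
      ≤ p * (ρ y * Real.exp (⟪y, v⟫ ^ 2 / a ^ 2)) + (1 - p) * ρ y := fun y => by
    refine (mul_le_mul_of_nonneg_left (exp_mul_le_mix hp0.le hp1.le _) (h.nonneg y)).trans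
      (le_of_eq ?_)
    ring
  have hRI : Integrable fun y => p * (ρ y * Real.exp (⟪y, v⟫ ^ 2 / a ^ 2)) + (1 - p) * ρ y :=
    (hi.const_mul p).add (h.integrable.const_mul _)
  have hAI : Integrable fun y => ρ y * A y :=
    hRI.mono' (h.meas.mul (by fun_prop : Measurable A)).aestronglyMeasurable
      (Eventually.of_forall fun y => by
        rw [Real.norm_eq_abs, abs_of_nonneg (mul_nonneg (h.nonneg y) (Real.exp_pos _).le)]
        exact hAle y)
  have hAint : ∫ y, ρ y * A y ≤ 1 + p := by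
    refine (integral_mono hAI hRI hAle).trans ?_
    rw [integral_add (hi.const_mul p) (h.integrable.const_mul _), integral_const_mul,
      integral_const_mul, h.mass]
    nlinarith
  have hCδ : C * δ < 1 / 2 := by
    rw [lt_div_iff₀ (by positivity)] at hδC
    linarith
  have hBI' : Integrable fun z => gker z * B z :=
    ((integrable_gker_exp hCδ).const_mul (Real.exp (C * ‖m‖ ^ 2))).congr
      (Eventually.of_forall fun z => by simp only [hB']; ring)
  have hbd : ∀ y z, |G (y + Real.sqrt δ • z)| ≤ A y * B z := fun y z => by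
    simp only [hG, hA, hB', Real.abs_exp, ← Real.exp_add, Real.exp_le_exp, inner_add_left,
      real_inner_smul_left]
    set Y := ⟪y, v⟫
    set R := Real.sqrt δ * ⟪z, v⟫ - ⟪m, v⟫ with hR
    rw [add_sub_assoc, ← hR]
    have hR2 : R ^ 2 ≤ 2 * (δ * ‖z‖ ^ 2 + ‖m‖ ^ 2) := by
      have h1 : ⟪z, v⟫ ^ 2 ≤ ‖z‖ ^ 2 := by
        have := abs_real_inner_le_norm z v
        rw [hv, mul_one] at this
        simpa using pow_le_pow_left₀ (abs_nonneg _) this 2
      have h2 : ⟪m, v⟫ ^ 2 ≤ ‖m‖ ^ 2 := by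
        have := abs_real_inner_le_norm m v
        rw [hv, mul_one] at this
        simpa using pow_le_pow_left₀ (abs_nonneg _) this 2
      have h3 := mul_le_mul_of_nonneg_left h1 hδ.le
      have h4 := Real.sq_sqrt hδ.le
      simp only [hR]
      nlinarith [sq_nonneg (Real.sqrt δ * ⟪z, v⟫ + ⟪m, v⟫)]
    have hY : (Y + R) ^ 2 ≤ (1 + η) * Y ^ 2 + (1 + 1 / η) * R ^ 2 := by
      have : (1 + η) * Y ^ 2 + (1 + 1 / η) * R ^ 2 - (Y + R) ^ 2 = (η * Y - R) ^ 2 / η := by
        field_simp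
        ring
      have : 0 ≤ (η * Y - R) ^ 2 / η := by positivity
      linarith
    calc (Y + R) ^ 2 / b ^ 2
        ≤ ((1 + η) * Y ^ 2 + (1 + 1 / η) * (2 * (δ * ‖z‖ ^ 2 + ‖m‖ ^ 2))) / b ^ 2 := by
          gcongr
          exact hY.trans (add_le_add le_rfl (mul_le_mul_of_nonneg_left hR2 (by positivity)))
      _ = _ := by
          simp only [hb, hp, hC]
          field_simp
          ring
  have hd : Dom δ ρ G A B := ⟨by fun_prop, hAI, hBI', hbd⟩
  obtain ⟨hint, -⟩ := hd.identity h hδ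
  have hJ : Jd δ ρ G ≤ BI δ := by
    refine (integral_mono (hd.integrable_smI h hδ.le) (hAI.mul_prod hBI')
      fun q => (le_abs_self _).trans (abs_smI_le h hδ.le hbd q)).trans ?_
    rw [show (volume : Measure (E n × E n)) = volume.prod volume from rfl,
      integral_prod_mul (fun y => ρ y * A y) (fun z => gker z * B z)]
    have : ∫ z, gker z * B z
        = (∫ z : E n, gker z * Real.exp (C * δ * ‖z‖ ^ 2)) * Real.exp (C * ‖m‖ ^ 2) := by
      rw [← integral_mul_const]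
      exact integral_congr_ae (Eventually.of_forall fun z => by simp only [hB']; ring)
    rw [this]
    exact mul_le_mul_of_nonneg_right hAint (mul_nonneg
      (integral_nonneg fun z => mul_nonneg (gker_pos z).le (Real.exp_pos _).le) (Real.exp_pos _).le)
  have e : (fun z => Real.exp (⟪z, v⟫ ^ 2)) = fun z : E n => G (m + b • z) := by
    funext z
    simp only [hG, inner_add_left, real_inner_smul_left, add_sub_cancel_left]
    congr 1
    field_simp
  refine ⟨?_, ?_⟩
  · set d := Real.log ((b ^ n)⁻¹ * Zc (Wt δ ρ))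
    have h1 := ((hint.comp_add_left m).comp_smul hb0.ne').const_mul (Real.exp (-d))
    refine h1.congr (Eventually.of_forall fun z => ?_)
    have ez : Real.exp (⟪z, v⟫ ^ 2) = G (m + b • z) := congrFun e z
    simp only []
    rw [ez, Vd, neg_add, Real.exp_add]
    ring
  · unfold Vd
    rw [e, ex_affine (Wt δ ρ) G hb0, hd.ex_eq h hδ, div_le_iff₀ (Jd_one_pos h hδ)]
    linarith

/-- The inequality passes from regular potentials to every log-concave density. -/
theorem approx_lsi {K : ℝ}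
    (hK : ∀ (V : E n → ℝ) (ε Λ : ℝ), Reg V ε Λ → Sub V → ∀ f : E n → ℝ, ContDiff ℝ 1 f →
      (∃ M, ∀ x, |f x| ≤ M) → (∃ L, ∀ x, ‖fderiv ℝ f x‖ ≤ L) →
      Ent2 V f ≤ K * ex V (fun x => ∑ i, fderiv ℝ f x (bv i) ^ 2))
    (h : LogDens ρ) (ha : 0 < a) (hmean : ∀ i, ∫ x, ρ x * x i = 0) (hs : SubDens ρ a)
    {f : E n → ℝ} (hf : ContDiff ℝ 1 f) (hfs : HasCompactSupport f) :
    (∫ x, ρ x * (f x ^ 2 * Real.log (f x ^ 2)))
        - (∫ x, ρ x * f x ^ 2) * Real.log (∫ x, ρ x * f x ^ 2)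
      ≤ K * a ^ 2 * ∫ x, ρ x * ∑ i, fderiv ℝ f x (bv i) ^ 2 := by
  obtain ⟨M, hM⟩ := hf.continuous.bounded_above_of_compact_support hfs
  have hcL := hf.continuous_fderiv one_ne_zero
  obtain ⟨L, hL⟩ := hcL.bounded_above_of_compact_support (hfs.fderiv ℝ)
  have hd := hf.differentiable one_ne_zero
  set Φ : E n → ℝ := fun x => f x ^ 2 * Real.log (f x ^ 2) with hΦ
  set S : E n → ℝ := fun x => ∑ i, fderiv ℝ f x (bv i) ^ 2 with hS
  have hΦc : Continuous Φ := Real.continuous_mul_log.comp (hf.continuous.pow 2)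
  have hS0 : ∀ x, 0 ≤ S x := fun x => Finset.sum_nonneg fun i _ => sq_nonneg _
  have hSc : Continuous S := by
    simp only [hS]
    fun_prop
  obtain ⟨MΦ, hMΦ⟩ : ∃ M', ∀ x, |Φ x| ≤ M' := by
    refine hΦc.bounded_above_of_compact_support ?_
    exact hfs.comp_left (g := fun r => r ^ 2 * Real.log (r ^ 2)) (by simp)
  have hMS : ∀ x, |S x| ≤ ∑ _i : Fin n, L ^ 2 := fun x => by
    rw [abs_of_nonneg (hS0 x)]
    refine Finset.sum_le_sum fun i _ => ?_
    rw [← sq_abs]
    refine pow_le_pow_left₀ (abs_nonneg _) ?_ 2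
    simpa [Real.norm_eq_abs] using ((fderiv ℝ f x).le_opNorm (bv i)).trans
      (mul_le_mul_of_nonneg_right (hL x) (norm_nonneg _))
  have hf2 : ∀ x, |f x ^ 2| ≤ M ^ 2 := fun x => by
    rw [abs_of_nonneg (sq_nonneg _), ← sq_abs]
    exact pow_le_pow_left₀ (abs_nonneg _) (by simpa using hM x) 2
  have t1 := tendsto_ex_bounded h hΦc hMΦ
  have hf2c : Continuous fun x => f x ^ 2 := hf.continuous.pow 2
  have t2 := tendsto_ex_bounded h hf2c hf2
  have t3 := tendsto_ex_bounded h hSc hMS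
  have key : ∀ η : ℝ, 0 < η →
      (∫ x, ρ x * Φ x) - (∫ x, ρ x * f x ^ 2) * Real.log (∫ x, ρ x * f x ^ 2)
        ≤ K * (a * (1 + η)) ^ 2 * ∫ x, ρ x * S x := by
    intro η hη
    set b := a * (1 + η)
    have hb : 0 < b := by positivity
    refine le_of_tendsto_of_tendsto (t1.sub ((Real.continuous_mul_log.tendsto _).comp t2))
      (t3.const_mul (K * b ^ 2)) ?_
    filter_upwards [sub_Vd h hs ha hmean hη, self_mem_nhdsWithin] with δ hsub hδ
    set g : E n → ℝ := fun z => f (ctr ρ δ + b • z) with hg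
    have hgd : ∀ z, fderiv ℝ g z = b • fderiv ℝ f (ctr ρ δ + b • z) := fun z => by
      have := (hd (ctr ρ δ + b • z)).hasFDerivAt.comp z
        (((hasFDerivAt_id (𝕜 := ℝ) z).const_smul b).const_add (ctr ρ δ))
      refine this.fderiv.trans ?_
      ext v
      simp
    have hgc : ContDiff ℝ 1 g := hf.comp (contDiff_const.add (contDiff_const_smul b))
    have := hK _ _ _ (reg_Vd h hb hδ) hsub g hgc ⟨M, fun z => by simpa [hg] using hM _⟩
      ⟨b * L, fun z => by
        rw [hgd, norm_smul, Real.norm_of_nonneg hb.le]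
        exact mul_le_mul_of_nonneg_left (hL _) hb.le⟩
    have e : (fun z => ∑ i, fderiv ℝ g z (bv i) ^ 2)
        = fun z => (fun x => b ^ 2 * S x) (ctr ρ δ + b • z) := by
      funext z
      simp only [hgd, hS, Finset.mul_sum]
      exact Finset.sum_congr rfl fun i _ => by simp [mul_pow]
    rw [e] at this
    unfold Ent2 Vd at this
    simp only [hg] at this
    rw [ex_affine (Wt δ ρ) (fun x => f x ^ 2 * Real.log (f x ^ 2)) hb,
      ex_affine (Wt δ ρ) (fun x => f x ^ 2) hb, ex_affine (Wt δ ρ) (fun x => b ^ 2 * S x) hb,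
      ex_const_mul] at this
    simp only [Function.comp_apply, hΦ]
    linarith
  have hlim : Tendsto (fun η : ℝ => K * (a * (1 + η)) ^ 2 * ∫ x, ρ x * S x) (𝓝[>] 0)
      (𝓝 (K * a ^ 2 * ∫ x, ρ x * S x)) := by
    have hc : Continuous fun η : ℝ => K * (a * (1 + η)) ^ 2 * ∫ x, ρ x * S x := by fun_prop
    simpa using (hc.tendsto 0).mono_left (nhdsWithin_le_nhds (s := Set.Ioi (0 : ℝ)))
  exact ge_of_tendsto hlim (eventually_nhdsWithin_of_forall fun η hη => key η hη)

end Vale.P245.Cube
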