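import Vale.Agent.P245.Cube.Lich.Poincare

/-! # The improved Lichnerowicz inequality -/

namespace Vale.P245.Cube

open MeasureTheory Vale.P254.Skew
open scoped RealInnerProductSpace

/-- The improvement step for a Poincaré constant. -/
theorem Lich.step {n : ℕ} {W : E n → ℝ} {a b κ : ℝ} (h : Pinched W a b) (hκ : 0 ≤ κ)
    (hvar : ∀ v : E n, ex W (fun x => ⟪x, v⟫ ^ 2) - ex W (fun x => ⟪x, v⟫) ^ 2 ≤ κ * ‖v‖ ^ 2)
    {C : ℝ} (h0 : 0 ≤ C) (hC : ∀ u : E n → ℝ, ContDiff ℝ 3 u → HasCompactSupport u →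
      ex W (Lich.gsq u) ≤ C * ex W (fun x => Lich.Lop W u x ^ 2))
    {u : E n → ℝ} (hu : ContDiff ℝ 3 u) (hus : HasCompactSupport u) :
    ex W (Lich.gsq u) ≤ (κ + C) / (1 + C * a) * ex W (fun x => Lich.Lop W u x ^ 2) := by
  open Lich in
  have ha := h.pos
  have hu2 : ContDiff ℝ 2 u := hu.of_le (by norm_num)
  have t1 : ∀ i, Tame (dd i u) := fun i => tame_dd_of_supp (hu.of_le (by norm_num)) hus i
  have tH : ∀ i, Tame (gsq (dd i u)) := fun i => Tame.sum _ fun j _ =>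
    (tame_dd_of_supp (contDiff_dd₁ hu2 i) (hasCompactSupport_dd hus i) j).pow 2
  set Y := ex W (fun x => Lop W u x ^ 2)
  let m : E n := ∑ i, ex W (dd i u) • bv i
  have hmi : ∀ i, m i = ex W (dd i u) := fun i => by simp [m, bv, Pi.single_apply]
  have hm : ‖m‖ ^ 2 = ∑ i, ex W (dd i u) ^ 2 := by
    rw [EuclideanSpace.real_norm_sq_eq]; simp only [hmi]
  have hl : ContDiff ℝ 1 fun x : E n => ⟪x, m⟫ := contDiff_id.inner ℝ contDiff_const
  set c := ex W (fun x => ⟪x, m⟫)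
  have hd : ∀ i x, dd i (fun x : E n => ⟪x, m⟫ - c) x = m i := fun i x => by
    rw [dd_sub_const]
    show fderiv ℝ (fun x : E n => ⟪x, m⟫) x (bv i) = _
    rw [show (fun x : E n => ⟪x, m⟫) = innerSL ℝ m from funext fun y => real_inner_comm m y,
      (innerSL ℝ m).fderiv]
    simp [bv, EuclideanSpace.inner_single_right]
  have tl := (tame_inner m).sub (Tame.const (k := n) c)
  have hi := ibp_Lop h (hl.sub contDiff_const) tl
    (fun i => (funext (hd i)).symm ▸ Tame.const (m i)) hu2 hus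
  simp only [hd] at hi
  rw [h.ex_sum _ fun i _ => (Tame.const (m i)).mul (t1 i)] at hi
  simp only [ex_const_mul, hmi, ← sq, ← hm] at hi
  have hcs := h.sq_ex_mul_le tl (tame_Lop h hu2 hus)
  rw [hi, neg_sq] at hcs
  have hv : ex W (fun x => (⟪x, m⟫ - c) ^ 2) ≤ κ * ‖m‖ ^ 2 := by
    have := h.ex_cov (tame_inner (k := n) m) (tame_inner m)
    simp only [← sq] at this
    rw [this]
    exact hvar m
  have hY : 0 ≤ Y := h.ex_nonneg fun x => sq_nonneg _
  have hmY : ‖m‖ ^ 2 ≤ κ * Y := by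
    rcases (sq_nonneg ‖m‖).eq_or_lt with h' | h'
    · rw [← h']; positivity
    · nlinarith [hcs.trans (mul_le_mul_of_nonneg_right hv hY)]
  have hP : ∀ i, ex W (fun x => dd i u x ^ 2) - ex W (dd i u) ^ 2 ≤ C * ex W (gsq (dd i u)) :=
    fun i => var_le_of_tests h h0 hC (contDiff_dd₁ hu2 i) (t1 i) fun j =>
      tame_dd_of_supp (contDiff_dd₁ hu2 i) (hasCompactSupport_dd hus i) j
  have hB := bochner h hu hus
  rw [h.ex_sum _ fun i _ => tH i] at hB
  have hX : ex W (gsq u) = ∑ i, ex W (fun x => dd i u x ^ 2) :=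
    h.ex_sum _ fun i _ => (t1 i).pow 2
  have hs := Finset.sum_le_sum (s := Finset.univ) fun i _ => hP i
  rw [Finset.sum_sub_distrib, ← Finset.mul_sum, ← hX, ← hm] at hs
  rw [div_mul_eq_mul_div, le_div_iff₀ (by have := mul_nonneg h0 ha.le; linarith)]
  nlinarith [mul_le_mul_of_nonneg_left hB h0]

/-- If `W'' ≥ a` and all directional variances are at most `κ`, the Poincaré constant is at most
`√(κ / a)`: with `X = E|∇u|²`, `Y = E (L u)²` on test functions, `C = sup X / Y` is the Poincaré constant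
(density of the range of `L`), Bochner gives `E|∇²u|² ≤ Y - a X`, and `|E ∇u|² = |E (x L u)|² ≤ κ Y`, so
`C (1 + C a) ≤ κ + C`. -/
theorem lich {n : ℕ} {W : E n → ℝ} {a b κ : ℝ} (h : Pinched W a b) (hb : 0 < b) (hκ : 0 ≤ κ)
    (hvar : ∀ v : E n, ex W (fun x => ⟪x, v⟫ ^ 2) - ex W (fun x => ⟪x, v⟫) ^ 2 ≤ κ * ‖v‖ ^ 2)
    {f : E n → ℝ} (hf : ContDiff ℝ 2 f) (hft : Tame f)
    (hfd : ∀ i, Tame fun x => fderiv ℝ f x (bv i)) :
    ex W (fun x => f x ^ 2) - ex W f ^ 2
      ≤ Real.sqrt (κ / a) * ex W (fun x => ∑ i, fderiv ℝ f x (bv i) ^ 2) := by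
  open Lich in
  have ha := h.pos
  let S : Set ℝ := {C | 0 ≤ C ∧ ∀ u : E n → ℝ, ContDiff ℝ 3 u → HasCompactSupport u →
    ex W (gsq u) ≤ C * ex W (fun x => Lop W u x ^ 2)}
  have hS : (1 / a) ∈ S := ⟨by positivity, fun u hu hus => by
    have hB := bochner h hu hus
    have : 0 ≤ ex W (fun x => ∑ i, gsq (dd i u) x) := h.ex_nonneg fun x =>
      Finset.sum_nonneg fun i _ => Finset.sum_nonneg fun j _ => sq_nonneg _
    rw [one_div_mul_eq_div, le_div_iff₀ ha]
    linarith⟩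
  have step : ∀ C ∈ S, (κ + C) / (1 + C * a) ∈ S := fun C hC =>
    ⟨div_nonneg (add_nonneg hκ hC.1) (by have := mul_nonneg hC.1 ha.le; linarith),
    fun u hu hus => Lich.step h hκ hvar hC.1 hC.2 hu hus⟩
  have hne : S.Nonempty := ⟨_, hS⟩
  have hbd : BddBelow S := ⟨0, fun C hC => hC.1⟩
  have hcl : IsClosed S := by
    simp only [S, Set.ofPred_and, Set.ofPred_forall]
    exact isClosed_Ici.inter (isClosed_iInter fun u => isClosed_iInter fun _ => isClosed_iInter
      fun _ => isClosed_le continuous_const (continuous_id.mul continuous_const))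
  obtain ⟨h0, hC⟩ := hcl.csInf_mem hne hbd
  have hle := csInf_le hbd (step _ (hcl.csInf_mem hne hbd))
  rw [le_div_iff₀ (by have := mul_nonneg h0 ha.le; linarith)] at hle
  have hsq : sInf S ≤ Real.sqrt (κ / a) := by
    refine Real.le_sqrt_of_sq_le ?_
    rw [le_div_iff₀ ha]
    nlinarith
  exact (var_le_of_tests h h0 hC (hf.of_le (by norm_num)) hft hfd).trans
    (mul_le_mul_of_nonneg_right hsq (h.ex_nonneg fun x => Finset.sum_nonneg fun i _ => sq_nonneg _))


end Vale.P245.Cube
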