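import Vale.Agent.P245.Cube.WBound
import Vale.Agent.P245.Cube.Tail.Deriv

/-! # The covariance is bounded except with exponentially small probability

With `Y = Ypot` and `σ Y = Y / (1 + Y)`, apply `hasDerivAt_EP` to `exp (λ σ Y)`:
`gen Am = -Am²`, the drift of `trace (A ^ q)` is at most `C q² C_P trace (A ^ q)` by Cauchy-Schwarz and
`lich` applied to quadratic forms, `|∇Y| ≤ C Y ^ (3/2)` by `exists_fourth`. -/

namespace Vale.P245.Cube

open MeasureTheory Vale.P254.Skew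
open scoped RealInnerProductSpace

section Pot

variable {n : ℕ} {V : E n → ℝ} {ε Λ : ℝ}

/-- The potential composed with the exponential. -/
noncomputable def phiP (L p r : ℝ) : ℝ := Real.exp (L * (r ^ p / (1 + r ^ p)))

/-- Its first derivative. -/
noncomputable def phiP1 (L p r : ℝ) : ℝ :=
  phiP L p r * (L * (p * r ^ (p - 1) / (1 + r ^ p) ^ 2))

/-- Its second derivative. -/
noncomputable def phiP2 (L p r : ℝ) : ℝ :=
  phiP L p r * ((L * (p * r ^ (p - 1) / (1 + r ^ p) ^ 2)) ^ 2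
    + L * (p * (p - 1) * r ^ (p - 1 - 1) / (1 + r ^ p) ^ 2
      - 2 * (p * r ^ (p - 1)) ^ 2 / (1 + r ^ p) ^ 3))

theorem hasDerivAt_phiP (L p : ℝ) {r : ℝ} (hr : 0 < r) :
    HasDerivAt (phiP L p) (phiP1 L p r) r := by
  have hy : HasDerivAt (fun r : ℝ => r ^ p) (p * r ^ (p - 1)) r :=
    Real.hasDerivAt_rpow_const (Or.inl hr.ne')
  have hpos := Real.rpow_pos_of_pos hr p
  have h := ((hy.div (hy.const_add 1) (by positivity)).const_mul L).exp
  refine h.congr_deriv ?_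
  simp only [phiP1, phiP, Pi.div_apply]
  ring

theorem hasDerivAt_phiP1 (L p : ℝ) {r : ℝ} (hr : 0 < r) :
    HasDerivAt (phiP1 L p) (phiP2 L p r) r := by
  have hy : HasDerivAt (fun r : ℝ => r ^ p) (p * r ^ (p - 1)) r :=
    Real.hasDerivAt_rpow_const (Or.inl hr.ne')
  have hy' : HasDerivAt (fun r : ℝ => p * r ^ (p - 1)) (p * ((p - 1) * r ^ (p - 1 - 1))) r :=
    (Real.hasDerivAt_rpow_const (Or.inl hr.ne')).const_mul p
  have hpos := Real.rpow_pos_of_pos hr p
  have h := (hasDerivAt_phiP L p hr).mul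
    ((hy'.div ((hy.const_add 1).fun_pow 2) (by positivity)).const_mul L)
  refine h.congr_deriv ?_
  simp only [phiP1, phiP2, Pi.div_apply]
  field_simp
  ring

theorem contDiffOn_phiP (L p : ℝ) : ContDiffOn ℝ 2 (phiP L p) (Set.Ioi 0) := by
  have hy : ContDiffOn ℝ 2 (fun r : ℝ => r ^ p) (Set.Ioi 0) := fun r hr =>
    (Real.contDiffAt_rpow_const_of_ne (ne_of_gt hr)).contDiffWithinAt
  exact (contDiffOn_const.mul (hy.div (contDiffOn_const.add hy) fun r hr => by
    have := Real.rpow_pos_of_pos hr p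
    positivity)).exp

theorem Reg.posP (h : Reg V ε Λ) {s : ℝ} (hs : 0 ≤ s) : 0 < Λ + s := by linarith [h.posΛ]

theorem sum_pow_eig (_h : Reg V ε Λ) {s : ℝ} (θ : E n) (k : ℕ) :
    (Am V s θ ^ k).trace = ∑ i, (isHermitian_covM (post V s θ)).eigenvalues i ^ k :=
  trace_pow (isHermitian_covM (post V s θ)) k

theorem eig_nonneg (h : Reg V ε Λ) {s : ℝ} (hs : 0 ≤ s) (θ : E n) (i : Fin n) :
    0 ≤ (isHermitian_covM (post V s θ)).eigenvalues i :=
  (one_div_nonneg.2 (h.posP hs).le).trans (eig_pos (h.pinP hs θ) (h.posP hs) i)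

theorem trace_nonneg (h : Reg V ε Λ) {s : ℝ} (hs : 0 ≤ s) (θ : E n) (k : ℕ) :
    0 ≤ (Am V s θ ^ k).trace := by
  rw [sum_pow_eig h θ k]
  exact Finset.sum_nonneg fun i _ => pow_nonneg (eig_nonneg h hs θ i) k

theorem trace_mem (h : Reg V ε Λ) (hn : 1 ≤ n) {s T : ℝ} (hs : s ∈ Set.Icc 0 T) (θ : E n) (k : ℕ) :
    (Am V s θ ^ k).trace ∈ Set.Icc ((1 / (Λ + T)) ^ k) (n * (1 / ε) ^ k) := by
  have h0 := h.posP hs.1
  have hT : 0 < Λ + T := by linarith [hs.2]
  have hε := h.pin.pos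
  have hnn := eig_nonneg h hs.1 θ
  have he : ∀ i, (isHermitian_covM (post V s θ)).eigenvalues i ≤ 1 / ε := fun i =>
    (eig_le (h.pinP hs.1 θ) i).trans
      (one_div_le_one_div_of_le hε (by linarith [hs.1]))
  rw [sum_pow_eig h θ k]
  constructor
  · refine le_trans ?_ (Finset.single_le_sum (fun i _ => pow_nonneg (hnn i) k)
      (Finset.mem_univ (⟨0, hn⟩ : Fin n)))
    refine pow_le_pow_left₀ (by positivity) (le_trans ?_ (eig_pos (h.pinP hs.1 θ) h0 _)) k
    exact one_div_le_one_div_of_le h0 (by linarith [hs.2])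
  · refine (Finset.sum_le_sum fun i _ => pow_le_pow_left₀ (hnn i) (he i) k).trans (le_of_eq ?_)
    simp

theorem trace_pos (h : Reg V ε Λ) (hn : 1 ≤ n) {s : ℝ} (hs : 0 ≤ s) (θ : E n) (k : ℕ) :
    0 < (Am V s θ ^ k).trace :=
  (pow_pos (one_div_pos.2 (h.posP hs)) k).trans_le (trace_mem h hn ⟨hs, le_rfl⟩ θ k).1

theorem two_le_qn (n : ℕ) : 2 ≤ qn n := Nat.le_add_left 2 _

theorem qn_le (n : ℕ) : (qn n : ℝ) ≤ 3 * (1 + Real.log n) := by
  have h0 := Real.log_natCast_nonneg n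
  have := (Nat.ceil_lt_add_one h0).le
  simp only [qn, Nat.cast_add, Nat.cast_ofNat]
  linarith

theorem Ypot_nonneg (h : Reg V ε Λ) {s : ℝ} (hs : 0 ≤ s) (θ : E n) : 0 ≤ Ypot V s θ :=
  Real.rpow_nonneg (trace_nonneg h hs θ _) _

theorem eig_le_Ypot (h : Reg V ε Λ) {s : ℝ} (hs : 0 ≤ s) (θ : E n) (i : Fin n) :
    (isHermitian_covM (post V s θ)).eigenvalues i ≤ Ypot V s θ := by
  have hq : qn n ≠ 0 := by have := two_le_qn n; omega
  have h0 := eig_nonneg h hs θ
  rw [← Real.pow_rpow_inv_natCast (h0 i) hq, ← one_div]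
  refine Real.rpow_le_rpow (pow_nonneg (h0 i) _) ?_ (by positivity)
  rw [sum_pow_eig h θ]
  exact Finset.single_le_sum (fun j _ => pow_nonneg (h0 j) _) (Finset.mem_univ i)

theorem chi_mem (V : E n → ℝ) (s : ℝ) (θ : E n) : 0 ≤ chi V s θ ∧ chi V s θ ≤ 1 :=
  ⟨le_min zero_le_one (le_max_left _ _), min_le_left _ _⟩

theorem nice_chi (h : Reg V ε Λ) : Nice (chi V) := by
  have hY : ContinuousOn (Function.uncurry (Ypot V)) (Set.Ici 0 ×ˢ Set.univ) := by
    obtain ⟨_, _, hc, -⟩ := cg_trace h (qn n)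
    exact hc.nice.cont.rpow_const fun _ _ => Or.inr (by positivity)
  constructor
  · have hd : ∀ p ∈ Set.Ici (0 : ℝ) ×ˢ (Set.univ : Set (E n)), 1 + Function.uncurry (Ypot V) p ≠ 0 :=
      fun p hp => by
        have : 0 ≤ Ypot V p.1 p.2 := Ypot_nonneg h hp.1 p.2
        exact (by simp only [Function.uncurry]; linarith : (0 : ℝ) < _).ne'
    exact continuousOn_const.inf (continuousOn_const.sup (continuousOn_const.mul
      ((hY.div (continuousOn_const.add hY) hd).sub continuousOn_const)))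
  · exact fun T => ⟨1, 0, fun s _ θ => by
      rw [pow_zero, mul_one, abs_le]
      constructor
      · linarith [(chi_mem V s θ).1]
      · exact min_le_left _ _⟩

theorem opLe_of_chi (h : Reg V ε Λ) {s : ℝ} (hs : 0 ≤ s)
    (θ : E n) (hχ : chi V s θ < 1) : OpLe (Am V s θ) 10 := by
  have hY := Ypot_nonneg h hs θ
  have h1 : 20 * (Ypot V s θ / (1 + Ypot V s θ) - 17 / 20) < 1 := by
    rcases min_lt_iff.1 hχ with h1 | h1
    · exact absurd h1 (lt_irrefl 1)
    · exact (le_max_right _ _).trans_lt h1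
  have h2 : Ypot V s θ ≤ 10 := by
    have h3 : Ypot V s θ / (1 + Ypot V s θ) < 9 / 10 := by linarith
    rw [div_lt_iff₀ (by linarith)] at h3
    linarith
  intro v
  set w : E n := WithLp.toLp 2 v
  have hq := ex_cy_sq_le (h.pinP hs θ) (κ := 10)
    (fun i => (eig_le_Ypot h hs θ i).trans h2) w
  rw [ex_congr (g := fun x => cy (post V s θ) w x * cy (post V s θ) w x) fun x => sq _,
    ex_cy_cy (h.pinP hs θ), ← sum_bv_sq] at hq
  rw [Am_eq]
  simpa [dotProduct, Matrix.mulVec, Finset.mul_sum, mul_assoc, w, sq] using hq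

theorem eig_zero_le_one (h : Reg V ε Λ) (hsub : Sub V) (i : Fin n) :
    (isHermitian_covM (post V 0 0)).eigenvalues i ≤ 1 := by
  set v := (isHermitian_covM (post V 0 0)).eigenvectorBasis i
  have hv : ‖v‖ = 1 := (isHermitian_covM (post V 0 0)).eigenvectorBasis.orthonormal.1 i
  obtain ⟨hint, hle⟩ := hsub v hv
  have he : post V 0 0 = V := by
    funext x
    simp [post, tilt, Ws]
  have h2 := ex_eig (h.pinP le_rfl 0) i i
  rw [if_pos rfl] at h2
  have hm : ex (post V 0 0) (fun x => ⟪x, v⟫) = 0 :=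
    (congrArg (fun W => ex W fun x => ⟪x, v⟫) he).trans (h.mean v)
  rw [← h2, ex_congr (g := fun x => ⟪x, v⟫ ^ 2) fun x => by
    show (⟪x, v⟫ - ex (post V 0 0) fun x => ⟪x, v⟫) *
      (⟪x, v⟫ - ex (post V 0 0) fun x => ⟪x, v⟫) = _
    rw [hm, sub_zero, sq], he]
  have hle' : ∫ x, Real.exp (-V x) * (⟪x, v⟫ ^ 2 + 1)
      ≤ ∫ x, Real.exp (-V x) * Real.exp (⟪x, v⟫ ^ 2) :=
    integral_mono (h.pin.integrable (((tame_inner v).pow 2).add (Tame.const 1))) hint fun x =>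
      mul_le_mul_of_nonneg_left (Real.add_one_le_exp _) (Real.exp_pos _).le
  have h3 := h.pin.ex_add ((tame_inner v).pow 2) (Tame.const (1 : ℝ))
  rw [h.pin.ex_const] at h3
  simp only [ex, h.mass, inv_one, smul_eq_mul, one_mul] at h3 hle ⊢
  linarith

theorem Ypot_zero_le (h : Reg V ε Λ) (hsub : Sub V) :
    Ypot V 0 0 ≤ 2.7182818286 := by
  have hq : (0 : ℝ) < qn n := by have := two_le_qn n; positivity
  have h1 : (Am V 0 0 ^ qn n).trace ≤ (n : ℝ) := by
    rw [sum_pow_eig h 0]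
    refine (Finset.sum_le_sum fun i _ =>
      pow_le_one₀ (eig_nonneg h le_rfl 0 i) (eig_zero_le_one h hsub i)).trans (le_of_eq ?_)
    simp
  have h2 : (n : ℝ) ^ (1 / (qn n : ℝ)) ≤ Real.exp 1 := by
    rcases Nat.eq_zero_or_pos n with hn | hn
    · rw [hn, Nat.cast_zero, Real.zero_rpow (by
        have : (0 : ℝ) < qn 0 := by have := two_le_qn 0; positivity
        positivity)]
      exact (Real.exp_pos 1).le
    · rw [Real.rpow_def_of_pos (by exact_mod_cast hn), Real.exp_le_exp, mul_one_div,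
        div_le_one hq]
      have := Nat.le_ceil (Real.log n)
      simp only [qn, Nat.cast_add, Nat.cast_ofNat]
      linarith
  calc Ypot V 0 0 ≤ (n : ℝ) ^ (1 / (qn n : ℝ)) :=
        Real.rpow_le_rpow (trace_nonneg h le_rfl 0 _) h1 (by positivity)
    _ ≤ Real.exp 1 := h2
    _ ≤ _ := Real.exp_one_lt_d9.le

theorem Ypot_factor_le_one {Y : ℝ} (hY : 0 ≤ Y) :
    Real.sqrt Y * Y / (1 + Y) ^ 2 ≤ 1 ∧ Y ^ 3 / (1 + Y) ^ 4 ≤ 1 := by
  constructor
  · rw [div_le_one (by positivity)]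
    nlinarith [Real.sq_sqrt hY, Real.sqrt_nonneg Y, sq_nonneg (Real.sqrt Y - 1), sq_nonneg Y,
      mul_nonneg hY (sq_nonneg (Real.sqrt Y - 1))]
  · rw [div_le_one (by positivity)]
    nlinarith [pow_nonneg hY 3, pow_nonneg hY 2, pow_nonneg hY 4, hY]

/-- The generator on the exponential potential. -/
theorem gen_pot_le (h : Reg V ε Λ) {C L s : ℝ} (hC : 0 ≤ C) (hL : 0 ≤ L) (hs : 0 < s) (θ : E n)
    (hn : 1 ≤ n)
    (h4 : ∀ v : E n, ex (post V s θ) (fun x => cy (post V s θ) v x ^ 4)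
      ≤ C * ex (post V s θ) (fun x => cy (post V s θ) v x ^ 2) ^ 2) :
    phiP1 L (1 / qn n) (Am V s θ ^ qn n).trace
        * (-((qn n : ℝ) * (Am V s θ ^ (qn n + 1)).trace)
          + (Qk (Am V s θ) (Tn (post V s θ)) (qn n)).trace)
      + phiP2 L (1 / qn n) (Am V s θ ^ qn n).trace
        * (∑ l, (Dk (Am V s θ) (Tn (post V s θ) l) (qn n)).trace ^ 2) / 2
      ≤ (12 * L * qn n / Real.sqrt s + C * L ^ 2 / 2)
        * phiP L (1 / qn n) (Am V s θ ^ qn n).trace := by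
  set q : ℝ := (qn n : ℝ) with hq
  have hq0 : 0 < q := by have := two_le_qn n; rw [hq]; positivity
  set Φ := (Am V s θ ^ qn n).trace with hΦ
  set p := 1 / q with hp
  set G := -(q * (Am V s θ ^ (qn n + 1)).trace) + (Qk (Am V s θ) (Tn (post V s θ)) (qn n)).trace
  set D := ∑ l, (Dk (Am V s θ) (Tn (post V s θ) l) (qn n)).trace ^ 2
  have hΦ0 : 0 < Φ := trace_pos h hn hs.le θ _
  have hYdef : Ypot V s θ = Φ ^ p := rfl
  set Y := Φ ^ p with hY
  have hY0 : 0 < Y := Real.rpow_pos_of_pos hΦ0 p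
  have hκ : ∀ i, (isHermitian_covM (post V s θ)).eigenvalues i ≤ Y := fun i =>
    hYdef ▸ eig_le_Ypot h hs.le θ i
  have hG : G ≤ 12 * q ^ 2 * Real.sqrt (Y / s) * Φ := by
    have h1 := drift (h.pinP hs.le θ) (h.posP hs.le) hκ (qn n)
    rw [← Am_eq, ← hq, ← hΦ] at h1
    have h2 : Real.sqrt (Y / (ε + s)) ≤ Real.sqrt (Y / s) :=
      Real.sqrt_le_sqrt (div_le_div_of_nonneg_left hY0.le hs (by linarith [h.pin.pos]))
    have h3 : 0 ≤ q * (Am V s θ ^ (qn n + 1)).trace :=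
      mul_nonneg hq0.le (trace_nonneg h hs.le θ _)
    have h5 : 12 * q ^ 2 * Real.sqrt (Y / (ε + s)) * Φ ≤ 12 * q ^ 2 * Real.sqrt (Y / s) * Φ :=
      mul_le_mul_of_nonneg_right (mul_le_mul_of_nonneg_left h2 (by positivity)) hΦ0.le
    simp only [G]
    linarith
  have hD : D ≤ q ^ 2 * C * Y * Φ ^ 2 := by
    have := grad (h.pinP hs.le θ) (h.posP hs.le) hC h4 hκ (qn n)
    rwa [← Am_eq, ← hq, ← hΦ] at this
  have hD0 : 0 ≤ D := Finset.sum_nonneg fun l _ => sq_nonneg _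
  have hp1 : Φ ^ (p - 1) * Φ = Y := by
    rw [← Real.rpow_add_one hΦ0.ne', sub_add_cancel]
  set g := L * (p * Φ ^ (p - 1) / (1 + Y) ^ 2) with hg
  have hg0 : 0 ≤ g := by positivity
  have hgΦ : g * Φ = L * (Y / q) / (1 + Y) ^ 2 := by
    rw [hg, show L * (p * Φ ^ (p - 1) / (1 + Y) ^ 2) * Φ
      = L * (p * (Φ ^ (p - 1) * Φ) / (1 + Y) ^ 2) by ring, hp1, hp]
    ring
  have e1 : phiP1 L p Φ = phiP L p Φ * g := rfl
  have e2 : phiP2 L p Φ ≤ phiP L p Φ * g ^ 2 := by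
    refine mul_le_mul_of_nonneg_left ?_ (Real.exp_pos _).le
    have hp1' : p ≤ 1 := by
      rw [hp, div_le_one hq0, hq]
      exact_mod_cast le_trans (by norm_num) (two_le_qn n)
    have h1 : p * (p - 1) * Φ ^ (p - 1 - 1) / (1 + Φ ^ p) ^ 2 ≤ 0 :=
      div_nonpos_of_nonpos_of_nonneg (mul_nonpos_of_nonpos_of_nonneg
        (mul_nonpos_of_nonneg_of_nonpos (by positivity) (by linarith)) (by positivity))
        (by positivity)
    have h2 : 0 ≤ 2 * (p * Φ ^ (p - 1)) ^ 2 / (1 + Φ ^ p) ^ 3 := by positivity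
    have h3 := mul_nonpos_of_nonneg_of_nonpos hL (by linarith : p * (p - 1) * Φ ^ (p - 1 - 1)
      / (1 + Φ ^ p) ^ 2 - 2 * (p * Φ ^ (p - 1)) ^ 2 / (1 + Φ ^ p) ^ 3 ≤ 0)
    change g ^ 2 + _ ≤ g ^ 2
    linarith
  obtain ⟨f1, f2⟩ := Ypot_factor_le_one hY0.le
  have k1 : g * G ≤ 12 * L * q / Real.sqrt s := by
    refine (mul_le_mul_of_nonneg_left hG hg0).trans ?_
    rw [show g * (12 * q ^ 2 * Real.sqrt (Y / s) * Φ) = 12 * q ^ 2 * Real.sqrt (Y / s) * (g * Φ)
      by ring, hgΦ, Real.sqrt_div hY0.le]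
    calc _ = 12 * L * q / Real.sqrt s * (Real.sqrt Y * Y / (1 + Y) ^ 2) := by field_simp
      _ ≤ 12 * L * q / Real.sqrt s * 1 := mul_le_mul_of_nonneg_left f1 (by positivity)
      _ = _ := mul_one _
  have k2 : g ^ 2 * D / 2 ≤ C * L ^ 2 / 2 := by
    have : g ^ 2 * D ≤ C * L ^ 2 :=
      calc g ^ 2 * D ≤ g ^ 2 * (q ^ 2 * C * Y * Φ ^ 2) :=
            mul_le_mul_of_nonneg_left hD (sq_nonneg _)
        _ = C * L ^ 2 * (Y ^ 3 / (1 + Y) ^ 4) := by
            rw [show g ^ 2 * (q ^ 2 * C * Y * Φ ^ 2) = (g * Φ) ^ 2 * (q ^ 2 * C * Y) by ring, hgΦ]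
            field_simp
        _ ≤ C * L ^ 2 := mul_le_of_le_one_right (by positivity) f2
    linarith
  rw [e1]
  have hpp := Real.exp_pos (L * (Φ ^ p / (1 + Φ ^ p)))
  have k3 : phiP2 L p Φ * D / 2 ≤ phiP L p Φ * g ^ 2 * D / 2 :=
    div_le_div_of_nonneg_right (mul_le_mul_of_nonneg_right e2 hD0) zero_le_two
  have k4 : phiP L p Φ * (g * G + g ^ 2 * D / 2)
      ≤ phiP L p Φ * (12 * L * q / Real.sqrt s + C * L ^ 2 / 2) :=
    mul_le_mul_of_nonneg_left (add_le_add k1 k2) hpp.le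
  linarith

end Pot

theorem exists_tail : ∃ c : ℝ, 0 < c ∧ ∀ (n : ℕ) (V : E n → ℝ) (ε Λ : ℝ), 1 ≤ n → Reg V ε Λ →
    Sub V → ∀ s : ℝ, 0 < s → Real.sqrt s * (1 + Real.log n) ≤ c →
      EP V s (fun _ θ => chi V s θ) ≤ Real.exp (-(c / s)) := by
  obtain ⟨C, hC, hfour⟩ := exists_fourth
  refine ⟨min (1 / 4000) (1 / (200 * C)), by positivity, ?_⟩
  intro n V ε Λ hn h hsub s hs hsmall
  set L := 1 / (10 * C * s) with hLdef
  have hL : 0 < L := by positivity
  set q : ℝ := (qn n : ℝ) with hqdef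
  have hq0 : 0 < q := by have := two_le_qn n; rw [hqdef]; positivity
  set Φ : ℝ → E n → ℝ := fun r θ => (Am V r θ ^ qn n).trace with hΦ
  set p := 1 / q with hp
  have hpos : ∀ r, 0 ≤ r → ∀ θ, Φ r θ ∈ Set.Ioi (0 : ℝ) := fun r hr θ => trace_pos h hn hr θ _
  obtain ⟨_, _, hcΦ, _⟩ := cg_trace h (qn n)
  -- the compositions are nice
  have hnice : ∀ ψ : ℝ → ℝ, ContinuousOn ψ (Set.Ioi 0) → Nice fun r θ => ψ (Φ r θ) := fun ψ hψ => by
    refine ⟨hψ.comp hcΦ.nice.cont fun x hx => hpos x.1 hx.1 x.2, fun T => ?_⟩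
    rcases lt_or_ge T 0 with hT | hT
    · exact ⟨0, 0, fun r hr => absurd (hr.1.trans hr.2) (not_le.2 hT)⟩
    · have hsub' : Set.Icc ((1 / (Λ + T)) ^ qn n) ((n : ℝ) * (1 / ε) ^ qn n) ⊆ Set.Ioi 0 :=
        fun x hx => (pow_pos (one_div_pos.2 (h.posP hT)) _).trans_le hx.1
      obtain ⟨B, hB⟩ := isCompact_Icc.exists_bound_of_continuousOn (hψ.mono hsub')
      exact ⟨B, 0, fun r hr θ => by simpa using hB _ (trace_mem h hn hr θ _)⟩
  have hd1 : ∀ r ∈ Set.Ioi (0 : ℝ), HasDerivAt (phiP L p) (phiP1 L p r) r := fun r hr =>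
    hasDerivAt_phiP L p hr
  have hd2 : ∀ r ∈ Set.Ioi (0 : ℝ), HasDerivAt (phiP1 L p) (phiP2 L p r) r := fun r hr =>
    hasDerivAt_phiP1 L p hr
  have hc2 : ContinuousOn (phiP2 L p) (Set.Ioi 0) := by
    have hy : ∀ e : ℝ, ContinuousOn (fun r : ℝ => r ^ e) (Set.Ioi 0) := fun e =>
      continuousOn_id.rpow_const fun r hr => Or.inl (ne_of_gt hr)
    have hd : ∀ m : ℕ, ∀ r ∈ Set.Ioi (0 : ℝ), (1 + r ^ p) ^ m ≠ 0 := fun m r hr => by
      have := Real.rpow_pos_of_pos hr p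
      positivity
    have hf : ContinuousOn (phiP L p) (Set.Ioi 0) := (contDiffOn_phiP L p).continuousOn
    unfold phiP2
    exact hf.mul ((((continuousOn_const.mul ((continuousOn_const.mul (hy _)).div
      ((continuousOn_const.add (hy _)).pow 2) (hd 2)))).pow 2).add
        (continuousOn_const.mul (((continuousOn_const.mul (hy _)).div
          ((continuousOn_const.add (hy _)).pow 2) (hd 2)).sub
          ((continuousOn_const.mul ((continuousOn_const.mul (hy _)).pow 2)).div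
            ((continuousOn_const.add (hy _)).pow 3) (hd 3)))))
  have hn1 := hnice _ fun r hr => (hd2 r hr).continuousAt.continuousWithinAt
  have hcg := (cg_trace h (qn n)).comp isOpen_Ioi hpos (contDiffOn_phiP L p) hd1 hd2
    (hnice _ (contDiffOn_phiP L p).continuousOn) hn1 (hnice _ hc2)
  obtain ⟨F2, Ft, hcalc, hgen⟩ := hcg
  set f : ℝ → ℝ := fun r => EP V r fun _ θ => phiP L p (Φ r θ) with hf
  set g : ℝ → ℝ := fun r => 24 * L * q * Real.sqrt r + C * L ^ 2 / 2 * r with hg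
  have hfd : ∀ r, 0 < r → ∃ d, HasDerivAt f d r ∧
      d ≤ (12 * L * q / Real.sqrt r + C * L ^ 2 / 2) * f r := by
    intro r hr
    refine ⟨_, hasDerivAt_EP h hcalc hr, ?_⟩
    have h4 : ∀ θ (v : E n), ex (post V r θ) (fun x => cy (post V r θ) v x ^ 4)
        ≤ C * ex (post V r θ) (fun x => cy (post V r θ) v x ^ 2) ^ 2 := fun θ v =>
      hfour n _ _ _ (h.pinP hr.le θ) v
    have tl : Tame fun θ => gen V
        (fun l r θ => phiP1 L p (Φ r θ) * (Dk (Am V r θ) (Tn (post V r θ) l) (qn n)).trace)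
        F2 Ft r θ := by
      simp only [gen, div_eq_inv_mul]
      exact ((hcalc.niceT.tame hr.le).add (Tame.sum _ fun l _ =>
        ((nice_mC h l).tame hr.le).mul ((hcalc.nice1 l).tame hr.le))).add
        ((Tame.sum _ fun l _ => (hcalc.nice2 l).tame hr.le).const_mul 2⁻¹)
    rw [← EP_const_mul]
    refine EP_mono h r tl.tame2_right
      ((hcalc.nice.tame hr.le).const_mul _).tame2_right fun x θ => ?_
    rw [hgen r hr.le θ]
    exact gen_pot_le h hC.le hL.le hr θ hn (h4 θ)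
  have hmono : f s * Real.exp (-g s) ≤ f 0 * Real.exp (-g 0) := by
    have hgd : ∀ r, 0 < r → HasDerivAt g (12 * L * q / Real.sqrt r + C * L ^ 2 / 2) r := fun r hr => by
      have h1 := ((Real.hasDerivAt_sqrt hr.ne').const_mul (24 * L * q)).add
        ((hasDerivAt_id r).const_mul (C * L ^ 2 / 2))
      exact h1.congr_deriv (by ring)
    have hanti : AntitoneOn (fun r => f r * Real.exp (-g r)) (Set.Icc 0 s) := by
      refine antitoneOn_of_deriv_nonpos (convex_Icc 0 s) ?_ ?_ fun r hr => ?_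
      · exact ((continuousOn_EP h hcalc.nice).mono fun r hr => hr.1).mul (by fun_prop)
      · rw [interior_Icc]
        exact fun r hr => by
          obtain ⟨d, hd, -⟩ := hfd r hr.1
          exact (hd.mul (hgd r hr.1).neg.exp).differentiableAt.differentiableWithinAt
      · rw [interior_Icc] at hr
        obtain ⟨d, hd, hle⟩ := hfd r hr.1
        rw [(hd.fun_mul (hgd r hr.1).fun_neg.exp).deriv]
        have := mul_le_mul_of_nonneg_right hle (Real.exp_pos (-g r)).le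
        linarith
    exact hanti (Set.left_mem_Icc.2 hs.le) (Set.right_mem_Icc.2 hs.le) hs.le
  have hg0 : g 0 = 0 := by simp [hg]
  have hf0 : f 0 ≤ Real.exp (L * 0.732) := by
    simp only [hf]
    rw [EP_zero, h.pin.ex_const]
    have hY := Ypot_zero_le h hsub
    have hY0 := Ypot_nonneg h le_rfl (0 : E n)
    refine Real.exp_le_exp.2 (mul_le_mul_of_nonneg_left ?_ hL.le)
    show Ypot V 0 0 / (1 + Ypot V 0 0) ≤ 0.732
    rw [div_le_iff₀ (by linarith)]
    linarith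
  have hchi : EP V s (fun _ θ => chi V s θ) ≤ Real.exp (-(17 / 20 * L)) * f s := by
    simp only [hf]
    rw [← EP_const_mul]
    refine EP_mono h s ((nice_chi h).tame hs.le).tame2_right
      ((hcalc.nice.tame hs.le).const_mul _).tame2_right fun x θ => ?_
    simp only [phiP, ← Real.exp_add]
    set σ := Φ s θ ^ p / (1 + Φ s θ ^ p)
    rcases le_or_gt σ (17 / 20) with hσ | hσ
    · have : chi V s θ ≤ 0 := by
        refine (min_le_right _ _).trans (max_le le_rfl ?_)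
        show 20 * (σ - 17 / 20) ≤ 0
        linarith
      exact this.trans (Real.exp_pos _).le
    · refine (chi_mem V s θ).2.trans (Real.one_le_exp ?_)
      nlinarith
  -- numbers
  have hc1 : Real.sqrt s * (1 + Real.log n) ≤ 1 / 4000 := hsmall.trans (min_le_left _ _)
  have hqs : 24 * q * Real.sqrt s ≤ 0.018 := by
    have h1 : q * Real.sqrt s ≤ 3 * (1 + Real.log n) * Real.sqrt s :=
      mul_le_mul_of_nonneg_right (qn_le n) (Real.sqrt_nonneg s)
    linarith
  have hgs : g s ≤ L * 0.018 + C * L ^ 2 / 2 * s := by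
    simp only [hg]
    have := mul_le_mul_of_nonneg_left hqs hL.le
    linarith
  rw [hg0, neg_zero, Real.exp_zero, mul_one] at hmono
  have hfs : f s ≤ Real.exp (L * 0.732) * Real.exp (g s) := by
    have h1 := mul_le_mul_of_nonneg_right (hmono.trans hf0) (Real.exp_pos (g s)).le
    rwa [mul_assoc, ← Real.exp_add, neg_add_cancel, Real.exp_zero, mul_one] at h1
  refine hchi.trans ((mul_le_mul_of_nonneg_left hfs (Real.exp_pos _).le).trans ?_)
  rw [← Real.exp_add, ← Real.exp_add, Real.exp_le_exp]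
  have hcs : min (1 / 4000) (1 / (200 * C)) / s ≤ 1 / (200 * C) / s :=
    div_le_div_of_nonneg_right (min_le_right _ _) hs.le
  have e1 : C * L ^ 2 / 2 * s = L * 0.05 := by rw [hLdef]; field_simp; norm_num
  have e2 : 1 / (200 * C) / s = L * 0.05 := by rw [hLdef]; field_simp; norm_num
  linarith

end Vale.P245.Cube
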