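import Vale.Agent.P245.Cube.Chain
import Vale.Agent.P245.Cube.Tail
import Vale.Agent.P254.Skew.Facts

/-! # The defective logarithmic Sobolev inequality with constant of order `n ^ (1/3)` -/

namespace Vale.P245.Cube

open MeasureTheory Vale.P254.Skew
open scoped RealInnerProductSpace

variable {n : ℕ} {V g : E n → ℝ} {ε Λ : ℝ}

/-- The pointwise inequality behind the entropy duality. -/
theorem young {u : ℝ} (hu : 0 < u) (b : ℝ) : u * b ≤ u * Real.log u - u + Real.exp b := by
  have h := Real.add_one_le_exp (b - Real.log u)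
  rw [Real.exp_sub, Real.exp_log hu] at h
  have h2 := mul_le_mul_of_nonneg_left h hu.le
  rw [mul_div_cancel₀ _ hu.ne'] at h2
  nlinarith

theorem exp_mul_le_affine {lam χ : ℝ} (h0 : 0 ≤ χ) (h1 : χ ≤ 1) :
    Real.exp (lam * χ) ≤ 1 + (Real.exp lam - 1) * χ := by
  have h := convexOn_exp.2 (Set.mem_univ lam) (Set.mem_univ (0 : ℝ)) h0 (by linarith : 0 ≤ 1 - χ)
    (by ring)
  simp only [smul_eq_mul, mul_zero, add_zero, Real.exp_zero, mul_one] at h
  rw [mul_comm lam χ]
  linarith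

theorem Dens.tame (hg : Dens V g) : Tame g := by
  obtain ⟨δ, hδ, hlo⟩ := hg.lower
  obtain ⟨M, hM⟩ := hg.upper
  exact Tame.bounded hg.smooth.continuous (C := M) fun x => by
    rw [Real.norm_eq_abs, abs_of_pos (hδ.trans_le (hlo x))]
    exact hM x

theorem Dens.pos (hg : Dens V g) (x : E n) : 0 < g x := by
  obtain ⟨δ, hδ, hlo⟩ := hg.lower
  exact hδ.trans_le (hlo x)

theorem Dens.tame_log (hg : Dens V g) : Tame fun x => g x * Real.log (g x) := by
  obtain ⟨δ, hδ, hlo⟩ := hg.lower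
  obtain ⟨M, hM⟩ := hg.upper
  refine hg.tame.mul (Tame.bounded (hg.smooth.continuous.log fun x => (hg.pos x).ne')
    (C := |Real.log δ| + |Real.log M|) fun x => ?_)
  rw [Real.norm_eq_abs, abs_le]
  have h1 := Real.log_le_log hδ (hlo x)
  have h2 := Real.log_le_log (hg.pos x) (hM x)
  constructor <;> linarith [neg_abs_le (Real.log δ), le_abs_self (Real.log M),
    abs_nonneg (Real.log δ), abs_nonneg (Real.log M)]

theorem gbar_bounds (h : Reg V ε Λ) (hg : Dens V g) :
    ∃ δ M : ℝ, 0 < δ ∧ ∀ s, 0 ≤ s → ∀ θ, δ ≤ gbar V g s θ ∧ gbar V g s θ ≤ M := by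
  obtain ⟨δ, hδ, hlo⟩ := hg.lower
  obtain ⟨M, hM⟩ := hg.upper
  refine ⟨δ, M, hδ, fun s hs θ => ?_⟩
  have hp := (h.pin_Ws hs).tilt θ
  constructor
  · rw [← hp.ex_const δ]
    exact hp.ex_mono (Tame.const _) hg.tame hlo
  · rw [← hp.ex_const M]
    exact hp.ex_mono hg.tame (Tame.const _) hM

theorem nice_gbar (h : Reg V ε Λ) (hg : Dens V g) : Nice (gbar V g) := nice_cE h hg.tame

theorem nice_gbar_log (h : Reg V ε Λ) (hg : Dens V g) :
    Nice fun s θ => gbar V g s θ * Real.log (gbar V g s θ) := by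
  obtain ⟨δ, M, hδ, hb⟩ := gbar_bounds h hg
  refine (nice_gbar h hg).mul ⟨?_, fun T => ⟨|Real.log δ| + |Real.log M|, 0, fun s hs θ => ?_⟩⟩
  · exact (nice_gbar h hg).cont.log fun p hp => (hδ.trans_le (hb p.1 hp.1 p.2).1).ne'
  · obtain ⟨h1, h2⟩ := hb s hs.1 θ
    rw [pow_zero, mul_one, abs_le]
    have l1 := Real.log_le_log hδ h1
    have l2 := Real.log_le_log (hδ.trans_le h1) h2
    constructor <;> linarith [neg_abs_le (Real.log δ), le_abs_self (Real.log M),
      abs_nonneg (Real.log δ), abs_nonneg (Real.log M)]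

theorem nice_KLs (h : Reg V ε Λ) (hg : Dens V g) :
    Nice fun s θ => gbar V g s θ * KLs V g s θ := by
  obtain ⟨δ, M, hδ, hb⟩ := gbar_bounds h hg
  have hn := (nice_cE h hg.tame_log).add ((nice_gbar_log h hg).const_mul (-1))
  refine ⟨hn.cont.congr fun p hp => ?_, fun T => ?_⟩
  · show gbar V g p.1 p.2 * KLs V g p.1 p.2 = _
    have := (hδ.trans_le (hb p.1 hp.1 p.2).1).ne'
    simp only [KLs, Function.uncurry]
    field_simp
    ring
  · obtain ⟨C, N, hC⟩ := hn.poly T
    refine ⟨C, N, fun s hs θ => le_trans (le_of_eq ?_) (hC s hs θ)⟩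
    have := (hδ.trans_le (hb s hs.1 θ).1).ne'
    simp only [KLs]
    congr 1
    field_simp
    ring

theorem nice_wsq (h : Reg V ε Λ) (hg : Dens V g) :
    Nice fun s θ => gbar V g s θ * wsq V g s θ := by
  obtain ⟨δ, M, hδ, hb⟩ := gbar_bounds h hg
  have hn : Nice fun s θ =>
      ∑ i, covF V s θ (fun x => x i) g * covF V s θ (fun x => x i) g :=
    Nice.sum _ fun i _ => (nice_covF h (tame_coord i) hg.tame).mul
      (nice_covF h (tame_coord i) hg.tame)
  refine ⟨(hn.cont.div (nice_gbar h hg).cont fun p hp =>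
    (hδ.trans_le (hb p.1 hp.1 p.2).1).ne').congr fun p hp => ?_, fun T => ?_⟩
  · show gbar V g p.1 p.2 * wsq V g p.1 p.2 = _
    have := (hδ.trans_le (hb p.1 hp.1 p.2).1).ne'
    simp only [wsq, Function.uncurry, Pi.div_apply, Finset.mul_sum, Finset.sum_div]
    refine Finset.sum_congr rfl fun i _ => ?_
    field_simp
  · obtain ⟨C, N, hC⟩ := hn.poly T
    refine ⟨C / δ, N, fun s hs θ => ?_⟩
    obtain ⟨h1, -⟩ := hb s hs.1 θ
    have hp : 0 < gbar V g s θ := hδ.trans_le h1
    have e : gbar V g s θ * wsq V g s θ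
        = (∑ i, covF V s θ (fun x => x i) g * covF V s θ (fun x => x i) g) / gbar V g s θ := by
      simp only [wsq, Finset.mul_sum, Finset.sum_div]
      exact Finset.sum_congr rfl fun i _ => by field_simp
    rw [e, abs_div, abs_of_pos hp, div_mul_eq_mul_div]
    exact div_le_div₀ ((abs_nonneg _).trans (hC s hs θ)) (hC s hs θ) hδ h1

theorem EP_gbar (h : Reg V ε Λ) (hg : Dens V g) {s : ℝ} (hs : 0 ≤ s) :
    EP V s (fun _ θ => gbar V g s θ) = 1 := by
  rw [← hg.mass, ← EP_left h s hg.tame, EP_cond h hs hg.tame.tame2_left]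
  rfl

theorem tame_excess (n : ℕ) (s : ℝ) : Tame (excess (n := n) s) := by
  refine Tame.of_bound (by unfold excess; fun_prop)
    (g := fun θ : E n => ‖θ‖ ^ 2 + |32 * s * n|)
    ((tame_id.norm.pow 2).add (Tame.const _)) fun θ => ?_
  rw [Real.norm_eq_abs, excess, abs_of_nonneg (le_max_left _ _)]
  exact max_le (by positivity) (by linarith [neg_abs_le (32 * s * (n : ℝ))])

/-- Entropy duality on the channel, for the indicator of the bad set. -/
theorem EP_gbar_chi (h : Reg V ε Λ) (hg : Dens V g) {s L : ℝ} (hs : 0 ≤ s) (hL : 0 ≤ L)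
    (hchi : EP V s (fun _ θ => chi V s θ) ≤ Real.exp (-L)) :
    L * EP V s (fun _ θ => gbar V g s θ * chi V s θ) ≤ Hent V g + 1 := by
  obtain ⟨δ, M, hδ, hb⟩ := gbar_bounds h hg
  have tG : Tame2 fun _ θ : E n => gbar V g s θ := ((nice_gbar h hg).tame hs).tame2_right
  have tl : Tame2 fun _ θ : E n => gbar V g s θ * Real.log (gbar V g s θ) :=
    ((nice_gbar_log h hg).tame hs).tame2_right
  have tc : Tame2 fun _ θ : E n => chi V s θ := ((nice_chi h).tame hs).tame2_right
  have h1 : EP V s (fun _ θ => L * (gbar V g s θ * chi V s θ))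
      ≤ EP V s fun _ θ => (gbar V g s θ * Real.log (gbar V g s θ) - gbar V g s θ)
        + (1 + (Real.exp L - 1) * chi V s θ) :=
    EP_mono h s ((Tame2.const L).mul (tG.mul tc))
      ((tl.sub tG).add ((Tame2.const 1).add ((Tame2.const _).mul tc))) fun x θ => by
        obtain ⟨c0, c1⟩ := chi_mem V s θ
        have hy := young (hδ.trans_le (hb s hs θ).1) (L * chi V s θ)
        have hz := exp_mul_le_affine (lam := L) c0 c1
        linarith
  rw [EP_const_mul, EP_add h s (tl.sub tG) ((Tame2.const 1).add ((Tame2.const _).mul tc)),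
    EP_sub h s tl tG, EP_add h s (Tame2.const 1) ((Tame2.const _).mul tc), EP_const_mul,
    EP_gbar h hg hs, EP_left h s (Tame.const (1 : ℝ)), h.pin.ex_const] at h1
  have h2 : (Real.exp L - 1) * EP V s (fun _ θ => chi V s θ) ≤ 1 := by
    refine (mul_le_mul_of_nonneg_left hchi (by linarith [Real.one_le_exp hL])).trans ?_
    rw [sub_mul, one_mul, ← Real.exp_add, add_neg_cancel, Real.exp_zero]
    linarith [Real.exp_pos (-L)]
  have h3 := Dfun_le_Hent h hg hs
  simp only [Dfun] at h3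
  linarith

theorem GE_sq (i : Fin n) : GE (fun z : E n => z i ^ 2) = 1 := by
  have hp : Pinched (gam : E n → ℝ) 1 1 := pinched_gam
  have hd : ∀ x : E n, fderiv ℝ gam x (bv i) = x i := fun x => by
    unfold gam
    rw [((hasStrictFDerivAt_norm_sq x).hasFDerivAt.mul_const (1 / 2 : ℝ)).congr_of_eventuallyEq
      (Filter.Eventually.of_forall fun z => by ring) |>.fderiv]
    simp
  have hf : ContDiff ℝ 1 fun x : E n => x i := by fun_prop
  have he : ∀ x : E n, fderiv ℝ (fun x : E n => x i) x (bv i) = 1 := fun x => by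
    rw [show (fun x : E n => x i) = ((innerSL ℝ).flip (bv i) : E n → ℝ) from
      funext fun x => (inner_bv x i).symm, ContinuousLinearMap.fderiv]
    show ⟪bv i, bv i⟫ = _
    rw [real_inner_self_eq_norm_sq, norm_bv, one_pow]
  have := hp.ibp hf (tame_coord i) (bv i) (by simp only [he]; exact Tame.const _)
  simp only [hd, he, hp.ex_const] at this
  rw [GE, ← this]
  exact ex_congr fun x => sq _

/-- The fourth moment is enough for the tail of `‖z‖²`. -/
theorem GE_abs_norm_sq_le : GE (fun z : E n => |‖z‖ ^ 2 - n|) ≤ 2 * Real.sqrt n := by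
  rcases Nat.eq_zero_or_pos n with hn | hn
  · subst hn
    simp [GE, ex, Subsingleton.elim (_ : E 0) 0]
  have hp : Pinched (gam : E n → ℝ) 1 1 := pinched_gam
  have tF : Tame fun z : E n => ‖z‖ ^ 2 := tame_id.norm.pow 2
  have tD : Tame fun z : E n => ‖z‖ ^ 2 - n := tF.sub (Tame.const _)
  have hm : GE (fun z : E n => ‖z‖ ^ 2) = n := by
    have e : ∀ z : E n, ‖z‖ ^ 2 = ∑ i, z i ^ 2 := fun z => by
      simp [EuclideanSpace.norm_sq_eq, sq_abs]
    have hs := hp.ex_sum Finset.univ (f := fun i (z : E n) => z i ^ 2)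
      fun i _ => (tame_coord i).pow 2
    rw [GE, ex_congr e, hs]
    simp only [show ∀ i : Fin n, ex gam (fun z : E n => z i ^ 2) = 1 from GE_sq]
    simp
  have hv := hp.bl (f := fun z => ‖z‖ ^ 2) (G := fun z => 4 * ‖z‖ ^ 2)
    (contDiff_norm_sq ℝ) tF (tF.const_mul 4) fun z w => by
      rw [(hasStrictFDerivAt_norm_sq z).hasFDerivAt.fderiv]
      have h1 := hp.lower z w
      have h2 := neg_le_of_abs_le (abs_real_inner_le_norm z w)
      simp only [ContinuousLinearMap.smul_apply, innerSL_apply_apply, nsmul_eq_mul, Nat.cast_ofNat]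
      nlinarith [sq_nonneg (2 * ‖z‖ - ‖w‖)]
  rw [ex_const_mul, show ex gam (fun z : E n => ‖z‖ ^ 2) = (n : ℝ) from hm] at hv
  have h4 : GE (fun z : E n => (‖z‖ ^ 2 - n) * (‖z‖ ^ 2 - n)) ≤ 4 * n := by
    have h := hp.ex_cov tF tF
    rw [show ex gam (fun z : E n => ‖z‖ ^ 2) = (n : ℝ) from hm] at h
    simp only [← sq] at h ⊢
    rw [GE, h]
    exact hv
  set r := Real.sqrt n
  have hr : 0 < r := Real.sqrt_pos.2 (by exact_mod_cast hn)
  have hr2 : r ^ 2 = n := Real.sq_sqrt (Nat.cast_nonneg n)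
  have h5 : GE (fun z : E n => |‖z‖ ^ 2 - n|)
      ≤ GE fun z : E n => r + (1 / (4 * r)) * ((‖z‖ ^ 2 - n) * (‖z‖ ^ 2 - n)) := by
    refine hp.ex_mono tD.norm ((Tame.const _).add ((tD.mul tD).const_mul _)) fun z => ?_
    show |‖z‖ ^ 2 - (n : ℝ)| ≤ _
    set d := ‖z‖ ^ 2 - (n : ℝ)
    rw [← sub_nonneg, show r + 1 / (4 * r) * (d * d) - |d| = (2 * r - |d|) ^ 2 / (4 * r) by
      rw [← abs_mul_abs_self d]; field_simp; ring]
    positivity
  refine h5.trans ?_
  rw [GE, hp.ex_add (Tame.const _) ((tD.mul tD).const_mul _), hp.ex_const, ex_const_mul]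
  have h6 := mul_le_mul_of_nonneg_left h4 (by positivity : (0 : ℝ) ≤ 1 / (4 * r))
  have h7 : 1 / (4 * r) * (4 * (n : ℝ)) = r := by
    rw [← hr2]
    field_simp
  simp only [GE] at h6
  linarith

/-- The coordinate second moments under the density. -/
theorem ex_g_sq_le (h : Reg V ε Λ) (hsub : Sub V) (hg : Dens V g) (i : Fin n) :
    ex V (fun x => g x * x i ^ 2) ≤ Hent V g + 1 := by
  obtain ⟨hint, hle⟩ := hsub (bv i) (norm_bv i)
  simp only [inner_bv] at hint hle
  have t1 : Tame fun x => g x * x i ^ 2 := hg.tame.mul ((tame_coord i).pow 2)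
  have t2 : Tame fun x => g x * Real.log (g x) - g x := hg.tame_log.sub hg.tame
  have hint2 : Integrable fun x =>
      Real.exp (-V x) • ((g x * Real.log (g x) - g x) + Real.exp (x i ^ 2)) := by
    refine ((h.pin.integrable t2).add hint).congr (Filter.Eventually.of_forall fun x => ?_)
    simp only [Pi.add_apply, smul_eq_mul]
    ring
  have h1 : ex V (fun x => g x * x i ^ 2)
      ≤ ex V fun x => (g x * Real.log (g x) - g x) + Real.exp (x i ^ 2) :=
    mul_le_mul_of_nonneg_left (integral_mono (h.pin.integrable t1) hint2 fun x =>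
      mul_le_mul_of_nonneg_left (young (hg.pos x) _) (Real.exp_pos _).le)
      (inv_nonneg.2 h.pin.zc_pos.le)
  have h2 : ex V (fun x => (g x * Real.log (g x) - g x) + Real.exp (x i ^ 2))
      = (Hent V g - 1) + ex V fun x => Real.exp (x i ^ 2) := by
    rw [Hent, ← hg.mass, ← h.pin.ex_sub hg.tame_log hg.tame]
    simp only [ex, smul_eq_mul, mul_add]
    rw [integral_add (by simpa only [smul_eq_mul] using h.pin.integrable t2) hint, mul_add]
  rw [h2] at h1
  linarith

theorem EP_gbar_excess (h : Reg V ε Λ) (hsub : Sub V) (hg : Dens V g) {s : ℝ} (hs : 0 ≤ s) :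
    EP V s (fun _ θ => gbar V g s θ * excess s θ)
      ≤ 2 * s ^ 2 * n * (Hent V g + 1) + 4 * s * Real.sqrt n := by
  have te : Tame2 fun _ θ : E n => excess s θ := (tame_excess n s).tame2_right
  have e1 : EP V s (fun _ θ => gbar V g s θ * excess s θ)
      = EP V s fun x θ => g x * excess s θ := by
    rw [EP_cond h hs (hg.tame.tame2_left.mul te)]
    simp only [cE, ex_mul_const, gbar]
  rw [e1]
  have tq : Tame2 fun x z : E n => 2 * s ^ 2 * ‖x‖ ^ 2 + 2 * s * |‖z‖ ^ 2 - n| :=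
    ((tame_id.norm.pow 2).const_mul _).tame2_left.add
      (((tame_id.norm.pow 2).sub (Tame.const _)).norm.const_mul (2 * s)).tame2_right
  have hp : Pinched (gam : E n → ℝ) 1 1 := pinched_gam
  have tz : Tame fun z : E n => |‖z‖ ^ 2 - n| := ((tame_id.norm.pow 2).sub (Tame.const _)).norm
  have e2 : ∀ x, GE (fun z => g x * excess s (s • x + Real.sqrt s • z))
      ≤ g x * (2 * s ^ 2 * ‖x‖ ^ 2 + 2 * s * GE fun z : E n => |‖z‖ ^ 2 - n|) := fun x => by
    have h1 : GE (fun z => g x * excess s (s • x + Real.sqrt s • z))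
        ≤ GE fun z : E n => g x * (2 * s ^ 2 * ‖x‖ ^ 2 + 2 * s * |‖z‖ ^ 2 - n|) := by
      refine hp.ex_mono ((Tame.const _).mul ((tame2_channel te s).section_right x))
        ((Tame.const _).mul (tq.section_right x)) fun z => ?_
      refine mul_le_mul_of_nonneg_left ?_ (hg.pos x).le
      have h2 : ‖s • x + Real.sqrt s • z‖ ≤ s * ‖x‖ + Real.sqrt s * ‖z‖ := by
        refine (norm_add_le _ _).trans (le_of_eq ?_)
        rw [norm_smul, norm_smul, Real.norm_of_nonneg hs, Real.norm_of_nonneg (Real.sqrt_nonneg s)]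
      have h3 := mul_self_le_mul_self (norm_nonneg _) h2
      have h4 : Real.sqrt s * Real.sqrt s = s := Real.mul_self_sqrt hs
      have h5 := mul_le_mul_of_nonneg_left (le_abs_self (‖z‖ ^ 2 - (n : ℝ))) hs
      have h7 : (0 : ℝ) ≤ s * n := by positivity
      refine max_le (by positivity) ?_
      nlinarith [sq_nonneg (s * ‖x‖ - Real.sqrt s * ‖z‖)]
    refine h1.trans_eq ?_
    rw [GE, ex_const_mul, hp.ex_add (Tame.const _) (tz.const_mul _), hp.ex_const, ex_const_mul]
    rfl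
  set A := GE fun z : E n => |‖z‖ ^ 2 - n|
  have tg : Tame fun x => g x * (2 * s ^ 2 * ‖x‖ ^ 2 + 2 * s * A) :=
    hg.tame.mul (((tame_id.norm.pow 2).const_mul _).add (Tame.const _))
  have h3 : EP V s (fun x θ => g x * excess s θ)
      ≤ ex V fun x => g x * (2 * s ^ 2 * ‖x‖ ^ 2 + 2 * s * A) :=
    h.pin.ex_mono (tame_GE s (hg.tame.tame2_left.mul te)) tg e2
  have e3 : ∀ x, g x * (2 * s ^ 2 * ‖x‖ ^ 2 + 2 * s * A)
      = (2 * s ^ 2) * (∑ i, g x * x i ^ 2) + (2 * s * A) * g x := fun x => by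
    rw [← Finset.mul_sum, show ‖x‖ ^ 2 = ∑ i, x i ^ 2 by simp [EuclideanSpace.norm_sq_eq, sq_abs]]
    ring
  have ti : ∀ i ∈ Finset.univ, Tame fun x : E n => g x * x i ^ 2 := fun i _ =>
    hg.tame.mul ((tame_coord i).pow 2)
  rw [ex_congr e3, h.pin.ex_add ((Tame.sum _ ti).const_mul _) (hg.tame.const_mul _), ex_const_mul,
    ex_const_mul, hg.mass, h.pin.ex_sum _ ti, mul_one] at h3
  have h4 : ∑ i, ex V (fun x => g x * x i ^ 2) ≤ n * (Hent V g + 1) := by
    refine (Finset.sum_le_sum fun i _ => ex_g_sq_le h hsub hg i).trans_eq ?_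
    simp [mul_add]
  have h5 := mul_le_mul_of_nonneg_left h4 (by positivity : (0 : ℝ) ≤ 2 * s ^ 2)
  have h6 := mul_le_mul_of_nonneg_left (GE_abs_norm_sq_le (n := n)) (by positivity : 0 ≤ 2 * s)
  linarith

/-- The pointwise bound of `wsq` with the two bad terms. -/
theorem exists_wsq_all : ∃ C : ℝ, 0 < C ∧ ∀ (n : ℕ) (V g : E n → ℝ) (ε Λ : ℝ), Reg V ε Λ → Sub V →
    Dens V g → ∀ s, 0 ≤ s → ∀ θ, wsq V g s θ ≤ C * ((2 + Real.sqrt (s * n)) * KLs V g s θ
      + s * n * chi V s θ + excess s θ) := by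
  obtain ⟨C1, hC1, hfar⟩ := exists_wsq_far
  obtain ⟨C2, hC2, hgood⟩ := exists_wsq_good
  refine ⟨65 * C1 + C2, by positivity, fun n V g ε Λ h hsub hg s hs θ => ?_⟩
  have hk := KLs_nonneg h hg hs θ
  have hsn : 0 ≤ s * n := by positivity
  have he : 0 ≤ excess s θ := le_max_left _ _
  obtain ⟨hc0, hc1⟩ := chi_mem V s θ
  have hp : 0 ≤ (2 + Real.sqrt (s * n)) * KLs V g s θ := by positivity
  have hS := Real.sqrt_nonneg (s * n)
  have hQ1 : 0 ≤ s * n * chi V s θ := mul_nonneg hsn hc0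
  set T := (2 + Real.sqrt (s * n)) * KLs V g s θ + s * n * chi V s θ + excess s θ with hT
  have hT0 : 0 ≤ T := by positivity
  have hk2 : KLs V g s θ ≤ (2 + Real.sqrt (s * n)) * KLs V g s θ :=
    le_mul_of_one_le_left hk (by linarith)
  by_cases hbig : 64 * s * n < ‖θ‖ ^ 2
  · refine (hfar n V g ε Λ h hsub hg s hs θ).trans ?_
    have h1 : ‖θ‖ ^ 2 + s * n ≤ 65 * excess s θ := by
      have : ‖θ‖ ^ 2 - 32 * s * n ≤ excess s θ := le_max_right _ _
      linarith
    have h2 : KLs V g s θ + ‖θ‖ ^ 2 + s * n ≤ 65 * T := by rw [hT]; linarith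
    have h3 := mul_le_mul_of_nonneg_left h2 hC1.le
    have h4 := mul_nonneg hC2.le hT0
    linarith
  · push_neg at hbig
    by_cases hchi : chi V s θ < 1
    · refine (hgood n V g ε Λ h hsub hg s hs θ (opLe_of_chi h hs θ hchi) hbig).trans ?_
      have h2 : (1 + Real.sqrt (s * n)) * KLs V g s θ ≤ T := by rw [hT]; linarith
      have h3 := mul_le_mul_of_nonneg_left h2 hC2.le
      have h4 := mul_nonneg hC1.le hT0
      linarith
    · push_neg at hchi
      refine (hfar n V g ε Λ h hsub hg s hs θ).trans ?_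
      have h1 : ‖θ‖ ^ 2 + s * n ≤ 65 * (s * n * chi V s θ) := by
        rw [le_antisymm hc1 hchi, mul_one]
        linarith
      have h2 : KLs V g s θ + ‖θ‖ ^ 2 + s * n ≤ 65 * T := by rw [hT]; linarith
      have h3 := mul_le_mul_of_nonneg_left h2 hC1.le
      have h4 := mul_nonneg hC2.le hT0
      linarith

theorem log_le_six {x : ℝ} (hx : 0 < x) : Real.log x ≤ 6 * x ^ (1 / 6 : ℝ) := by
  have := Real.log_le_rpow_div hx.le (by norm_num : (0 : ℝ) < 1 / 6)
  linarith

/-- The defective inequality. -/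
theorem exists_defective : ∃ K : ℝ, 0 < K ∧ ∀ (n : ℕ) (V g : E n → ℝ) (ε Λ : ℝ), 1 ≤ n →
    Reg V ε Λ → Sub V → Dens V g →
      Hent V g ≤ K * (n : ℝ) ^ (1 / 3 : ℝ) * Fish V g + 1 / 10 := by
  obtain ⟨C, hC, hw⟩ := exists_wsq_all
  obtain ⟨c, hc, htail⟩ := exists_tail
  set D0 := C * (20 + 4 / c) with hD0
  set c1 := min (min 1 (1 / (100 * D0))) ((c / 7) ^ 2) with hc1d
  have hc1 : 0 < c1 := lt_min (lt_min one_pos (by positivity)) (by positivity)
  have hc1a : c1 ≤ 1 := (min_le_left _ _).trans (min_le_left _ _)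
  have hc1b : c1 * D0 ≤ 1 / 100 := by
    refine (mul_le_mul_of_nonneg_right ((min_le_left _ _).trans (min_le_right _ _))
      (by positivity)).trans_eq ?_
    have : D0 ≠ 0 := ne_of_gt (by positivity)
    field_simp
  refine ⟨2 / c1, by positivity, fun n V g ε Λ hn h hsub hg => ?_⟩
  set N := (n : ℝ) ^ (1 / 3 : ℝ) with hN
  have hn0 : (0 : ℝ) < n := by exact_mod_cast hn
  have hN1 : 1 ≤ N := Real.one_le_rpow (by exact_mod_cast hn) (by norm_num)
  have hN3 : N ^ 3 = n := by
    rw [hN, ← Real.rpow_natCast, ← Real.rpow_mul hn0.le]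
    norm_num
  set t := c1 / N with ht
  have ht0 : 0 < t := by positivity
  have ht1 : t ≤ c1 := div_le_self hc1.le hN1
  have hH : 0 ≤ Hent V g := (Dfun_nonneg h hg le_rfl).trans (Dfun_le_Hent h hg le_rfl)
  have htn : t ^ 3 * n = c1 ^ 3 := by
    rw [← hN3, ht]
    field_simp
  set Kt := C * ((2 + Real.sqrt (t * n)) * Hent V g + t * n * (t / c) * (Hent V g + 1)
    + (2 * t ^ 2 * n * (Hent V g + 1) + 4 * t * Real.sqrt n)) with hKt
  have hder : ∀ s ∈ Set.Ioo 0 t, deriv (Dfun V g) s ≤ Kt := by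
    intro s ⟨hs, hst⟩
    rw [(hasDerivAt_Dfun h hg hs).deriv]
    have hgs := (nice_gbar h hg).tame hs.le
    have tK : Tame2 fun _ θ : E n => gbar V g s θ * KLs V g s θ :=
      ((nice_KLs h hg).tame hs.le).tame2_right
    have tc : Tame2 fun _ θ : E n => gbar V g s θ * chi V s θ :=
      (hgs.mul ((nice_chi h).tame hs.le)).tame2_right
    have te : Tame2 fun _ θ : E n => gbar V g s θ * excess s θ :=
      (hgs.mul (tame_excess n s)).tame2_right
    have tw : Tame2 fun _ θ : E n => gbar V g s θ * wsq V g s θ :=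
      ((nice_wsq h hg).tame hs.le).tame2_right
    obtain ⟨δ, M, hδ, hb⟩ := gbar_bounds h hg
    have h1 : EP V s (fun _ θ => gbar V g s θ * wsq V g s θ)
        ≤ EP V s fun _ θ => (C * (2 + Real.sqrt (s * n))) * (gbar V g s θ * KLs V g s θ)
          + ((C * (s * n)) * (gbar V g s θ * chi V s θ)
          + C * (gbar V g s θ * excess s θ)) :=
      EP_mono h s tw (((Tame2.const _).mul tK).add (((Tame2.const _).mul tc).add
        ((Tame2.const _).mul te))) fun x θ => by
        have := mul_le_mul_of_nonneg_left (hw n V g ε Λ h hsub hg s hs.le θ)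
          (hδ.le.trans (hb s hs.le θ).1)
        linarith
    rw [EP_add h s ((Tame2.const _).mul tK) (((Tame2.const _).mul tc).add
        ((Tame2.const _).mul te)), EP_add h s ((Tame2.const _).mul tc) ((Tame2.const _).mul te),
      EP_const_mul, EP_const_mul, EP_const_mul, EP_KLs h hg hs.le] at h1
    have hD := Dfun_nonneg h hg hs.le
    have hchi : EP V s (fun _ θ => chi V s θ) ≤ Real.exp (-(c / s)) := by
      refine htail n V ε Λ hn h hsub s hs ?_
      have a1 : Real.sqrt s ≤ Real.sqrt c1 * (n : ℝ) ^ (-(1 / 6) : ℝ) := by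
        have e : Real.sqrt c1 * (n : ℝ) ^ (-(1 / 6) : ℝ) = Real.sqrt t := by
          rw [ht, Real.sqrt_div' _ (by positivity), hN, Real.sqrt_eq_rpow ((n : ℝ) ^ _),
            ← Real.rpow_mul hn0.le, Real.rpow_neg hn0.le, ← div_eq_mul_inv]
          norm_num
        rw [e]
        exact Real.sqrt_le_sqrt hst.le
      have a2 : 1 + Real.log n ≤ 7 * (n : ℝ) ^ (1 / 6 : ℝ) := by
        linarith [log_le_six hn0, Real.one_le_rpow (by exact_mod_cast hn : (1 : ℝ) ≤ n)
          (by norm_num : (0 : ℝ) ≤ 1 / 6)]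
      have a3 : Real.sqrt c1 ≤ c / 7 := by
        rw [← Real.sqrt_sq (by positivity : 0 ≤ c / 7)]
        exact Real.sqrt_le_sqrt (min_le_right _ _)
      calc Real.sqrt s * (1 + Real.log n)
          ≤ (Real.sqrt c1 * (n : ℝ) ^ (-(1 / 6) : ℝ)) * (7 * (n : ℝ) ^ (1 / 6 : ℝ)) :=
            mul_le_mul a1 a2 (by positivity) (by positivity)
        _ = 7 * Real.sqrt c1 := by
            rw [Real.rpow_neg hn0.le]
            field_simp
        _ ≤ c := by linarith
    have b1 := EP_gbar_chi h hg hs.le (by positivity) hchi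
    rw [div_mul_eq_mul_div, div_le_iff₀ hs] at b1
    have b1' : EP V s (fun _ θ => gbar V g s θ * chi V s θ) ≤ t / c * (Hent V g + 1) := by
      rw [div_mul_eq_mul_div, le_div_iff₀ hc]
      nlinarith
    have b2 := EP_gbar_excess h hsub hg hs.le
    have hsn : Real.sqrt (s * n) ≤ Real.sqrt (t * n) :=
      Real.sqrt_le_sqrt (mul_le_mul_of_nonneg_right hst.le hn0.le)
    have q1 : C * (2 + Real.sqrt (s * n)) * (Hent V g - Dfun V g s)
        ≤ C * (2 + Real.sqrt (t * n)) * Hent V g :=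
      mul_le_mul (mul_le_mul_of_nonneg_left (by linarith) hC.le) (by linarith)
        (by linarith [Dfun_le_Hent h hg hs.le]) (by positivity)
    have q2 : C * (s * n) * EP V s (fun _ θ => gbar V g s θ * chi V s θ)
        ≤ C * (t * n) * (t / c * (Hent V g + 1)) :=
      (mul_le_mul_of_nonneg_left b1' (by positivity)).trans (mul_le_mul_of_nonneg_right
        (mul_le_mul_of_nonneg_left (mul_le_mul_of_nonneg_right hst.le hn0.le) hC.le)
        (by positivity))
    have q3 : C * EP V s (fun _ θ => gbar V g s θ * excess s θ)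
        ≤ C * (2 * t ^ 2 * n * (Hent V g + 1) + 4 * t * Real.sqrt n) := by
      refine mul_le_mul_of_nonneg_left (b2.trans ?_) hC.le
      have e1 : s ^ 2 ≤ t ^ 2 := pow_le_pow_left₀ hs.le hst.le 2
      gcongr
    have hw0 : 0 ≤ EP V s (fun _ θ => gbar V g s θ * wsq V g s θ) := by
      have := EP_mono h s (Tame2.const 0) tw fun x θ => mul_nonneg (hδ.le.trans (hb s hs.le θ).1)
        (Finset.sum_nonneg fun i _ => sq_nonneg _)
      rwa [EP_left h s (Tame.const (0 : ℝ)), h.pin.ex_const] at this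
    linarith
  have hmvt : Dfun V g t - Dfun V g 0 ≤ Kt * (t - 0) := by
    refine (convex_Icc 0 t).image_sub_le_mul_sub_of_deriv_le
      ((continuousOn_Dfun h hg).mono fun x hx => hx.1) ?_ ?_ 0 (Set.left_mem_Icc.2 ht0.le) t
      (Set.right_mem_Icc.2 ht0.le) ht0.le
    · rw [interior_Icc]
      exact fun x hx => (hasDerivAt_Dfun h hg hx.1).differentiableAt.differentiableWithinAt
    · rw [interior_Icc]
      exact hder
  rw [Dfun_zero h hg, sub_zero, sub_zero] at hmvt
  have hb1 : Kt * t ≤ (Hent V g + 1) * (c1 * D0) := by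
    have r1 : t * Real.sqrt (t * n) ≤ c1 := by
      have : (t * Real.sqrt (t * n)) ^ 2 ≤ c1 ^ 2 := by
        rw [mul_pow, Real.sq_sqrt (by positivity), show t ^ 2 * (t * n) = t ^ 3 * n by ring, htn]
        nlinarith [mul_le_mul_of_nonneg_left hc1a (sq_nonneg c1)]
      exact le_of_pow_le_pow_left₀ two_ne_zero hc1.le this
    have r2 : t ^ 3 * n ≤ c1 := by
      rw [htn]
      exact pow_le_of_le_one hc1.le hc1a (by norm_num)
    have r3 : t ^ 2 * Real.sqrt n ≤ c1 := by
      have : (t ^ 2 * Real.sqrt n) ^ 2 ≤ c1 ^ 2 := by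
        rw [mul_pow, Real.sq_sqrt hn0.le, show (t ^ 2) ^ 2 * n = t * (t ^ 3 * n) by ring, htn]
        calc t * c1 ^ 3 ≤ c1 * c1 ^ 3 := mul_le_mul_of_nonneg_right ht1 (by positivity)
          _ = c1 ^ 2 * c1 ^ 2 := by ring
          _ ≤ c1 ^ 2 * 1 := mul_le_mul_of_nonneg_left (pow_le_one₀ hc1.le hc1a) (sq_nonneg _)
          _ = c1 ^ 2 := mul_one _
      exact le_of_pow_le_pow_left₀ two_ne_zero hc1.le this
    have e : Kt * t = C * ((2 * t + t * Real.sqrt (t * n)) * Hent V g
        + t ^ 3 * n * (1 / c) * (Hent V g + 1)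
        + (2 * (t ^ 3 * n) * (Hent V g + 1) + 4 * (t ^ 2 * Real.sqrt n))) := by
      rw [hKt]; ring
    rw [e, hD0]
    have H1 : 0 ≤ Hent V g + 1 := by linarith
    have u1 := mul_le_mul_of_nonneg_right (by linarith : 2 * t + t * Real.sqrt (t * n) ≤ 3 * c1) hH
    have u2 := mul_le_mul_of_nonneg_right
      (mul_le_mul_of_nonneg_right r2 (by positivity : (0 : ℝ) ≤ 1 / c)) H1
    have u3 := mul_le_mul_of_nonneg_right r2 H1
    have u4 : 0 ≤ (Hent V g + 1) * c1 * (3 / c) := by positivity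
    have : (2 * t + t * Real.sqrt (t * n)) * Hent V g
        + t ^ 3 * n * (1 / c) * (Hent V g + 1)
        + (2 * (t ^ 3 * n) * (Hent V g + 1) + 4 * (t ^ 2 * Real.sqrt n))
        ≤ (Hent V g + 1) * c1 * (20 + 4 / c) := by
      have e4 : 4 / c = 1 / c + 3 / c := by ring
      rw [e4]
      nlinarith [mul_nonneg hc1.le hH]
    exact (mul_le_mul_of_nonneg_left this hC.le).trans_eq (by ring)
  have hb2 : (Hent V g + 1) * (c1 * D0) ≤ (Hent V g + 1) * (1 / 100) :=
    mul_le_mul_of_nonneg_left hc1b (by linarith)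
  have htl := tail_lsi h hg ht0
  have hdiv : Hent V g - Dfun V g t ≤ N / c1 * Fish V g := by
    rw [ht, div_mul_eq_mul_div, div_le_iff₀ (by positivity : (0 : ℝ) < N)] at htl
    rw [div_mul_eq_mul_div, le_div_iff₀ hc1]
    linarith
  have hKN : 2 / c1 * N * Fish V g = 2 * (N / c1 * Fish V g) := by ring
  rw [hKN]
  linarith

end Vale.P245.Cube
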