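import Vale.Agent.P245.Cube.Defs
import Vale.Agent.P074.PrekopaLeindler

/-! # Moments of a linear form under a log-concave law

Midpoint Prékopa-Leindler makes the half-space tails midpoint log-concave; Chebyshev starts the
geometric decay. -/

namespace Vale.P245.Cube

open MeasureTheory Filter Topology Vale.P254.Skew
open scoped RealInnerProductSpace

variable {n : ℕ} {W : E n → ℝ} {a b : ℝ}

/-- Convexity at midpoints. -/
theorem two_mul_midpoint_le (h : Pinched W a b) (x y : E n) :
    2 * W ((1 / 2 : ℝ) • (x + y)) ≤ W x + W y := by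
  set z := (1 / 2 : ℝ) • (x + y) with hz
  set w := (1 / 2 : ℝ) • (y - x) with hw
  have h0 : ∀ w : E n, ∀ t : ℝ, (0 : ℝ) ≤ D2 W (z + t • w) w w := fun w t => h.D2_nonneg _ _
  have h1 := taylor_lower (h.hasDerivAt_line z w) (h.hasDerivAt_line2 z w w) (h0 w)
  have h2 := taylor_lower (h.hasDerivAt_line z (-w)) (h.hasDerivAt_line2 z (-w) (-w)) (h0 (-w))
  have e1 : z + w = y := by rw [hz, hw]; module
  have e2 : z + -w = x := by rw [hz, hw]; module
  simp only [zero_smul, add_zero, one_smul, e1, e2, map_neg] at h1 h2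
  linarith

/-- The unnormalised tail of an affine form. -/
noncomputable def tail (W : E n → ℝ) (v : E n) (m t : ℝ) : ℝ :=
  ∫ x in {x : E n | t ≤ ⟪x, v⟫ - m}, Real.exp (-W x)

theorem measurableSet_tail (v : E n) (m t : ℝ) : MeasurableSet {x : E n | t ≤ ⟪x, v⟫ - m} :=
  (isClosed_le continuous_const (by fun_prop)).measurableSet

theorem tail_nonneg (W : E n → ℝ) (v : E n) (m t : ℝ) : 0 ≤ tail W v m t :=
  integral_nonneg fun _ => (Real.exp_pos _).le

theorem tail_antitone (h : Pinched W a b) (v : E n) (m : ℝ) : Antitone (tail W v m) :=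
  fun _ _ hst => setIntegral_mono_set h.integrable_exp.integrableOn
    (Eventually.of_forall fun _ => (Real.exp_pos _).le)
    (HasSubset.Subset.eventuallyLE fun _ hx => le_trans hst hx)

theorem tail_mul_le (h : Pinched W a b) (v : E n) (m s t : ℝ) :
    tail W v m s * tail W v m t ≤ tail W v m ((s + t) / 2) ^ 2 := by
  set S : ℝ → Set (E n) := fun r => {x | r ≤ ⟪x, v⟫ - m} with hS
  have hm : ∀ r, MeasurableSet (S r) := measurableSet_tail v m
  set F : ℝ → E n → ENNReal := fun r => (S r).indicator fun x => ENNReal.ofReal (Real.exp (-W x))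
  have hF : ∀ r, Measurable (F r) := fun r =>
    ((Real.continuous_exp.comp h.continuous.neg).measurable.ennreal_ofReal).indicator (hm r)
  have key := Vale.Agent.P074.prekopa_leindler (hF s) (hF t) (hF ((s + t) / 2)) fun x y => by
    by_cases hx : x ∈ S s
    · by_cases hy : y ∈ S t
      · have hxy : (1 / 2 : ℝ) • (x + y) ∈ S ((s + t) / 2) := by
          simp only [hS, Set.mem_setOf_eq, real_inner_smul_left, inner_add_left] at hx hy ⊢
          linarith
        simp only [F, Set.indicator_of_mem hx, Set.indicator_of_mem hy, Set.indicator_of_mem hxy]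
        rw [← ENNReal.ofReal_mul (Real.exp_pos _).le, ← ENNReal.ofReal_pow (Real.exp_pos _).le,
          ← Real.exp_add, ← Real.exp_nat_mul]
        refine ENNReal.ofReal_le_ofReal (Real.exp_le_exp.2 ?_)
        have := two_mul_midpoint_le h x y
        push_cast
        linarith
      · simp [F, Set.indicator_of_notMem hy]
    · simp [F, Set.indicator_of_notMem hx]
  have e : ∀ r, ∫⁻ x, F r x = ENNReal.ofReal (tail W v m r) := fun r => by
    rw [tail, ofReal_integral_eq_lintegral_ofReal h.integrable_exp.integrableOn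
      (Eventually.of_forall fun _ => (Real.exp_pos _).le), ← lintegral_indicator (hm r)]
  rw [e, e, e, ← ENNReal.ofReal_mul (tail_nonneg _ _ _ _),
    ← ENNReal.ofReal_pow (tail_nonneg _ _ _ _)] at key
  exact (ENNReal.ofReal_le_ofReal_iff (sq_nonneg _)).1 key

theorem chebyshev_tail (h : Pinched W a b) (v : E n) (m : ℝ) {r : ℝ} (hr : 0 ≤ r) :
    r ^ 2 * (∫ x in {x : E n | r ≤ |⟪x, v⟫ - m|}, Real.exp (-W x))
      ≤ Zc W * ex W (fun x => (⟪x, v⟫ - m) ^ 2) := by
  have hint : Integrable fun x => Real.exp (-W x) * (⟪x, v⟫ - m) ^ 2 :=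
    h.integrable (((tame_inner v).sub (Tame.const m)).pow 2)
  rw [ex, smul_eq_mul, ← mul_assoc, mul_inv_cancel₀ h.zc_pos.ne', one_mul, ← integral_const_mul]
  simp only [smul_eq_mul]
  refine (setIntegral_mono_on (h.integrable_exp.integrableOn.const_mul _) hint.integrableOn
    (isClosed_le continuous_const (by fun_prop)).measurableSet fun x hx => ?_).trans
    (setIntegral_le_integral hint (Eventually.of_forall fun x => by positivity))
  rw [mul_comm]
  refine mul_le_mul_of_nonneg_left ?_ (Real.exp_pos _).le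
  rw [← sq_abs (⟪x, v⟫ - m)]
  exact pow_le_pow_left₀ hr hx 2

/-- Geometric decay on the scale of the standard deviation. -/
theorem tail_le (h : Pinched W a b) (v : E n) (m : ℝ) {σ : ℝ} (hσ : 0 < σ)
    (hvar : ex W (fun x => (⟪x, v⟫ - m) ^ 2) ≤ σ ^ 2) (j : ℕ) :
    tail W v m (σ * (4 * j + 2)) ≤ Zc W / 4 * (1 / 3) ^ j := by
  have hc := chebyshev_tail h v m (r := 2 * σ) (by positivity)
  set B := ∫ x in {x : E n | 2 * σ ≤ |⟪x, v⟫ - m|}, Real.exp (-W x)
  have hB : B ≤ Zc W / 4 := by
    have := mul_le_mul_of_nonneg_left hvar h.zc_pos.le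
    nlinarith [pow_pos hσ 2]
  have hmono : ∀ T : Set (E n), T ⊆ {x | 2 * σ ≤ |⟪x, v⟫ - m|} →
      ∫ x in T, Real.exp (-W x) ≤ B := fun T hT =>
    setIntegral_mono_set h.integrable_exp.integrableOn
      (Eventually.of_forall fun _ => (Real.exp_pos _).le) (HasSubset.Subset.eventuallyLE hT)
  have htop : tail W v m (σ * 2) ≤ Zc W / 4 :=
    (hmono _ fun x (hx : σ * 2 ≤ ⟪x, v⟫ - m) => le_trans (by linarith) (le_abs_self (⟪x, v⟫ - m))).trans hB
  have hbot : 3 / 4 * Zc W ≤ tail W v m (σ * (-2)) := by
    have hsplit := integral_add_compl (measurableSet_tail v m (σ * (-2))) h.integrable_exp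
    have : ∫ x in {x : E n | σ * (-2) ≤ ⟪x, v⟫ - m}ᶜ, Real.exp (-W x) ≤ B := hmono _ fun x hx => by
      simp only [Set.mem_compl_iff, Set.mem_setOf_eq, not_le] at hx
      exact le_trans (by linarith) (neg_le_abs (⟪x, v⟫ - m))
    unfold tail Zc at *
    linarith
  set G : ℕ → ℝ := fun i => tail W v m (σ * (4 * i - 2)) with hG
  have hlc : ∀ i, G (i + 2) * G i ≤ G (i + 1) ^ 2 := fun i => by
    refine (tail_mul_le h v m _ _).trans_eq ?_
    simp only [hG]
    congr 2
    push_cast
    ring
  have hdec : ∀ i, 3 * G (i + 1) ≤ G i := by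
    intro i
    induction i with
    | zero =>
      simp only [hG]
      norm_num
      rw [mul_neg] at hbot
      linarith
    | succ i ih =>
      have h1 := tail_nonneg W v m (σ * (4 * (i : ℝ) - 2))
      rcases eq_or_lt_of_le (tail_nonneg W v m (σ * (4 * (i : ℝ) - 2))) with he | hp
      · have ha : G (i + 1 + 1) ≤ G (i + 1) := tail_antitone h v m (by push_cast; nlinarith)
        have hb : G (i + 1) ≤ G i := tail_antitone h v m (by push_cast; nlinarith)
        have hb0 : G i = 0 := he.symm
        have := tail_nonneg W v m (σ * (4 * ((i + 1 + 1 : ℕ) : ℝ) - 2))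
        simp only [hG] at ha hb hb0 this ⊢
        linarith
      · refine le_of_mul_le_mul_right ?_ (show 0 < G i from hp)
        have : 0 ≤ G (i + 1) := tail_nonneg _ _ _ _
        nlinarith [hlc i, mul_le_mul_of_nonneg_left ih this]
  have hgeo : ∀ i, G (i + 1) ≤ Zc W / 4 * (1 / 3) ^ i := by
    intro i
    induction i with
    | zero =>
      simp only [hG]
      norm_num
      linarith
    | succ i ih =>
      rw [pow_succ]
      nlinarith [hdec (i + 1)]
  have := hgeo j
  simp only [hG] at this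
  push_cast at this
  rwa [show σ * (4 * ((j : ℝ) + 1) - 2) = σ * (4 * j + 2) by ring] at this

theorem integrable_exp_inner (h : Pinched W a b) (w : E n) :
    Integrable fun x => Real.exp (-W x) * Real.exp ⟪x, w⟫ :=
  (h.tilt w).integrable_exp.congr (Eventually.of_forall fun x => by
    simp only [← Real.exp_add, tilt]
    rw [real_inner_comm w x]
    ring_nf)

/-- Integrability against exponentials of the absolute value of an affine form. -/
theorem integrable_exp_abs (h : Pinched W a b) (v : E n) (m r : ℝ) :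
    Integrable fun x => Real.exp (-W x) * Real.exp (r * |⟪x, v⟫ - m|) := by
  refine (((integrable_exp_inner h (r • v)).const_mul (Real.exp (-(r * m)))).add
    ((integrable_exp_inner h ((-r) • v)).const_mul (Real.exp (r * m)))).mono'
    ((Real.continuous_exp.comp h.continuous.neg).mul
      (Real.continuous_exp.comp (by fun_prop))).aestronglyMeasurable
    (Eventually.of_forall fun x => ?_)
  rw [Real.norm_of_nonneg (by positivity)]
  simp only [Pi.add_apply, real_inner_smul_right, ← Real.exp_add]
  rcases abs_cases (⟪x, v⟫ - m) with ⟨e, -⟩ | ⟨e, -⟩ <;> rw [e]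
  · exact le_trans (Real.exp_le_exp.2 (le_of_eq (by ring)))
      (le_add_of_nonneg_right (Real.exp_pos _).le)
  · exact le_trans (Real.exp_le_exp.2 (le_of_eq (by ring)))
      (le_add_of_nonneg_left (Real.exp_pos _).le)

/-- Exponential moment at the scale of the standard deviation. -/
theorem exp_abs_le (h : Pinched W a b) (v : E n) (m : ℝ) {σ : ℝ} (hσ : 0 < σ)
    (hvar : ex W (fun x => (⟪x, v⟫ - m) ^ 2) ≤ σ ^ 2) :
    ex W (fun x => Real.exp (|⟪x, v⟫ - m| / (8 * σ))) ≤ 8 := by
  set u : E n → ℝ := fun x => |⟪x, v⟫ - m| with hu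
  have huc : Continuous u := by fun_prop
  set f : E n → ℝ := fun x => Real.exp (-W x) * Real.exp (u x / (8 * σ)) with hf
  have hfint : Integrable f := (integrable_exp_abs h v m (1 / (8 * σ))).congr
    (Eventually.of_forall fun x => by simp only [hf, hu]; ring_nf)
  set S : ℕ → Set (E n) := fun N => {x | u x ≤ σ * (4 * N + 2)} with hS
  have hSm : ∀ N, MeasurableSet (S N) := fun N =>
    (isClosed_le huc continuous_const).measurableSet
  have hv' : ex W (fun x => (⟪x, -v⟫ - -m) ^ 2) ≤ σ ^ 2 := by
    refine le_trans (le_of_eq (ex_congr fun x => ?_)) hvar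
    rw [inner_neg_right]
    ring
  have hI : ∀ (w : E n) (r : ℝ) (j : ℕ), Integrable
      ({x : E n | σ * (4 * j + 2) ≤ ⟪x, w⟫ - r}.indicator fun x => Real.exp (-W x)) :=
    fun w r j => h.integrable_exp.indicator (measurableSet_tail _ _ _)
  set D : ℕ → E n → ℝ := fun j x => 3 * 2 ^ j
    * ({x : E n | σ * (4 * j + 2) ≤ ⟪x, v⟫ - m}.indicator (fun x => Real.exp (-W x)) x
      + {x : E n | σ * (4 * j + 2) ≤ ⟪x, -v⟫ - -m}.indicator (fun x => Real.exp (-W x)) x) with hD
  have hDint : ∀ j, Integrable (D j) := fun j => ((hI _ _ j).add (hI _ _ j)).const_mul _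
  have hD0 : ∀ j x, 0 ≤ D j x := fun j x => mul_nonneg (by positivity)
    (add_nonneg (Set.indicator_nonneg (fun _ _ => (Real.exp_pos _).le) x)
      (Set.indicator_nonneg (fun _ _ => (Real.exp_pos _).le) x))
  have h2 : Real.exp (1 / 4) ≤ 2 := by
    have := pow_le_pow_left₀ (Real.exp_pos (1 / 4)).le le_rfl 4
    rw [← Real.exp_nat_mul] at this
    refine le_of_pow_le_pow_left₀ (n := 4) (by norm_num) zero_le_two ?_
    rw [← Real.exp_nat_mul]
    norm_num
    linarith [Real.exp_one_lt_d9]
  have hhalf : Real.exp (1 / 2) ≤ 2 := by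
    refine le_of_pow_le_pow_left₀ (n := 2) (by norm_num) zero_le_two ?_
    rw [← Real.exp_nat_mul]
    norm_num
    linarith [Real.exp_one_lt_d9]
  have hpt : ∀ N x, (S N).indicator f x ≤ 2 * Real.exp (-W x) + ∑ j ∈ Finset.range N, D j x := by
    intro N x
    have hs := Finset.sum_nonneg (s := Finset.range N) fun j _ => hD0 j x
    have he := Real.exp_pos (-W x)
    by_cases hx : x ∈ S N
    swap
    · rw [Set.indicator_of_notMem hx]; positivity
    rw [Set.indicator_of_mem hx]
    rcases le_or_gt (u x) (2 * σ) with hs2 | hs2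
    · have : Real.exp (u x / (8 * σ)) ≤ 2 := le_trans
        (Real.exp_le_exp.2 (by rw [div_le_iff₀ (by positivity)]; linarith)) h2
      have := mul_le_mul_of_nonneg_left this he.le
      simp only [hf]
      linarith
    classical
    have hex : ∃ i : ℕ, u x ≤ σ * (4 * i + 2) := ⟨N, hx⟩
    obtain ⟨j, hj⟩ : ∃ j, Nat.find hex = j + 1 := Nat.exists_eq_succ_of_ne_zero fun h0 => by
      have := Nat.find_spec hex
      rw [h0] at this
      simp at this
      linarith
    have hju : u x ≤ σ * (4 * (j + 1 : ℕ) + 2) := hj ▸ Nat.find_spec hex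
    have hjl : ¬ u x ≤ σ * (4 * j + 2) := Nat.find_min hex (by omega)
    have hjN : j ∈ Finset.range N := Finset.mem_range.2 (by
      have := Nat.find_le (h := hex) hx
      omega)
    refine le_trans ?_ (le_add_of_nonneg_left (by positivity))
    refine le_trans ?_ (Finset.single_le_sum (fun i _ => hD0 i x) hjN)
    have hfac : Real.exp (u x / (8 * σ)) ≤ 3 * 2 ^ j := by
      calc Real.exp (u x / (8 * σ)) ≤ Real.exp (1 + j * (1 / 2)) := by
            refine Real.exp_le_exp.2 ?_
            rw [div_le_iff₀ (by positivity)]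
            push_cast at hju
            nlinarith
        _ ≤ 3 * 2 ^ j := by
            rw [Real.exp_add, Real.exp_nat_mul]
            exact mul_le_mul (by linarith [Real.exp_one_lt_d9])
              (pow_le_pow_left₀ (Real.exp_pos _).le hhalf j) (by positivity) (by norm_num)
    have hA : ∀ T : Set (E n), 0 ≤ T.indicator (fun x => Real.exp (-W x)) x := fun T =>
      Set.indicator_nonneg (fun _ _ => (Real.exp_pos _).le) x
    refine (le_of_eq (mul_comm _ _)).trans
      (mul_le_mul hfac ?_ he.le (by positivity))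
    simp only [hu] at hjl
    rcases abs_cases (⟪x, v⟫ - m) with ⟨e, -⟩ | ⟨e, -⟩
    · rw [Set.indicator_of_mem (show x ∈ {x : E n | σ * (4 * j + 2) ≤ ⟪x, v⟫ - m} by
        rw [Set.mem_setOf_eq]; linarith)]
      exact le_add_of_nonneg_right (hA _)
    · rw [Set.indicator_of_mem (show x ∈ {x : E n | σ * (4 * j + 2) ≤ ⟪x, -v⟫ - -m} by
        rw [Set.mem_setOf_eq, inner_neg_right]; linarith)]
      exact le_add_of_nonneg_left (hA _)
  have hN : ∀ N, ∫ x, (S N).indicator f x ≤ 8 * Zc W := by
    intro N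
    refine (integral_mono (hfint.indicator (hSm N))
      ((h.integrable_exp.const_mul 2).add (integrable_finset_sum _ fun j _ => hDint j))
      (hpt N)).trans ?_
    simp only [Pi.add_apply]
    rw [integral_add (h.integrable_exp.const_mul 2) (integrable_finset_sum _ fun j _ => hDint j),
      integral_finset_sum _ fun j _ => hDint j, integral_const_mul]
    have hterm : ∀ j, ∫ x, D j x ≤ 3 / 2 * Zc W * (2 / 3) ^ j := fun j => by
      simp only [hD]
      rw [integral_const_mul, integral_add (hI _ _ j) (hI _ _ j),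
        integral_indicator (measurableSet_tail _ _ _), integral_indicator (measurableSet_tail _ _ _)]
      have t1 := tail_le h v m hσ hvar j
      have t2 := tail_le h (-v) (-m) hσ hv' j
      simp only [tail] at t1 t2
      refine (mul_le_mul_of_nonneg_left (add_le_add t1 t2) (by positivity)).trans_eq ?_
      rw [show (2 / 3 : ℝ) ^ j = 2 ^ j * (1 / 3) ^ j by rw [← mul_pow]; norm_num]
      ring
    have hgs : ∑ j ∈ Finset.range N, (2 / 3 : ℝ) ^ j ≤ 3 :=
      (sum_le_hasSum _ (fun _ _ => by positivity)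
        (hasSum_geometric_of_lt_one (by norm_num) (by norm_num))).trans_eq (by norm_num)
    have hsum : ∑ j ∈ Finset.range N, ∫ x, D j x ≤ 3 / 2 * Zc W * 3 := by
      refine (Finset.sum_le_sum fun j _ => hterm j).trans ?_
      rw [← Finset.mul_sum]
      exact mul_le_mul_of_nonneg_left hgs (by linarith [h.zc_pos])
    have := h.zc_pos
    unfold Zc at *
    linarith
  have hlim : Tendsto (fun N => ∫ x, (S N).indicator f x) atTop (𝓝 (∫ x, f x)) := by
    refine tendsto_integral_of_dominated_convergence f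
      (fun N => (hfint.indicator (hSm N)).aestronglyMeasurable) hfint
      (fun N => Eventually.of_forall fun x => ?_) (Eventually.of_forall fun x => ?_)
    · have : 0 ≤ f x := by simp only [hf]; positivity
      rw [Real.norm_of_nonneg (Set.indicator_nonneg (fun y _ => by simp only [hf]; positivity) x)]
      exact Set.indicator_le_self' (fun y _ => by simp only [hf]; positivity) x
    · refine tendsto_const_nhds.congr' ?_
      filter_upwards [Ici_mem_atTop ⌈u x / σ⌉₊] with N hN
      rw [Set.indicator_of_mem]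
      have h1 : u x / σ ≤ N := (Nat.le_ceil _).trans (by exact_mod_cast Set.mem_Ici.1 hN)
      rw [div_le_iff₀ hσ] at h1
      simp only [hS, Set.mem_setOf_eq]
      nlinarith [(Nat.cast_nonneg N : (0 : ℝ) ≤ N)]
  rw [ex, smul_eq_mul, inv_mul_le_iff₀ h.zc_pos]
  simp only [smul_eq_mul]
  exact (le_of_tendsto' hlim hN).trans_eq (mul_comm _ _)

/-- A monotonicity of expectations for integrable integrands. -/
theorem ex_mono_int (h : Pinched W a b) {f g : E n → ℝ}
    (hf : Integrable fun x => Real.exp (-W x) * f x)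
    (hg : Integrable fun x => Real.exp (-W x) * g x) (hle : ∀ x, f x ≤ g x) : ex W f ≤ ex W g :=
  mul_le_mul_of_nonneg_left (integral_mono hf hg fun x =>
    mul_le_mul_of_nonneg_left (hle x) (Real.exp_pos _).le) (inv_nonneg.2 h.zc_pos.le)

theorem exp_le_quad (t : ℝ) : Real.exp t ≤ 1 + t + t ^ 2 * Real.exp |t| := by
  have h1 : (1 : ℝ) ≤ Real.exp |t| := Real.one_le_exp (abs_nonneg t)
  rcases le_or_gt |t| 1 with h | h
  · have := (abs_le.1 (Real.abs_exp_sub_one_sub_id_le h)).2
    nlinarith [sq_nonneg t]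
  · have ht : 1 < t ^ 2 := by rw [← sq_abs]; nlinarith
    rcases le_or_gt 0 t with h0 | h0
    · rw [abs_of_nonneg h0] at h1 ⊢
      nlinarith
    · rw [abs_of_neg h0] at h
      have h2 : Real.exp t ≤ 1 := Real.exp_le_one_iff.2 h0.le
      nlinarith

/-- Fourth central moment against the variance (midpoint Prékopa-Leindler on slabs). -/
theorem exists_fourth : ∃ C : ℝ, 0 < C ∧ ∀ (n : ℕ) (W : E n → ℝ) (a b : ℝ), Pinched W a b →
    ∀ v : E n, ex W (fun x => (⟪x, v⟫ - ex W (fun x => ⟪x, v⟫)) ^ 4)
      ≤ C * (ex W (fun x => (⟪x, v⟫ - ex W (fun x => ⟪x, v⟫)) ^ 2)) ^ 2 := by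
  refine ⟨24 * 8 ^ 5, by norm_num, fun n W a b h v => ?_⟩
  set m := ex W (fun x => ⟪x, v⟫)
  set S := ex W (fun x => (⟪x, v⟫ - m) ^ 2)
  have hS : 0 ≤ S := h.ex_nonneg fun x => sq_nonneg _
  have key : ∀ δ : ℝ, 0 < δ →
      ex W (fun x => (⟪x, v⟫ - m) ^ 4) ≤ 24 * 8 ^ 5 * (S + δ) ^ 2 := by
    intro δ hδ
    set σ := Real.sqrt (S + δ)
    have hσ : 0 < σ := Real.sqrt_pos.2 (by linarith)
    have hsq : σ ^ 2 = S + δ := Real.sq_sqrt (by linarith)
    have he := exp_abs_le h v m hσ (by linarith)
    have hi : Integrable fun x => Real.exp (-W x) * Real.exp (|⟪x, v⟫ - m| / (8 * σ)) :=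
      (integrable_exp_abs h v m (1 / (8 * σ))).congr
        (Eventually.of_forall fun x => by ring_nf)
    refine (ex_mono_int h (h.integrable (((tame_inner v).sub (Tame.const m)).pow 4))
      ((hi.const_mul (24 * (8 * σ) ^ 4)).congr (Eventually.of_forall fun x => by ring))
      (g := fun x => 24 * (8 * σ) ^ 4 * Real.exp (|⟪x, v⟫ - m| / (8 * σ))) fun x => ?_).trans ?_
    · have := Real.pow_div_factorial_le_exp (x := |⟪x, v⟫ - m| / (8 * σ)) (by positivity) 4
      rw [div_pow, Even.pow_abs (by decide)] at this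
      norm_num [Nat.factorial] at this
      rw [div_le_iff₀ (by norm_num), div_le_iff₀ (by positivity)] at this
      linarith
    · rw [ex_const_mul, ← hsq]
      refine (mul_le_mul_of_nonneg_left he (by positivity)).trans_eq ?_
      ring
  refine ge_of_tendsto (x := 𝓝[>] (0 : ℝ)) ?_ (eventually_nhdsWithin_of_forall key)
  have : Continuous fun δ : ℝ => (24 * 8 ^ 5 : ℝ) * (S + δ) ^ 2 := by fun_prop
  simpa using (this.tendsto 0).mono_left nhdsWithin_le_nhds

/-- The exponential moment below the scale of the standard deviation. -/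
theorem exists_mgf : ∃ c C : ℝ, 0 < c ∧ 0 < C ∧ ∀ (n : ℕ) (W : E n → ℝ) (a b : ℝ), Pinched W a b →
    0 < b → ∀ (v : E n) (κ : ℝ), ex W (fun x => (⟪x, v⟫ - ex W (fun x => ⟪x, v⟫)) ^ 2) ≤ κ →
      κ ≤ c → ex W (fun x => Real.exp (⟪x, v⟫ - ex W (fun x => ⟪x, v⟫))) ≤ Real.exp (C * κ) := by
  refine ⟨1 / 512, 4096, by norm_num, by norm_num, fun n W a b h _ v κ hκ hκc => ?_⟩
  set m := ex W (fun x => ⟪x, v⟫) with hm
  set S := ex W (fun x => (⟪x, v⟫ - m) ^ 2)
  have hS : 0 ≤ S := h.ex_nonneg fun x => sq_nonneg _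
  have ht : Tame fun x : E n => 1 + (⟪x, v⟫ - m) :=
    (Tame.const 1).add ((tame_inner v).sub (Tame.const m))
  have h0 : ex W (fun x => 1 + (⟪x, v⟫ - m)) = 1 := by
    rw [h.ex_add (Tame.const 1) ((tame_inner v).sub (Tame.const m)),
      h.ex_sub (tame_inner v) (Tame.const m), h.ex_const, h.ex_const, ← hm]
    ring
  have key : ∀ δ : ℝ, 0 < δ → δ ≤ 1 / 512 →
      ex W (fun x => Real.exp (⟪x, v⟫ - m)) ≤ 1 + 4096 * (κ + δ) := by
    intro δ hδ hδ'
    set σ := Real.sqrt (κ + δ)
    have hσ : 0 < σ := Real.sqrt_pos.2 (by linarith)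
    have hsq : σ ^ 2 = κ + δ := Real.sq_sqrt (by linarith)
    have hσ16 : σ ≤ 1 / 16 := abs_le_of_sq_le_sq' (by linarith) (by norm_num) |>.2
    have he := exp_abs_le h v m hσ (by linarith)
    have hi : Integrable fun x => Real.exp (-W x) * Real.exp (|⟪x, v⟫ - m| / (8 * σ)) :=
      (integrable_exp_abs h v m (1 / (8 * σ))).congr
        (Eventually.of_forall fun x => by ring_nf)
    have hrhs : Integrable fun x => Real.exp (-W x)
        * ((1 + (⟪x, v⟫ - m)) + 512 * σ ^ 2 * Real.exp (|⟪x, v⟫ - m| / (8 * σ))) :=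
      ((h.integrable ht).add (hi.const_mul (512 * σ ^ 2))).congr
        (Eventually.of_forall fun x => by simp only [Pi.add_apply, smul_eq_mul]; ring)
    refine (ex_mono_int h (((integrable_exp_inner h v).const_mul (Real.exp (-m))).congr
      (Eventually.of_forall fun x => by simp only [sub_eq_add_neg, Real.exp_add]; ring)) hrhs
      (g := fun x => (1 + (⟪x, v⟫ - m)) + 512 * σ ^ 2 * Real.exp (|⟪x, v⟫ - m| / (8 * σ)))
      fun x => ?_).trans ?_
    · refine (exp_le_quad _).trans ?_
      simp only [add_le_add_iff_left]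
      set z := |⟪x, v⟫ - m| / (8 * σ) with hz
      have hz0 : 0 ≤ z := by positivity
      have hu : |⟪x, v⟫ - m| = 8 * σ * z := by rw [hz]; field_simp
      have h1 : z ^ 2 ≤ 8 * Real.exp (z / 2) := by
        have := Real.pow_div_factorial_le_exp (x := z / 2) (by positivity) 2
        norm_num [Nat.factorial] at this
        linarith
      rw [← sq_abs (⟪x, v⟫ - m), hu, mul_pow,
        show Real.exp z = Real.exp (z / 2) * Real.exp (z / 2) by rw [← Real.exp_add]; ring_nf]
      calc (8 * σ) ^ 2 * z ^ 2 * Real.exp (8 * σ * z)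
          ≤ (8 * σ) ^ 2 * (8 * Real.exp (z / 2)) * Real.exp (z / 2) := by
            refine mul_le_mul (mul_le_mul_of_nonneg_left h1 (by positivity))
              (Real.exp_le_exp.2 ?_) (by positivity) (by positivity)
            nlinarith
        _ = _ := by ring
    · have hsplit : ex W (fun x => (1 + (⟪x, v⟫ - m))
          + 512 * σ ^ 2 * Real.exp (|⟪x, v⟫ - m| / (8 * σ))) = 1
          + 512 * σ ^ 2 * ex W (fun x => Real.exp (|⟪x, v⟫ - m| / (8 * σ))) := by
        rw [← ex_const_mul]
        conv_rhs => arg 1; rw [← h0]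
        simp only [ex, smul_eq_mul, mul_add]
        rw [← mul_add (Zc W)⁻¹, ← integral_add]
        · exact (h.integrable ht).congr (Eventually.of_forall fun x => by simp only [smul_eq_mul]; ring)
        · exact (hi.const_mul (512 * σ ^ 2)).congr (Eventually.of_forall fun x => by ring)
      rw [hsplit, ← hsq]
      nlinarith [mul_le_mul_of_nonneg_left he (show (0 : ℝ) ≤ 512 * σ ^ 2 by positivity)]
  refine le_trans ?_ ((le_of_eq (add_comm 1 (4096 * κ))).trans (Real.add_one_le_exp _))
  refine ge_of_tendsto (x := 𝓝[>] (0 : ℝ)) ?_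
    ((Filter.eventually_of_mem (Ioc_mem_nhdsGT (show (0 : ℝ) < 1 / 512 by norm_num))
      fun δ hδ => key δ hδ.1 hδ.2))
  have : Continuous fun δ : ℝ => 1 + 4096 * (κ + δ) := by fun_prop
  simpa using (this.tendsto 0).mono_left nhdsWithin_le_nhds

end Vale.P245.Cube
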