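import Vale.Agent.P245.Cube.Channel

/-! # Calculus along the channel -/

namespace Vale.P245.Cube

open MeasureTheory Filter Topology Vale.P254.Skew
open scoped RealInnerProductSpace

variable {n : ℕ} {V : E n → ℝ} {ε Λ : ℝ}

/-! ## Tools -/

theorem D2_eq_fderiv_dir {f : E n → ℝ} (hf : ContDiff ℝ 2 f) (x v w : E n) :
    D2 f x v w = fderiv ℝ (fun z => fderiv ℝ f z w) x v := by
  rw [fderiv_clm_apply ((hf.fderiv_right (m := 1) (by norm_num)).differentiable one_ne_zero x)
    (differentiableAt_const w)]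
  simp [D2]

theorem contDiff_dir {f : E n → ℝ} (hf : ContDiff ℝ 2 f) (v : E n) :
    ContDiff ℝ 1 fun z => fderiv ℝ f z v :=
  (hf.fderiv_right (by norm_num)).clm_apply contDiff_const

theorem hasDerivAt_ex {W : E n → ℝ} {a b : ℝ} (h : Pinched W a b) {G G' : ℝ → E n → ℝ}
    {B : E n → ℝ} {S : Set ℝ} {s : ℝ} (hS : S ∈ 𝓝 s) (hG : ∀ r ∈ S, Tame (G r))
    (hG' : Tame (G' s)) (hB : Tame B) (hle : ∀ r ∈ S, ∀ x, |G' r x| ≤ B x)
    (hd : ∀ r ∈ S, ∀ x, HasDerivAt (fun t => G t x) (G' r x) r) :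
    HasDerivAt (fun r => ex W (G r)) (ex W (G' s)) s := by
  have := (hasDerivAt_integral_of_dominated_loc_of_deriv_le (μ := volume)
    (F := fun r x => Real.exp (-W x) * G r x) (F' := fun r x => Real.exp (-W x) * G' r x)
    (bound := fun x => Real.exp (-W x) * B x) hS
    (eventually_of_mem hS fun r hr => (h.integrable (hG r hr)).aestronglyMeasurable)
    (h.integrable (hG s (mem_of_mem_nhds hS))) (h.integrable hG').aestronglyMeasurable
    (Eventually.of_forall fun x r hr => by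
      rw [norm_mul, Real.norm_of_nonneg (Real.exp_pos _).le]
      exact mul_le_mul_of_nonneg_left (hle r hr x) (Real.exp_pos _).le)
    (h.integrable hB)
    (Eventually.of_forall fun x r hr => (hd r hr x).const_mul _)).2
  exact this.const_mul (Zc W)⁻¹

theorem continuousWithinAt_ex {W : E n → ℝ} {a b : ℝ} (h : Pinched W a b) {G : ℝ → E n → ℝ}
    {B : E n → ℝ} {U S : Set ℝ} {s : ℝ} (hS : S ∈ 𝓝[U] s) (hG : ∀ r ∈ S, Tame (G r))
    (hB : Tame B) (hle : ∀ r ∈ S, ∀ x, |G r x| ≤ B x)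
    (hc : ∀ x, ContinuousWithinAt (fun r => G r x) U s) :
    ContinuousWithinAt (fun r => ex W (G r)) U s :=
  continuousWithinAt_const.mul (continuousWithinAt_of_dominated
    (eventually_of_mem hS fun r hr => (h.integrable (hG r hr)).aestronglyMeasurable)
    (eventually_of_mem hS fun r hr => Eventually.of_forall fun x => by
      rw [smul_eq_mul, norm_mul, Real.norm_of_nonneg (Real.exp_pos _).le]
      exact mul_le_mul_of_nonneg_left (hle r hr x) (Real.exp_pos _).le)
    (h.integrable hB) (Eventually.of_forall fun x => continuousWithinAt_const.mul (hc x)))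

theorem tame_GE2 {G : E n → E n → ℝ} (hG : Tame2 G) : Tame fun x => GE (G x) := by
  have := tame_cond pinched_gam one_pos 0 hG
  have e : tilt (gam : E n → ℝ) 0 = gam := funext fun x => by simp [tilt]
  simpa only [zero_smul, e, GE] using this

theorem abs_GE_le {f B : E n → ℝ} (hf : Tame f) (hB : Tame B) (h : ∀ z, |f z| ≤ B z) :
    |GE f| ≤ GE B := by
  refine abs_le.2 ⟨?_, pinched_gam.ex_mono hf hB fun z => (abs_le.1 (h z)).2⟩
  rw [GE, ← ex_neg]
  exact pinched_gam.ex_mono hB.neg hf fun z => (abs_le.1 (h z)).1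

theorem Nice.exists_bound {F : ℝ → E n → ℝ} (hF : Nice F) (T : ℝ) :
    ∃ B : E n → E n → ℝ, Tame2 B ∧
      ∀ r ∈ Set.Icc 0 T, ∀ x z, |F r (r • x + Real.sqrt r • z)| ≤ B x z := by
  obtain ⟨C, N, hC⟩ := hF.poly T
  set K := 1 + |T| + Real.sqrt |T|
  refine ⟨fun x z => |C| * K ^ N * ((1 + ‖x‖) * (1 + ‖z‖)) ^ N,
    ⟨by fun_prop, |C| * K ^ N, N, by positivity,
      fun x z => le_of_eq (abs_of_nonneg (by positivity))⟩, fun r hr x z => ?_⟩
  have hK : 1 + ‖r • x + Real.sqrt r • z‖ ≤ K * ((1 + ‖x‖) * (1 + ‖z‖)) := by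
    have h1 := norm_add_le (r • x) (Real.sqrt r • z)
    rw [norm_smul, norm_smul, Real.norm_of_nonneg hr.1,
      Real.norm_of_nonneg (Real.sqrt_nonneg r)] at h1
    have h2 : r ≤ |T| := hr.2.trans (le_abs_self T)
    have h3 : Real.sqrt r ≤ Real.sqrt |T| := Real.sqrt_le_sqrt h2
    nlinarith [mul_le_mul_of_nonneg_right h2 (norm_nonneg x),
      mul_le_mul_of_nonneg_right h3 (norm_nonneg z), norm_nonneg x, norm_nonneg z,
      mul_nonneg (norm_nonneg x) (norm_nonneg z), abs_nonneg T, Real.sqrt_nonneg |T|]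
  calc |F r (r • x + Real.sqrt r • z)| ≤ C * (1 + ‖r • x + Real.sqrt r • z‖) ^ N := hC r hr _
    _ ≤ |C| * (K * ((1 + ‖x‖) * (1 + ‖z‖))) ^ N :=
        mul_le_mul (le_abs_self C) (pow_le_pow_left₀ (by positivity) hK N) (by positivity)
          (abs_nonneg C)
    _ = _ := by rw [mul_pow]; ring

theorem cE_eq_mass (V : E n → ℝ) (s : ℝ) (θ : E n) (f : E n → ℝ) :
    cE V s θ f = (∫ x, Real.exp (-tilt (Ws V s) θ x) * 1)⁻¹
      * ∫ x, Real.exp (-tilt (Ws V s) θ x) * f x := by
  simp only [cE, ex, Zc, smul_eq_mul, mul_one]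

theorem covF_add_left (h : Reg V ε Λ) {s : ℝ} (hs : 0 ≤ s) (θ : E n) {f f' g : E n → ℝ}
    (hf : Tame f) (hf' : Tame f') (hg : Tame g) :
    covF V s θ (fun x => f x + f' x) g = covF V s θ f g + covF V s θ f' g := by
  have hp := (h.pin_Ws hs).tilt θ
  simp only [covF, cE, add_mul, hp.ex_add (hf.mul hg) (hf'.mul hg), hp.ex_add hf hf']
  ring

theorem covF_const_mul_left (V : E n → ℝ) (s : ℝ) (θ : E n) (r : ℝ) (f g : E n → ℝ) :
    covF V s θ (fun x => r * f x) g = r * covF V s θ f g := by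
  simp only [covF, cE, mul_assoc, ex_const_mul]
  ring

theorem covF_sum_left (h : Reg V ε Λ) {s : ℝ} (hs : 0 ≤ s) (θ : E n) {ι : Type} (t : Finset ι)
    {f : ι → E n → ℝ} {g : E n → ℝ} (hf : ∀ i ∈ t, Tame (f i)) (hg : Tame g) :
    covF V s θ (fun x => ∑ i ∈ t, f i x) g = ∑ i ∈ t, covF V s θ (f i) g := by
  have hp := (h.pin_Ws hs).tilt θ
  simp only [covF, cE, Finset.sum_mul]
  rw [hp.ex_sum t fun i hi => (hf i hi).mul hg, hp.ex_sum t hf, Finset.sum_mul,
    ← Finset.sum_sub_distrib]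

theorem contDiff_cE (h : Reg V ε Λ) {s : ℝ} (hs : 0 ≤ s) {f : E n → ℝ} (hf : Tame f) (m : ℕ) :
    ContDiff ℝ m fun θ => cE V s θ f :=
  ((h.pin_Ws hs).contDiff_zc m).inv (fun θ => ((h.pin_Ws hs).tilt θ).zc_pos.ne') |>.mul
    ((h.pin_Ws hs).contDiff_integral_tilt hf m)

theorem fderiv_cE (h : Reg V ε Λ) {s : ℝ} (hs : 0 ≤ s) {f : E n → ℝ} (hf : Tame f) (θ : E n)
    (l : Fin n) : fderiv ℝ (fun η => cE V s η f) θ (bv l) = covF V s θ (fun x => x l) f := by
  have := (h.pin_Ws hs).hasFDerivAt_ex_tilt hf θ (bv l)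
  simpa only [inner_bv, cE, covF] using this

theorem hasDerivAt_mass (h : Reg V ε Λ) {g : E n → ℝ} (hg : Tame g) {s : ℝ} (hs : 0 < s)
    {γ : ℝ → E n} {γ' : E n} (hγ : HasDerivAt γ γ' s) :
    HasDerivAt (fun r => ∫ x, Real.exp (-tilt (Ws V r) (γ r) x) * g x)
      (∫ x, Real.exp (-tilt (Ws V s) (γ s) x) * (g x * (⟪γ', x⟫ - ‖x‖ ^ 2 / 2))) s := by
  let L : E n → ℝ × E n →L[ℝ] ℝ := fun x =>
    (innerSL ℝ x).comp (ContinuousLinearMap.snd ℝ ℝ (E n))
      - (‖x‖ ^ 2 / 2) • ContinuousLinearMap.fst ℝ ℝ (E n)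
  have hL : ∀ x p, L x p = ⟪x, p.2⟫ - ‖x‖ ^ 2 / 2 * p.1 := fun x p => by simp [L]
  have hLc : Continuous L :=
    ((innerSL ℝ (E := E n)).continuous.clm_comp continuous_const).sub
      (((continuous_norm.pow 2).div_const 2).smul continuous_const)
  have hLn : ∀ x, ‖L x‖ ≤ ‖x‖ + ‖x‖ ^ 2 / 2 := fun x =>
    ContinuousLinearMap.opNorm_le_bound _ (by positivity) fun p => by
      rw [hL, Real.norm_eq_abs, add_mul]
      refine (abs_sub _ _).trans (add_le_add ?_ ?_)
      · exact (abs_real_inner_le_norm x p.2).trans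
          (mul_le_mul_of_nonneg_left (norm_snd_le p) (norm_nonneg x))
      · rw [abs_mul, abs_of_nonneg (by positivity : (0 : ℝ) ≤ ‖x‖ ^ 2 / 2)]
        exact mul_le_mul_of_nonneg_left (norm_fst_le p) (by positivity)
  have hρ : (0 : ℝ) < min s 1 := lt_min hs one_pos
  set S := Metric.ball ((s, γ s) : ℝ × E n) (min s 1) with hS
  have hin : ∀ p ∈ S, 0 < p.1 ∧ ‖p.2‖ ≤ ‖γ s‖ + 1 := by
    intro p hp
    rw [hS, Metric.mem_ball, dist_eq_norm] at hp
    have h1 := (norm_fst_le (p - (s, γ s))).trans_lt hp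
    have h2 := (norm_snd_le (p - (s, γ s))).trans_lt hp
    simp only [Prod.fst_sub, Prod.snd_sub, Real.norm_eq_abs] at h1 h2
    have := abs_lt.1 (h1.trans_le (min_le_left s 1))
    have := norm_le_norm_add_norm_sub' p.2 (γ s)
    have := min_le_right s 1
    constructor <;> linarith
  let F : ℝ × E n → E n → ℝ := fun p x => Real.exp (-tilt (Ws V p.1) p.2 x) * g x
  let F' : ℝ × E n → E n → ℝ × E n →L[ℝ] ℝ := fun p x => F p x • L x
  have hint : ∀ p ∈ S, Integrable (F p) := fun p hp =>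
    ((h.pin_Ws (hin p hp).1.le).tilt p.2).integrable hg
  have hsS : ((s, γ s) : ℝ × E n) ∈ S := Metric.mem_ball_self hρ
  obtain ⟨C, hC⟩ := h.pin.gauss_bound
    (hg.norm.mul (tame_id.norm.add ((tame_id.norm.pow 2).mul (Tame.const (1 / 2 : ℝ)))))
    (‖γ s‖ + 1)
  have hbound : ∀ x, ∀ p ∈ S, ‖F' p x‖ ≤ C * Real.exp (-(ε / 4) * ‖x‖ ^ 2) := by
    intro x p hp
    obtain ⟨h0, h1⟩ := hin p hp
    refine le_trans ?_ (hC x)
    simp only [F', F, norm_smul, norm_mul, Real.norm_eq_abs, abs_of_pos (Real.exp_pos _), mul_assoc]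
    refine mul_le_mul (Real.exp_le_exp.2 ?_) ?_ (by positivity) (Real.exp_pos _).le
    · have := real_inner_le_norm p.2 x
      have := mul_le_mul_of_nonneg_right h1 (norm_nonneg x)
      have : 0 ≤ p.1 / 2 * ‖x‖ ^ 2 := by positivity
      simp only [tilt, Ws]
      linarith
    · rw [abs_abs, abs_of_nonneg (by positivity : (0 : ℝ) ≤ ‖x‖ + ‖x‖ ^ 2 * (1 / 2))]
      exact mul_le_mul_of_nonneg_left ((hLn x).trans_eq (by ring)) (abs_nonneg _)
  have hF'm : AEStronglyMeasurable (F' (s, γ s)) volume :=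
    (hint _ hsS).aestronglyMeasurable.smul hLc.aestronglyMeasurable
  have hbint : Integrable fun x : E n => C * Real.exp (-(ε / 4) * ‖x‖ ^ 2) :=
    (integrable_gauss (by linarith [h.pin.pos])).const_mul C
  have hmain : HasFDerivAt (fun p => ∫ x, F p x) (∫ x, F' (s, γ s) x) (s, γ s) :=
    hasFDerivAt_integral_of_dominated_of_fderiv_le (F' := F') (Metric.ball_mem_nhds _ hρ)
      (eventually_of_mem (Metric.ball_mem_nhds _ hρ) fun p hp => (hint p hp).aestronglyMeasurable)
      (hint _ hsS) hF'm (Eventually.of_forall hbound) hbint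
      (Eventually.of_forall fun x p _ => by
        have e : (fun q : ℝ × E n => -tilt (Ws V q.1) q.2 x) = fun q => L x q - V x :=
          funext fun q => by
            rw [hL, real_inner_comm]
            simp only [tilt, Ws]
            ring
        have h1 : HasFDerivAt (fun q : ℝ × E n => -tilt (Ws V q.1) q.2 x) (L x) p := by
          rw [e]
          exact (L x).hasFDerivAt.sub_const _
        exact (h1.exp.mul_const (g x)).congr_fderiv (by
          simp only [F', F, smul_smul]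
          rw [mul_comm]))
  have hF'i : Integrable (F' (s, γ s)) :=
    hbint.mono' hF'm (Eventually.of_forall fun x => hbound x _ hsS)
  have hcurve : HasDerivAt (fun r => (r, γ r)) ((1 : ℝ), γ') s := (hasDerivAt_id s).prodMk hγ
  refine (hmain.comp_hasDerivAt s hcurve).congr_deriv ?_
  rw [ContinuousLinearMap.integral_apply hF'i]
  congr 1
  ext x
  simp only [F', F, smul_apply, smul_eq_mul, hL, real_inner_comm γ' x, mul_one]
  ring

/-- The first derivative of a posterior expectation. -/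
noncomputable def cE1 (V f : E n → ℝ) (l : Fin n) (s : ℝ) (θ : E n) : ℝ :=
  covF V s θ (fun x => x l) f

/-- The diagonal second derivative of a posterior expectation. -/
noncomputable def cE2 (V f : E n → ℝ) (l : Fin n) (s : ℝ) (θ : E n) : ℝ :=
  covF V s θ (fun x => x l ^ 2) f - 2 * mC V s θ l * covF V s θ (fun x => x l) f

/-- The time derivative of a posterior expectation. -/
noncomputable def cEt (V f : E n → ℝ) (s : ℝ) (θ : E n) : ℝ :=
  -(1 / 2) * covF V s θ (fun x => ‖x‖ ^ 2) f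

theorem calc_cE (h : Reg V ε Λ) {f : E n → ℝ} (hf : Tame f) :
    Calc (fun s θ => cE V s θ f) (cE1 V f) (cE2 V f) (cEt V f) := by
  refine ⟨nice_cE h hf, fun l => nice_covF h (tame_coord l) hf, fun l => ?_,
    (nice_covF h (tame_id.norm.pow 2) hf).const_mul _,
    fun s hs => contDiff_cE h hs hf 2, fun s hs θ l => fderiv_cE h hs hf θ l,
    fun s hs θ l => ?_, fun s hs γ γ' hγ => ?_⟩
  · have := (nice_covF h ((tame_coord l).pow 2) hf).add
      ((((nice_mC h l).const_mul 2).mul (nice_covF h (tame_coord l) hf)).const_mul (-1))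
    unfold cE2
    simpa [sub_eq_add_neg] using this
  · have hd : ∀ {g : E n → ℝ}, Tame g → Differentiable ℝ fun η => cE V s η g := fun hg =>
      (contDiff_cE h hs hg 1).differentiable one_ne_zero
    have e : (fun η => fderiv ℝ (fun ζ => cE V s ζ f) η (bv l))
        = fun η => cE V s η (fun x => x l * f x) - cE V s η (fun x => x l) * cE V s η f :=
      funext fun η => fderiv_cE h hs hf η l
    have hd' := ((hd ((tame_coord l).mul hf)) θ).hasFDerivAt.fun_sub
      (((hd (tame_coord l)) θ).hasFDerivAt.fun_mul ((hd hf) θ).hasFDerivAt)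
    rw [D2_eq_fderiv_dir (contDiff_cE h hs hf 2), e, hd'.fderiv]
    simp only [sub_apply, add_apply,
      smul_apply, smul_eq_mul]
    rw [fderiv_cE h hs ((tame_coord l).mul hf), fderiv_cE h hs hf, fderiv_cE h hs (tame_coord l)]
    simp only [cE2, covF, mC, ← mul_assoc, ← sq]
    ring
  · have hz : (∫ x, Real.exp (-tilt (Ws V s) (γ s) x) * 1) ≠ 0 := by
      simpa [Zc] using ((h.pin_Ws hs.le).tilt (γ s)).zc_pos.ne'
    have key := ((hasDerivAt_mass h (Tame.const (1 : ℝ)) hs hγ).inv hz).mul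
      (hasDerivAt_mass h hf hs hγ)
    simp only [cE_eq_mass V]
    refine key.congr_deriv ?_
    set q : E n → ℝ := fun x => ⟪γ', x⟫ - ‖x‖ ^ 2 / 2 with hq
    have e1 : cEt V f s (γ s) + ∑ l, cE1 V f l s (γ s) * γ' l = covF V s (γ s) q f := by
      have : q = fun x => -(1 / 2) * ‖x‖ ^ 2 + ∑ l, γ' l * x l := funext fun x => by
        simp [hq, PiLp.inner_apply, mul_comm]
        ring
      rw [this, covF_add_left h hs.le _ ((tame_id.norm.pow 2).const_mul _)
          (Tame.sum _ fun l _ => (tame_coord l).const_mul _) hf, covF_const_mul_left,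
        covF_sum_left h hs.le _ _ (fun l _ => (tame_coord l).const_mul _) hf]
      simp only [covF_const_mul_left, cEt, cE1, mul_comm]
    rw [e1]
    simp only [covF, cE_eq_mass V, Pi.inv_apply, one_mul, mul_comm (f _), hq]
    field_simp
    ring_nf

/-- Posterior expectations are martingales. -/
theorem gen_cE (h : Reg V ε Λ) {f : E n → ℝ} (hf : Tame f) {s : ℝ} (hs : 0 ≤ s) (θ : E n) :
    gen V (cE1 V f) (cE2 V f) (cEt V f) s θ = 0 := by
  have e : covF V s θ (fun x => ‖x‖ ^ 2) f = ∑ l, covF V s θ (fun x => x l ^ 2) f := by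
    rw [← covF_sum_left h hs θ _ (fun l _ => (tame_coord l).pow 2) hf]
    simp only [EuclideanSpace.real_norm_sq_eq]
  simp only [gen, cEt, cE1, cE2, e, Finset.sum_sub_distrib, mul_assoc, ← Finset.mul_sum]
  ring

variable {F F' : ℝ → E n → ℝ} {F1 F2 F1' F2' : Fin n → ℝ → E n → ℝ} {Ft Ft' : ℝ → E n → ℝ}

theorem Calc.fderiv_dir (hF : Calc F F1 F2 Ft) {s : ℝ} (hs : 0 ≤ s) (l : Fin n) :
    F1 l s = fun θ => fderiv ℝ (F s) θ (bv l) :=
  funext fun θ => (hF.d1 s hs θ l).symm

theorem Calc.smooth1 (hF : Calc F F1 F2 Ft) {s : ℝ} (hs : 0 ≤ s) (l : Fin n) :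
    ContDiff ℝ 1 (F1 l s) := by
  rw [hF.fderiv_dir hs l]
  exact contDiff_dir (hF.smooth s hs) _

theorem Calc.d2' (hF : Calc F F1 F2 Ft) {s : ℝ} (hs : 0 ≤ s) (θ : E n) (l : Fin n) :
    fderiv ℝ (F1 l s) θ (bv l) = F2 l s θ := by
  rw [hF.fderiv_dir hs l, ← D2_eq_fderiv_dir (hF.smooth s hs), hF.d2 s hs]

theorem Calc.const (r : ℝ) :
    Calc (fun _ (_ : E n) => r) (fun _ _ _ => 0) (fun _ _ _ => 0) (fun _ _ => 0) :=
  ⟨Nice.const r, fun _ => Nice.const 0, fun _ => Nice.const 0, Nice.const 0,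
    fun _ _ => contDiff_const, fun _ _ _ _ => by simp, fun _ _ _ _ => by simp [D2],
    fun s _ γ γ' _ => by simpa using hasDerivAt_const s r⟩

theorem Calc.add (hF : Calc F F1 F2 Ft) (hF' : Calc F' F1' F2' Ft') :
    Calc (fun s θ => F s θ + F' s θ) (fun l s θ => F1 l s θ + F1' l s θ)
      (fun l s θ => F2 l s θ + F2' l s θ) (fun s θ => Ft s θ + Ft' s θ) := by
  have hsm : ∀ s, 0 ≤ s → ContDiff ℝ 2 fun θ => F s θ + F' s θ := fun s hs =>
    (hF.smooth s hs).add (hF'.smooth s hs)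
  have hd1 : ∀ s, 0 ≤ s → ∀ θ l,
      fderiv ℝ (fun θ => F s θ + F' s θ) θ (bv l) = F1 l s θ + F1' l s θ := fun s hs θ l => by
    rw [(((hF.smooth s hs).differentiable (by norm_num) θ).hasFDerivAt.fun_add
      ((hF'.smooth s hs).differentiable (by norm_num) θ).hasFDerivAt).fderiv]
    simp [hF.d1 s hs, hF'.d1 s hs]
  refine ⟨hF.nice.add hF'.nice, fun l => (hF.nice1 l).add (hF'.nice1 l),
    fun l => (hF.nice2 l).add (hF'.nice2 l), hF.niceT.add hF'.niceT, hsm, hd1,
    fun s hs θ l => ?_, fun s hs γ γ' hγ => ?_⟩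
  · rw [D2_eq_fderiv_dir (hsm s hs), funext fun z => hd1 s hs z l,
      (((hF.smooth1 hs l).differentiable one_ne_zero θ).hasFDerivAt.fun_add
        ((hF'.smooth1 hs l).differentiable one_ne_zero θ).hasFDerivAt).fderiv]
    simp [hF.d2' hs, hF'.d2' hs]
  · refine ((hF.dt s hs γ γ' hγ).fun_add (hF'.dt s hs γ γ' hγ)).congr_deriv ?_
    simp only [add_mul, Finset.sum_add_distrib]
    ring

theorem Calc.mul (hF : Calc F F1 F2 Ft) (hF' : Calc F' F1' F2' Ft') :
    Calc (fun s θ => F s θ * F' s θ) (fun l s θ => F1 l s θ * F' s θ + F s θ * F1' l s θ)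
      (fun l s θ => F2 l s θ * F' s θ + 2 * (F1 l s θ * F1' l s θ) + F s θ * F2' l s θ)
      (fun s θ => Ft s θ * F' s θ + F s θ * Ft' s θ) := by
  have hsm : ∀ s, 0 ≤ s → ContDiff ℝ 2 fun θ => F s θ * F' s θ := fun s hs =>
    (hF.smooth s hs).mul (hF'.smooth s hs)
  have hdf : ∀ s, 0 ≤ s → ∀ θ, DifferentiableAt ℝ (F s) θ ∧ DifferentiableAt ℝ (F' s) θ :=
    fun s hs θ => ⟨(hF.smooth s hs).differentiable (by norm_num) θ,
      (hF'.smooth s hs).differentiable (by norm_num) θ⟩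
  have hd1 : ∀ s, 0 ≤ s → ∀ θ l, fderiv ℝ (fun θ => F s θ * F' s θ) θ (bv l)
      = F1 l s θ * F' s θ + F s θ * F1' l s θ := fun s hs θ l => by
    rw [((hdf s hs θ).1.hasFDerivAt.fun_mul (hdf s hs θ).2.hasFDerivAt).fderiv]
    simp [hF.d1 s hs, hF'.d1 s hs]
    ring
  refine ⟨hF.nice.mul hF'.nice,
    fun l => ((hF.nice1 l).mul hF'.nice).add (hF.nice.mul (hF'.nice1 l)),
    fun l => (((hF.nice2 l).mul hF'.nice).add (((hF.nice1 l).mul (hF'.nice1 l)).const_mul 2)).add
      (hF.nice.mul (hF'.nice2 l)), (hF.niceT.mul hF'.nice).add (hF.nice.mul hF'.niceT), hsm, hd1,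
    fun s hs θ l => ?_, fun s hs γ γ' hγ => ?_⟩
  · rw [D2_eq_fderiv_dir (hsm s hs), funext fun z => hd1 s hs z l,
      ((((hF.smooth1 hs l).differentiable one_ne_zero θ).hasFDerivAt.fun_mul
          (hdf s hs θ).2.hasFDerivAt).fun_add ((hdf s hs θ).1.hasFDerivAt.fun_mul
        ((hF'.smooth1 hs l).differentiable one_ne_zero θ).hasFDerivAt)).fderiv]
    simp [hF.d2' hs, hF'.d2' hs, hF.d1 s hs, hF'.d1 s hs]
    ring
  · refine ((hF.dt s hs γ γ' hγ).fun_mul (hF'.dt s hs γ γ' hγ)).congr_deriv ?_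
    simp only [add_mul, Finset.sum_add_distrib, Finset.sum_mul, Finset.mul_sum, mul_add]
    simp only [mul_assoc, mul_comm]
    ring

theorem Calc.const_mul (r : ℝ) (hF : Calc F F1 F2 Ft) :
    Calc (fun s θ => r * F s θ) (fun l s θ => r * F1 l s θ) (fun l s θ => r * F2 l s θ)
      (fun s θ => r * Ft s θ) := by
  simpa using (Calc.const (n := n) r).mul hF

theorem Calc.sum {ι : Type} (t : Finset ι) {G : ι → ℝ → E n → ℝ}
    {G1 G2 : ι → Fin n → ℝ → E n → ℝ} {Gt : ι → ℝ → E n → ℝ}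
    (hG : ∀ i ∈ t, Calc (G i) (G1 i) (G2 i) (Gt i)) :
    Calc (fun s θ => ∑ i ∈ t, G i s θ) (fun l s θ => ∑ i ∈ t, G1 i l s θ)
      (fun l s θ => ∑ i ∈ t, G2 i l s θ) (fun s θ => ∑ i ∈ t, Gt i s θ) := by
  classical
  induction t using Finset.induction_on with
  | empty => simpa using Calc.const (n := n) 0
  | insert i t hi ih =>
    simp only [Finset.sum_insert hi]
    exact (hG i (Finset.mem_insert_self i t)).add
      (ih fun j hj => hG j (Finset.mem_insert_of_mem hj))

theorem Calc.comp (hF : Calc F F1 F2 Ft) {φ φ' φ'' : ℝ → ℝ} {U : Set ℝ} (hU : IsOpen U)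
    (hFU : ∀ s, 0 ≤ s → ∀ θ, F s θ ∈ U) (hφ : ContDiffOn ℝ 2 φ U)
    (h1 : ∀ r ∈ U, HasDerivAt φ (φ' r) r) (h2 : ∀ r ∈ U, HasDerivAt φ' (φ'' r) r)
    (n0 : Nice fun s θ => φ (F s θ)) (n1 : Nice fun s θ => φ' (F s θ))
    (n2 : Nice fun s θ => φ'' (F s θ)) :
    Calc (fun s θ => φ (F s θ)) (fun l s θ => φ' (F s θ) * F1 l s θ)
      (fun l s θ => φ'' (F s θ) * F1 l s θ ^ 2 + φ' (F s θ) * F2 l s θ)
      (fun s θ => φ' (F s θ) * Ft s θ) := by
  have hsm : ∀ s, 0 ≤ s → ContDiff ℝ 2 fun θ => φ (F s θ) := fun s hs =>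
    hφ.comp_contDiff (hF.smooth s hs) (hFU s hs)
  have hdf : ∀ s, 0 ≤ s → ∀ θ, DifferentiableAt ℝ (F s) θ := fun s hs θ =>
    (hF.smooth s hs).differentiable (by norm_num) θ
  have hd1 : ∀ s, 0 ≤ s → ∀ θ l,
      fderiv ℝ (fun θ => φ (F s θ)) θ (bv l) = φ' (F s θ) * F1 l s θ := fun s hs θ l => by
    have := (h1 _ (hFU s hs θ)).comp_hasFDerivAt θ (hdf s hs θ).hasFDerivAt
    rw [show (fun θ => φ (F s θ)) = φ ∘ F s from rfl, this.fderiv]
    simp [hF.d1 s hs]
  refine ⟨n0, fun l => n1.mul (hF.nice1 l), fun l => ?_, n1.mul hF.niceT, hsm, hd1,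
    fun s hs θ l => ?_, fun s hs γ γ' hγ => ?_⟩
  · simpa only [sq] using (n2.mul ((hF.nice1 l).mul (hF.nice1 l))).add (n1.mul (hF.nice2 l))
  · have h3 := ((h2 _ (hFU s hs θ)).comp_hasFDerivAt θ (hdf s hs θ).hasFDerivAt).fun_mul
      ((hF.smooth1 hs l).differentiable one_ne_zero θ).hasFDerivAt
    rw [D2_eq_fderiv_dir (hsm s hs), funext fun z => hd1 s hs z l]
    simp only [Function.comp_apply] at h3
    rw [h3.fderiv]
    simp [hF.d1 s hs, hF.d2' hs]
    ring
  · refine ((h1 _ (hFU s hs.le (γ s))).comp s (hF.dt s hs γ γ' hγ)).congr_deriv ?_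
    simp only [mul_add, Finset.mul_sum, mul_assoc]

theorem fderiv_gam (z : E n) (l : Fin n) : fderiv ℝ gam z (bv l) = z l := by
  have h1 : HasFDerivAt (gam : E n → ℝ) ((1 / 2 : ℝ) • (2 • innerSL ℝ z)) z := by
    refine ((hasStrictFDerivAt_norm_sq z).hasFDerivAt.const_mul (1 / 2 : ℝ)).congr_of_eventuallyEq
      (Eventually.of_forall fun y => ?_)
    simp [gam]
    ring
  rw [h1.fderiv]
  simp

/-- Gaussian integration by parts along the channel. -/
theorem GE_mul_coord (hF : Calc F F1 F2 Ft) {s : ℝ} (hs : 0 ≤ s) (x : E n) (l : Fin n) :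
    GE (fun z => F1 l s (s • x + Real.sqrt s • z) * z l)
      = Real.sqrt s * GE fun z => F2 l s (s • x + Real.sqrt s • z) := by
  set c := Real.sqrt s
  have hτ : ∀ z : E n, HasFDerivAt (fun z : E n => s • x + c • z)
      (c • ContinuousLinearMap.id ℝ (E n)) z := fun z =>
    ((hasFDerivAt_id z).fun_const_smul c).const_add _
  have hf : ContDiff ℝ 1 fun z => F1 l s (s • x + c • z) :=
    (hF.smooth1 hs l).comp (contDiff_const.add (contDiff_id.const_smul c))
  have hd : ∀ z, fderiv ℝ (fun z => F1 l s (s • x + c • z)) z (bv l)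
      = c * F2 l s (s • x + c • z) := fun z => by
    have := ((hF.smooth1 hs l).differentiable one_ne_zero _).hasFDerivAt.comp z (hτ z)
    rw [show (fun z => F1 l s (s • x + c • z)) = F1 l s ∘ fun z => s • x + c • z from rfl,
      this.fderiv]
    simp [hF.d2' hs]
  have ht : ∀ {G : ℝ → E n → ℝ}, Nice G → Tame fun z => G s (s • x + c • z) := fun hG =>
    (tame2_channel (hG.tame hs).tame2_right s).section_right x
  have key := pinched_gam.ibp hf (ht (hF.nice1 l)) (bv l)
    (by simpa only [hd] using (ht (hF.nice2 l)).const_mul c)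
  simpa only [fderiv_gam, hd, ex_const_mul, GE] using key

/-- Differentiate along `s x + √s z`, integrate by parts in `z`, condition `x` on `θ`. -/
theorem hasDerivAt_EP (h : Reg V ε Λ) (hF : Calc F F1 F2 Ft) {s : ℝ} (hs : 0 < s) :
    HasDerivAt (fun r => EP V r fun _ θ => F r θ)
      (EP V s fun _ θ => gen V F1 F2 Ft s θ) s := by
  set S := Set.Ioo (s / 2) (2 * s)
  have hS0 : ∀ r ∈ S, 0 < r := fun r hr => by linarith [hr.1]
  have hS : S ∈ 𝓝 s := Ioo_mem_nhds (by linarith) (by linarith)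
  obtain ⟨BT, hBT, hBT'⟩ := hF.niceT.exists_bound (2 * s)
  choose B1 hB1 hB1' using fun l => (hF.nice1 l).exists_bound (2 * s)
  let D : ℝ → E n → E n → ℝ := fun r x z => Ft r (r • x + Real.sqrt r • z)
    + ∑ l, F1 l r (r • x + Real.sqrt r • z) * (x l + 1 / (2 * Real.sqrt r) * z l)
  let B : E n → E n → ℝ := fun x z => BT x z
    + ∑ l, B1 l x z * (|x l| + 1 / (2 * Real.sqrt (s / 2)) * |z l|)
  have hB : Tame2 B := hBT.add (Tame2.sum _ fun l _ => (hB1 l).mul
    ((tame_coord l).norm.tame2_left.add ((tame_coord l).norm.const_mul _).tame2_right))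
  have hch : ∀ {G : ℝ → E n → ℝ}, Nice G → ∀ r, 0 ≤ r →
      Tame2 fun x z => G r (r • x + Real.sqrt r • z) := fun hG r hr =>
    tame2_channel (hG.tame hr).tame2_right r
  have hD : ∀ r, 0 ≤ r → Tame2 (D r) := fun r hr => (hch hF.niceT r hr).add
    (Tame2.sum _ fun l _ => (hch (hF.nice1 l) r hr).mul
      ((tame_coord l).tame2_left.add ((tame_coord l).const_mul _).tame2_right))
  have hle : ∀ r ∈ S, ∀ x z, |D r x z| ≤ B x z := fun r hr x z => by
    have hr' : r ∈ Set.Icc 0 (2 * s) := ⟨(hS0 r hr).le, hr.2.le⟩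
    refine (abs_add_le _ _).trans (add_le_add (hBT' r hr' x z)
      ((Finset.abs_sum_le_sum_abs _ _).trans (Finset.sum_le_sum fun l _ => ?_)))
    rw [abs_mul]
    refine mul_le_mul (hB1' l r hr' x z) ((abs_add_le _ _).trans ?_) (abs_nonneg _)
      ((abs_nonneg _).trans (hB1' l r hr' x z))
    rw [abs_mul, abs_of_nonneg (by positivity : 0 ≤ 1 / (2 * Real.sqrt r))]
    gcongr
    exact hr.1.le
  have hcurve : ∀ r ∈ S, ∀ x z : E n,
      HasDerivAt (fun t => F t (t • x + Real.sqrt t • z)) (D r x z) r := fun r hr x z => by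
    have hγ : HasDerivAt (fun t : ℝ => t • x + Real.sqrt t • z)
        (x + (1 / (2 * Real.sqrt r)) • z) r := by
      simpa using ((hasDerivAt_id r).smul_const x).fun_add
        ((Real.hasDerivAt_sqrt (hS0 r hr).ne').smul_const z)
    refine (hF.dt r (hS0 r hr) _ _ hγ).congr_deriv ?_
    simp [D]
  have hinner : ∀ r ∈ S, ∀ x,
      HasDerivAt (fun t => GE fun z => F t (t • x + Real.sqrt t • z)) (GE (D r x)) r :=
    fun r hr x => hasDerivAt_ex pinched_gam (Ioo_mem_nhds hr.1 hr.2)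
      (fun t ht => (hch hF.nice t (hS0 t ht).le).section_right x)
      ((hD r (hS0 r hr).le).section_right x) (hB.section_right x)
      (fun t ht z => hle t ht x z) fun t ht z => hcurve t ht x z
  have houter : HasDerivAt (fun r => EP V r fun _ θ => F r θ) (ex V fun x => GE (D s x)) s :=
    hasDerivAt_ex h.pin (G := fun r x => GE fun z => F r (r • x + Real.sqrt r • z))
      (G' := fun r x => GE (D r x)) hS
      (fun t ht => tame_GE2 (hch hF.nice t (hS0 t ht).le))
      (tame_GE2 (hD s hs.le)) (tame_GE2 hB)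
      (fun t ht x => abs_GE_le ((hD t (hS0 t ht).le).section_right x) (hB.section_right x)
        fun z => hle t ht x z)
      hinner
  let G : E n → E n → ℝ := fun x θ =>
    Ft s θ + (∑ l, F1 l s θ * x l) + 1 / 2 * ∑ l, F2 l s θ
  have hnt : ∀ {H : ℝ → E n → ℝ}, Nice H → Tame2 fun _ θ => H s θ := fun hH =>
    (hH.tame hs.le).tame2_right
  have hG : Tame2 G := ((hnt hF.niceT).add (Tame2.sum _ fun l _ =>
    (hnt (hF.nice1 l)).mul (tame_coord l).tame2_left)).add
      ((Tame2.const (1 / 2)).mul (Tame2.sum _ fun l _ => hnt (hF.nice2 l)))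
  have hsec : ∀ {H : ℝ → E n → ℝ}, Nice H → ∀ x,
      Tame fun z => H s (s • x + Real.sqrt s • z) := fun hH x => (hch hH s hs.le).section_right x
  have hx : ∀ x, GE (D s x) = GE fun z => G x (s • x + Real.sqrt s • z) := fun x => by
    have hp := pinched_gam (n := n)
    have tT := hsec hF.niceT x
    have t1 := fun l => (hsec (hF.nice1 l) x).mul (Tame.const (k := n) (x l))
    have t1' := fun l => ((hsec (hF.nice1 l) x).mul (tame_coord l)).const_mul
      (1 / (2 * Real.sqrt s))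
    have t2 := fun l => hsec (hF.nice2 l) x
    have s1 := Tame.sum Finset.univ fun l _ => t1 l
    have s1' := Tame.sum Finset.univ fun l _ => t1' l
    have s2 := Tame.sum Finset.univ fun l _ => t2 l
    have e : D s x = fun z => Ft s (s • x + Real.sqrt s • z)
        + (∑ l, F1 l s (s • x + Real.sqrt s • z) * x l)
        + ∑ l, 1 / (2 * Real.sqrt s) * (F1 l s (s • x + Real.sqrt s • z) * z l) := funext fun z => by
      simp only [D, mul_add, Finset.sum_add_distrib, mul_left_comm, add_assoc]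
    simp only [e, G, GE]
    rw [hp.ex_add (tT.add s1) s1', hp.ex_add (tT.add s1) (s2.const_mul _), ex_const_mul,
      hp.ex_sum _ fun l _ => t1' l, hp.ex_sum _ fun l _ => t2 l, Finset.mul_sum]
    refine congrArg₂ (· + ·) rfl (Finset.sum_congr rfl fun l _ => ?_)
    have := GE_mul_coord hF hs.le x l
    simp only [GE] at this
    rw [ex_const_mul, this]
    field_simp [(Real.sqrt_pos.2 hs).ne']
  refine houter.congr_deriv ?_
  calc (ex V fun x => GE (D s x)) = EP V s G := ex_congr hx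
    _ = EP V s fun _ θ => cE V s θ fun x => G x θ := EP_cond h hs.le hG
    _ = _ := by
      refine congrArg (EP V s) (funext₂ fun _ θ => ?_)
      have hp := (h.pin_Ws hs.le).tilt θ
      simp only [cE, G, gen, mC]
      rw [hp.ex_add ((Tame.const _).add (Tame.sum _ fun l _ => (tame_coord l).const_mul _))
          (Tame.const _), hp.ex_add (Tame.const _) (Tame.sum _ fun l _ => (tame_coord l).const_mul _),
        hp.ex_const, hp.ex_const, hp.ex_sum _ fun l _ => (tame_coord l).const_mul _]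
      simp only [ex_const_mul, mul_comm, div_eq_inv_mul]
      ring

theorem continuousOn_EP (h : Reg V ε Λ) (hF : Nice F) :
    ContinuousOn (fun r => EP V r fun _ θ => F r θ) (Set.Ici 0) := by
  intro s hs
  obtain ⟨B, hB, hB'⟩ := hF.exists_bound (s + 1)
  have hS : Set.Icc 0 (s + 1) ∈ 𝓝[Set.Ici 0] s := by
    rw [← Set.Ici_inter_Iic]
    exact inter_mem_nhdsWithin _ (Iic_mem_nhds (lt_add_one s))
  have ht : ∀ r ∈ Set.Icc 0 (s + 1), Tame2 fun x z => F r (r • x + Real.sqrt r • z) := fun r hr =>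
    tame2_channel (hF.tame hr.1).tame2_right r
  refine continuousWithinAt_ex h.pin (G := fun r x => GE fun z => F r (r • x + Real.sqrt r • z))
    hS (fun r hr => tame_GE2 (ht r hr)) (tame_GE2 hB) (fun r hr x => abs_GE_le
      ((ht r hr).section_right x) (hB.section_right x) fun z => hB' r hr x z) fun x => ?_
  refine continuousWithinAt_ex pinched_gam hS (fun r hr => (ht r hr).section_right x)
    (hB.section_right x) (fun r hr z => hB' r hr x z) fun z => ?_
  exact (hF.cont (s, s • x + Real.sqrt s • z) ⟨hs, Set.mem_univ _⟩).comp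
    (f := fun r => (r, r • x + Real.sqrt r • z))
    (Continuous.continuousWithinAt (by fun_prop)) fun r hr => ⟨hr, Set.mem_univ _⟩

end Vale.P245.Cube
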