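import Vale.Agent.P245.Cube.Channel
import Vale.Agent.P245.Cube.Borell

/-! # Bounds on the shift of the posterior mean -/

namespace Vale.P245.Cube

open MeasureTheory Filter Vale.P254.Skew
open scoped RealInnerProductSpace

variable {n : ℕ} {W : E n → ℝ} {a b : ℝ}

theorem exp_le_id_add_exp_sq (t : ℝ) : Real.exp t ≤ t + Real.exp (t ^ 2) := by
  have h1 := Real.add_one_le_exp (t ^ 2)
  rcases le_or_gt |t| 1 with h | h
  · have := (abs_le.1 (Real.abs_exp_sub_one_sub_id_le h)).2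
    linarith
  rcases le_or_gt 0 t with h0 | h0
  · rw [abs_of_nonneg h0] at h
    have : Real.exp t ≤ Real.exp (t ^ 2) := Real.exp_le_exp.2 (by nlinarith)
    linarith
  · rw [abs_of_neg h0] at h
    have : Real.exp t ≤ 1 := Real.exp_le_one_iff.2 h0.le
    nlinarith

theorem log_mgf_le {n : ℕ} {V : E n → ℝ} {ε Λ : ℝ} (h : Reg V ε Λ) (hsub : Sub V) (η : E n) :
    ex V (fun x => Real.exp ⟪η, x⟫) ≤ Real.exp (‖η‖ ^ 2) := by
  rcases eq_or_ne η 0 with rfl | hη
  · simp [h.pin.ex_const]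
  set r := ‖η‖
  have hr : 0 < r := norm_pos_iff.2 hη
  set v := r⁻¹ • η with hv
  have hv1 : ‖v‖ = 1 := by
    rw [hv, norm_smul, Real.norm_of_nonneg (inv_nonneg.2 hr.le), inv_mul_cancel₀ hr.ne']
  obtain ⟨hi, hle⟩ := hsub v hv1
  have hy : ∀ x, ⟪η, x⟫ = r * ⟪x, v⟫ := fun x => by
    rw [hv, real_inner_smul_right, ← mul_assoc, mul_inv_cancel₀ hr.ne', one_mul, real_inner_comm]
  have hexp : Integrable fun x => Real.exp (-V x) * Real.exp ⟪η, x⟫ :=
    (integrable_exp_inner h.pin η).congr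
      (Eventually.of_forall fun x => by simp only [real_inner_comm η x])
  have hT : Tame fun x : E n => r * ⟪x, v⟫ := (tame_inner v).const_mul r
  rcases le_or_gt r 1 with h1 | h1
  · have hrhs : Integrable fun x => Real.exp (-V x)
        * (r * ⟪x, v⟫ + ((1 - r ^ 2) + r ^ 2 * Real.exp (⟪x, v⟫ ^ 2))) :=
      ((h.pin.integrable hT).add ((h.pin.integrable_exp.const_mul (1 - r ^ 2)).add
        (hi.const_mul (r ^ 2)))).congr
        (Eventually.of_forall fun x => by simp only [Pi.add_apply, smul_eq_mul]; ring)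
    refine (ex_mono_int h.pin hexp hrhs
      (g := fun x => r * ⟪x, v⟫ + ((1 - r ^ 2) + r ^ 2 * Real.exp (⟪x, v⟫ ^ 2)))
      fun x => ?_).trans ?_
    · rw [hy]
      refine (exp_le_id_add_exp_sq _).trans (add_le_add le_rfl ?_)
      have := convexOn_exp.2 (Set.mem_univ 0) (Set.mem_univ (⟪x, v⟫ ^ 2))
        (show 0 ≤ 1 - r ^ 2 by nlinarith) (sq_nonneg r) (by ring)
      simp only [smul_eq_mul, mul_zero, zero_add, Real.exp_zero, mul_one] at this
      rwa [mul_pow]
    · have hmean : ex V (fun x => r * ⟪x, v⟫) = 0 := by rw [ex_const_mul, h.mean, mul_zero]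
      have e : ex V (fun x => r * ⟪x, v⟫ + ((1 - r ^ 2) + r ^ 2 * Real.exp (⟪x, v⟫ ^ 2)))
          = (1 - r ^ 2) + r ^ 2 * ex V (fun x => Real.exp (⟪x, v⟫ ^ 2)) := by
        simp only [ex, smul_eq_mul] at hmean ⊢
        simp only [h.mass, inv_one, one_mul] at hmean ⊢
        have e1 : ∫ x, Real.exp (-V x) = 1 := h.mass
        rw [← integral_const_mul]
        conv_rhs => rw [← zero_add (_ + _), ← hmean, show (1 - r ^ 2 : ℝ)
          = ∫ x, (1 - r ^ 2) * Real.exp (-V x) by rw [integral_const_mul, e1, mul_one]]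
        rw [← integral_add (h.pin.integrable_exp.const_mul _) (hi.const_mul _),
          ← integral_add (by simpa using h.pin.integrable hT)
            ((h.pin.integrable_exp.const_mul _).fun_add (hi.const_mul _))]
        exact integral_congr_ae (Eventually.of_forall fun x => by ring)
      rw [e]
      nlinarith [Real.add_one_le_exp (r ^ 2), mul_le_mul_of_nonneg_left hle (sq_nonneg r)]
  · have hrhs : Integrable fun x => Real.exp (-V x)
        * (Real.exp (r ^ 2 / 2) / 2 * (1 + Real.exp (⟪x, v⟫ ^ 2))) :=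
      ((h.pin.integrable_exp.add hi).const_mul (Real.exp (r ^ 2 / 2) / 2)).congr
        (Eventually.of_forall fun x => by simp only [Pi.add_apply]; ring)
    refine (ex_mono_int h.pin hexp hrhs
      (g := fun x => Real.exp (r ^ 2 / 2) / 2 * (1 + Real.exp (⟪x, v⟫ ^ 2))) fun x => ?_).trans ?_
    · have h2 : Real.exp (r * ⟪x, v⟫)
          ≤ Real.exp (r ^ 2 / 2) * Real.exp (⟪x, v⟫ ^ 2 / 2) := by
        rw [← Real.exp_add]
        exact Real.exp_le_exp.2 (by nlinarith [sq_nonneg (r - ⟪x, v⟫)])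
      have h3 : Real.exp (⟪x, v⟫ ^ 2) = Real.exp (⟪x, v⟫ ^ 2 / 2) ^ 2 := by
        rw [← Real.exp_nat_mul]; push_cast; ring_nf
      rw [hy, h3]
      nlinarith [mul_nonneg (Real.exp_pos (r ^ 2 / 2)).le
        (sq_nonneg (Real.exp (⟪x, v⟫ ^ 2 / 2) - 1))]
    · have e : ex V (fun x => 1 + Real.exp (⟪x, v⟫ ^ 2))
          = 1 + ex V (fun x => Real.exp (⟪x, v⟫ ^ 2)) := by
        simp only [ex, smul_eq_mul, h.mass, inv_one, one_mul, mul_add, mul_one]
        rw [integral_add h.pin.integrable_exp hi, show ∫ x, Real.exp (-V x) = 1 from h.mass]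
      rw [ex_const_mul, e]
      have h2 := Real.add_one_le_exp (r ^ 2 / 2)
      have h3 : Real.exp (r ^ 2) = Real.exp (r ^ 2 / 2) * Real.exp (r ^ 2 / 2) := by
        rw [← Real.exp_add]; ring_nf
      rw [h3, div_mul_eq_mul_div, div_le_iff₀ two_pos, mul_assoc]
      refine mul_le_mul_of_nonneg_left ?_ (Real.exp_pos _).le
      nlinarith

/-- A density against a law `W`: continuous, bounded below, with tame entropy integrand. -/
structure Good (g : E n → ℝ) : Prop where
  tame : Tame g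
  lower : ∃ δ : ℝ, 0 < δ ∧ ∀ x, δ ≤ g x
  tameEnt : Tame fun x => g x * Real.log (g x)

theorem good_one : Good (fun _ : E n => (1 : ℝ)) :=
  ⟨Tame.const 1, ⟨1, one_pos, fun _ => le_rfl⟩, by simpa using Tame.const (k := n) (0 : ℝ)⟩

theorem Dens.good {V g : E n → ℝ} (hg : Dens V g) : Good g := by
  obtain ⟨δ, hδ, hl⟩ := hg.lower
  obtain ⟨M, hM⟩ := hg.upper
  have hc : Continuous g := hg.smooth.continuous
  have ht : Tame g := Tame.bounded hc (C := |M|) fun x => by
    rw [Real.norm_of_nonneg (hδ.le.trans (hl x))]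
    exact (hM x).trans (le_abs_self M)
  refine ⟨ht, ⟨δ, hδ, hl⟩, ht.mul ?_⟩
  refine Tame.bounded (hc.log fun x => (hδ.trans_le (hl x)).ne') (C := |Real.log δ| + |M|) fun x => ?_
  have h1 := Real.log_le_log hδ (hl x)
  have h2 := Real.log_le_sub_one_of_pos (hδ.trans_le (hl x))
  rw [Real.norm_eq_abs, abs_le]
  constructor
  · linarith [neg_abs_le (Real.log δ), abs_nonneg M]
  · linarith [hM x, le_abs_self M, abs_nonneg (Real.log δ)]

theorem Good.ex_pos {g : E n → ℝ} (hg : Good g) (h : Pinched W a b) : 0 < ex W g := by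
  obtain ⟨δ, hδ, hl⟩ := hg.lower
  exact hδ.trans_le ((h.ex_const δ).symm.trans_le (h.ex_mono (Tame.const δ) hg.tame hl))

/-- Relative entropy of the normalised density. -/
noncomputable def kl (W g : E n → ℝ) : ℝ :=
  ex W (fun x => g x * Real.log (g x)) / ex W g - Real.log (ex W g)

/-- Donsker-Varadhan. -/
theorem dv {g φ : E n → ℝ} (h : Pinched W a b) (hg : Good g) (hφ : Tame φ)
    (hint : Integrable fun x => Real.exp (-W x) * Real.exp (φ x)) {L : ℝ}
    (hL : ex W (fun x => Real.exp (φ x)) ≤ Real.exp L) :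
    ex W (fun x => g x * φ x) ≤ ex W g * (kl W g + L) := by
  set c := ex W g with hc
  have hcp : 0 < c := hg.ex_pos h
  obtain ⟨δ, hδ, hl⟩ := hg.lower
  set A : E n → ℝ := fun x => g x * Real.log (g x) + (L - Real.log c - 1) * g x
  have hA : Tame A := hg.tameEnt.add (hg.tame.const_mul _)
  have hrhs : Integrable fun x => Real.exp (-W x) * (A x + c * Real.exp (-L) * Real.exp (φ x)) :=
    ((h.integrable hA).add (hint.const_mul (c * Real.exp (-L)))).congr
      (Eventually.of_forall fun x => by simp only [Pi.add_apply, smul_eq_mul]; ring)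
  refine (ex_mono_int h (h.integrable (hg.tame.mul hφ)) hrhs
    (g := fun x => A x + c * Real.exp (-L) * Real.exp (φ x)) fun x => ?_).trans ?_
  · have hgx : 0 < g x := hδ.trans_le (hl x)
    have h1 := Real.log_le_sub_one_of_pos
      (show 0 < c * Real.exp (φ x - L) / g x by positivity)
    rw [Real.log_div (by positivity) hgx.ne', Real.log_mul hcp.ne' (Real.exp_ne_zero _),
      Real.log_exp] at h1
    have h2 := mul_le_mul_of_nonneg_left h1 hgx.le
    rw [mul_sub (g x) (_ / g x), mul_div_cancel₀ _ hgx.ne', sub_eq_add_neg (φ x) L,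
      Real.exp_add] at h2
    simp only [A]
    nlinarith
  · have e : ex W (fun x => A x + c * Real.exp (-L) * Real.exp (φ x))
        = ex W A + c * Real.exp (-L) * ex W (fun x => Real.exp (φ x)) := by
      rw [← ex_const_mul]
      simp only [ex, smul_eq_mul, mul_add]
      rw [← mul_add, ← integral_add (by simpa using h.integrable hA)
        (by simpa [mul_left_comm, mul_assoc] using hint.const_mul (c * Real.exp (-L)))]
    rw [e, show ex W A = ex W (fun x => g x * Real.log (g x)) + (L - Real.log c - 1) * c by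
      rw [h.ex_add hg.tameEnt (hg.tame.const_mul _), ex_const_mul]]
    have h3 : c * Real.exp (-L) * ex W (fun x => Real.exp (φ x)) ≤ c := by
      calc _ ≤ c * Real.exp (-L) * Real.exp L := mul_le_mul_of_nonneg_left hL (by positivity)
        _ = c := by rw [mul_assoc, ← Real.exp_add, neg_add_cancel, Real.exp_zero, mul_one]
    have : c * kl W g = ex W (fun x => g x * Real.log (g x)) - c * Real.log c := by
      rw [kl, ← hc, mul_sub, mul_div_cancel₀ _ hcp.ne']
    nlinarith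

theorem kl_nonneg {g : E n → ℝ} (h : Pinched W a b) (hg : Good g) : 0 ≤ kl W g := by
  have := dv h hg (Tame.const (0 : ℝ)) (by simpa using h.integrable_exp) (L := 0)
    (by simp [h.ex_const])
  simp only [mul_zero, h.ex_const, add_zero] at this
  nlinarith [hg.ex_pos h]

theorem kl_one (h : Pinched W a b) : kl W (fun _ => (1 : ℝ)) = 0 := by
  simp [kl, h.ex_const]

/-- The mean of the normalised density. -/
noncomputable def meanV (W g : E n → ℝ) : E n :=
  WithLp.toLp 2 fun i => ex W (fun x => x i * g x) / ex W g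

theorem inner_sum (x η : E n) : ⟪x, η⟫ = ∑ i, x i * η i := by
  rw [PiLp.inner_apply]
  simp [mul_comm]

theorem ex_inner_meanV {g : E n → ℝ} (h : Pinched W a b) (hg : Good g) (η : E n) :
    ex W (fun x => g x * ⟪x, η⟫) = ex W g * ⟪meanV W g, η⟫ := by
  simp only [inner_sum, Finset.mul_sum]
  rw [h.ex_sum Finset.univ (f := fun i x => g x * (x i * η i))
    fun i _ => hg.tame.mul ((tame_coord i).mul (Tame.const (η i)))]
  refine Finset.sum_congr rfl fun i _ => ?_
  show _ = ex W g * (ex W (fun x => x i * g x) / ex W g * η i)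
  rw [← mul_assoc, mul_div_cancel₀ _ (hg.ex_pos h).ne', ← ex_mul_const]
  exact ex_congr fun x => by ring

theorem ex_inner_mean (h : Pinched W a b) (η : E n) :
    ex W (fun x => ⟪x, η⟫) = ⟪meanV W (fun _ => 1), η⟫ := by
  simpa [h.ex_const] using ex_inner_meanV h good_one η

/-- Donsker-Varadhan for a linear form. -/
theorem inner_meanV_le {g : E n → ℝ} (h : Pinched W a b) (hg : Good g) (η : E n) {L : ℝ}
    (hL : ex W (fun x => Real.exp ⟪x, η⟫) ≤ Real.exp L) :
    ⟪meanV W g, η⟫ ≤ kl W g + L := by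
  have := dv h hg (tame_inner η) (integrable_exp_inner h η) hL
  rw [ex_inner_meanV h hg] at this
  exact le_of_mul_le_mul_left this (hg.ex_pos h)

theorem wsq_eq {V g : E n → ℝ} (s : ℝ) (θ : E n) (h : Pinched (tilt (Ws V s) θ) a b) (hg : Good g) :
    wsq V g s θ = ‖meanV (tilt (Ws V s) θ) g - meanV (tilt (Ws V s) θ) fun _ => 1‖ ^ 2 := by
  rw [EuclideanSpace.real_norm_sq_eq]
  refine Finset.sum_congr rfl fun i _ => ?_
  simp only [covF, cE, gbar, meanV, PiLp.sub_apply, mul_one, h.ex_const, div_one]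
  rw [sub_div, mul_div_assoc, div_self (hg.ex_pos h).ne', mul_one]

theorem KLs_eq (V g : E n → ℝ) (s : ℝ) (θ : E n) : KLs V g s θ = kl (tilt (Ws V s) θ) g := rfl

theorem KLs_nonneg {n : ℕ} {V g : E n → ℝ} {ε Λ : ℝ} (h : Reg V ε Λ) (hg : Dens V g) {s : ℝ}
    (hs : 0 ≤ s) (θ : E n) : 0 ≤ KLs V g s θ :=
  kl_nonneg ((h.pin_Ws hs).tilt θ) hg.good

/-- Donsker-Varadhan with `log E exp ⟨η, x - m⟩ ≤ ‖η‖² / (2 s)` (`exp_moment_le`). -/
theorem wsq_le_strong {n : ℕ} {V g : E n → ℝ} {ε Λ : ℝ} (h : Reg V ε Λ) (hg : Dens V g) {s : ℝ}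
    (hs : 0 < s) (θ : E n) : wsq V g s θ ≤ 2 / s * KLs V g s θ := by
  have hW := h.pin_Ws hs.le
  have hp := hW.tilt θ
  rw [wsq_eq s θ hp hg.good, KLs_eq]
  set π := tilt (Ws V s) θ
  set w := meanV π g - meanV π fun _ => 1 with hw
  have hm := exp_moment_le hW (show 0 < Λ + s by linarith [h.posΛ]) θ (s • w)
  rw [show ex (tilt (Ws V s) θ) (fun x => ⟪x, s • w⟫) = _ from ex_inner_mean hp (s • w),
    show (fun x : E n => Real.exp ⟪s • w, x⟫) = fun x => Real.exp ⟪x, s • w⟫ from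
      funext fun x => by rw [real_inner_comm]] at hm
  have h1 := inner_meanV_le hp hg.good (s • w) hm
  have h2 : ‖s • w‖ ^ 2 / (2 * (ε + s)) ≤ ‖s • w‖ ^ 2 / (2 * s) :=
    div_le_div_of_nonneg_left (sq_nonneg _) (by positivity) (by linarith [h.pin.pos])
  have h3 : ⟪meanV π g, s • w⟫ - ⟪meanV π (fun _ => 1), s • w⟫ = s * ‖w‖ ^ 2 := by
    rw [← inner_sub_left, ← hw, real_inner_smul_right, real_inner_self_eq_norm_sq]
  have h4 : ‖s • w‖ ^ 2 / (2 * s) = s * ‖w‖ ^ 2 / 2 := by
    rw [norm_smul, Real.norm_of_nonneg hs.le]; field_simp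
  rw [div_mul_eq_mul_div, le_div_iff₀ hs]
  linarith

theorem ex_norm_sq_le {V : E n → ℝ} {ε Λ : ℝ} (h : Reg V ε Λ) (hsub : Sub V) :
    ex V (fun x => ‖x‖ ^ 2) ≤ n := by
  simp only [EuclideanSpace.real_norm_sq_eq]
  rw [h.pin.ex_sum Finset.univ (f := fun i x => x i ^ 2) fun i _ => (tame_coord i).pow 2]
  refine (Finset.sum_le_sum (g := fun _ => (1 : ℝ)) fun i _ => ?_).trans (by simp)
  obtain ⟨hi, hle⟩ := hsub (bv i) (norm_bv i)
  simp only [inner_bv] at hi hle
  have he : ex V (fun x => Real.exp (x i ^ 2) - 1) = ex V (fun x => Real.exp (x i ^ 2)) - 1 := by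
    simp only [ex, smul_eq_mul, h.mass, inv_one, one_mul, mul_sub, mul_one]
    rw [integral_sub hi h.pin.integrable_exp, show ∫ x, Real.exp (-V x) = 1 from h.mass]
  refine (ex_mono_int h.pin (h.pin.integrable ((tame_coord i).pow 2))
    ((hi.sub h.pin.integrable_exp).congr (Eventually.of_forall fun x => by
      simp only [Pi.sub_apply]; ring))
    (g := fun x => Real.exp (x i ^ 2) - 1) fun x => ?_).trans ?_
  · linarith [Real.add_one_le_exp (x i ^ 2)]
  · rw [he]; linarith

/-- The posterior mean against the Donsker-Varadhan bound relative to `V`. -/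
theorem norm_meanV_sq_le {V g : E n → ℝ} {ε Λ : ℝ} (h : Reg V ε Λ) (hsub : Sub V) (hg : Good g)
    {s : ℝ} (hs : 0 ≤ s) (θ : E n) :
    ‖meanV (tilt (Ws V s) θ) g‖ ^ 2
      ≤ 8 * (kl (tilt (Ws V s) θ) g + s * n / 2 + 2 * ‖θ‖ ^ 2) := by
  have hp := (h.pin_Ws hs).tilt θ
  set π := tilt (Ws V s) θ with hπ
  set M := meanV π g with hM
  set η := θ + (1 / 4 : ℝ) • M with hη
  set φ : E n → ℝ := fun x => ⟪x, η⟫ - ⟪x, θ⟫ + s / 2 * ‖x‖ ^ 2 with hφ
  have hφt : Tame φ :=
    ((tame_inner η).sub (tame_inner θ)).add ((tame_id.norm.pow 2).const_mul (s / 2))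
  have hpt : ∀ x, Real.exp (-π x) * Real.exp (φ x) = Real.exp (-V x) * Real.exp ⟪η, x⟫ := by
    intro x
    simp only [hπ, hφ, tilt, Ws, ← Real.exp_add, real_inner_comm x η, real_inner_comm x θ]
    ring_nf
  have hint : Integrable fun x => Real.exp (-π x) * Real.exp (φ x) :=
    (integrable_exp_inner h.pin η).congr (Eventually.of_forall fun x => by
      simp only [hpt, real_inner_comm η x])
  have hZ : Real.exp (-(s * n / 2)) ≤ Zc π := by
    set ψ : E n → ℝ := fun x => ⟪x, θ⟫ - s / 2 * ‖x‖ ^ 2 with hψ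
    set c := ex V ψ
    have hψt : Tame ψ := (tame_inner θ).sub ((tame_id.norm.pow 2).const_mul (s / 2))
    have hc : -(s * n / 2) ≤ c := by
      rw [show c = -(s / 2 * ex V (fun x => ‖x‖ ^ 2)) by
        simp only [c, hψ]
        rw [h.pin.ex_sub (tame_inner θ) ((tame_id.norm.pow 2).const_mul (s / 2)), h.mean,
          ex_const_mul, zero_sub]]
      nlinarith [ex_norm_sq_le h hsub]
    have ht : Tame fun x => Real.exp c * (1 + (ψ x - c)) :=
      ((Tame.const 1).add (hψt.sub (Tame.const c))).const_mul _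
    have hle : ex V (fun x => Real.exp c * (1 + (ψ x - c))) ≤ Zc π := by
      rw [ex, h.mass, inv_one, one_smul, Zc]
      refine integral_mono (h.pin.integrable ht) hp.integrable_exp fun x => ?_
      have e : Real.exp (-π x) = Real.exp (-V x) * (Real.exp c * Real.exp (ψ x - c)) := by
        simp only [hπ, hψ, tilt, Ws, ← Real.exp_add, real_inner_comm x θ]
        ring_nf
      simp only [e, smul_eq_mul]
      gcongr
      linarith [Real.add_one_le_exp (ψ x - c)]
    rw [ex_const_mul, h.pin.ex_add (Tame.const 1) (hψt.sub (Tame.const c)),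
      h.pin.ex_sub hψt (Tame.const c), h.pin.ex_const, h.pin.ex_const,
      sub_self, add_zero, mul_one] at hle
    exact (Real.exp_le_exp.2 hc).trans hle
  have hL : ex π (fun x => Real.exp (φ x)) ≤ Real.exp (‖η‖ ^ 2 + s * n / 2) := by
    have h1 := log_mgf_le h hsub η
    simp only [ex, smul_eq_mul, h.mass, inv_one, one_mul] at h1
    simp only [ex, smul_eq_mul, hpt]
    rw [inv_mul_le_iff₀ hp.zc_pos, Real.exp_add]
    refine h1.trans ?_
    have : (1 : ℝ) ≤ Zc π * Real.exp (s * n / 2) := by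
      calc (1 : ℝ) = Real.exp (-(s * n / 2)) * Real.exp (s * n / 2) := by
            rw [← Real.exp_add, neg_add_cancel, Real.exp_zero]
        _ ≤ _ := mul_le_mul_of_nonneg_right hZ (Real.exp_pos _).le
    nlinarith [Real.exp_pos (‖η‖ ^ 2)]
  have h2 := dv hp hg hφt hint hL
  obtain ⟨δ, hδ, hl⟩ := hg.lower
  have h3 : ex π (fun x => g x * ⟪x, η - θ⟫) ≤ ex π (fun x => g x * φ x) :=
    hp.ex_mono (hg.tame.mul (tame_inner _)) (hg.tame.mul hφt) fun x => by
      refine mul_le_mul_of_nonneg_left ?_ (hδ.le.trans (hl x))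
      rw [inner_sub_right]
      simp only [hφ, le_add_iff_nonneg_right]
      positivity
  rw [ex_inner_meanV hp hg] at h3
  have h4 := le_of_mul_le_mul_left (h3.trans h2) (hg.ex_pos hp)
  have h5 : ⟪M, η - θ⟫ = ‖M‖ ^ 2 / 4 := by
    rw [hη, add_sub_cancel_left, real_inner_smul_right, real_inner_self_eq_norm_sq]; ring
  have h6 : ‖η‖ ^ 2 ≤ 2 * ‖θ‖ ^ 2 + ‖M‖ ^ 2 / 8 := by
    refine (pow_le_pow_left₀ (norm_nonneg _) (norm_add_le _ _) 2).trans ?_
    rw [norm_smul, Real.norm_of_nonneg (by norm_num : (0 : ℝ) ≤ 1 / 4)]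
    nlinarith [sq_nonneg (‖θ‖ - 1 / 4 * ‖M‖)]
  rw [← hM] at h4
  linarith

/-- Donsker-Varadhan against `V` itself, for both posterior laws. -/
theorem exists_wsq_far : ∃ C : ℝ, 0 < C ∧ ∀ (n : ℕ) (V g : E n → ℝ) (ε Λ : ℝ), Reg V ε Λ → Sub V →
    Dens V g → ∀ s, 0 ≤ s → ∀ θ,
      wsq V g s θ ≤ C * (KLs V g s θ + ‖θ‖ ^ 2 + s * n) := by
  refine ⟨64, by norm_num, fun n V g ε Λ h hsub hg s hs θ => ?_⟩
  have hp := (h.pin_Ws hs).tilt θ
  rw [wsq_eq s θ hp hg.good, KLs_eq]
  have h1 := norm_meanV_sq_le h hsub hg.good hs θ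
  have h2 := norm_meanV_sq_le h hsub good_one hs θ
  rw [kl_one hp] at h2
  set P := meanV (tilt (Ws V s) θ) g
  set Q := meanV (tilt (Ws V s) θ) fun _ => 1
  have h3 := pow_le_pow_left₀ (norm_nonneg _) (norm_sub_le P Q) 2
  nlinarith [kl_nonneg hp hg.good, sq_nonneg (‖P‖ - ‖Q‖), norm_nonneg θ,
    mul_nonneg hs (Nat.cast_nonneg (α := ℝ) n)]

/-- The variance of a linear form through the covariance matrix. -/
theorem var_inner_le {V : E n → ℝ} {s : ℝ} {θ : E n} (hp : Pinched (tilt (Ws V s) θ) a b)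
    {κ : ℝ} (hA : OpLe (Am V s θ) κ) (η : E n) :
    ex (tilt (Ws V s) θ) (fun x => (⟪x, η⟫ - ex (tilt (Ws V s) θ) fun x => ⟪x, η⟫) ^ 2)
      ≤ κ * ‖η‖ ^ 2 := by
  set π := tilt (Ws V s) θ
  have hsq : ∀ x : E n, ⟪x, η⟫ ^ 2 = ∑ i, ∑ j, η i * η j * (x i * x j) := fun x => by
    rw [inner_sum, sq, Finset.sum_mul_sum]
    exact Finset.sum_congr rfl fun i _ => Finset.sum_congr rfl fun j _ => by ring
  have hm : ex π (fun x => ⟪x, η⟫) = ∑ i, η i * ex π (fun x => x i) := by
    simp only [inner_sum]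
    rw [hp.ex_sum Finset.univ (f := fun i x => x i * η i)
      fun i _ => (tame_coord i).mul (Tame.const (η i))]
    exact Finset.sum_congr rfl fun i _ => by rw [ex_mul_const, mul_comm]
  set m := ex π (fun x => ⟪x, η⟫)
  have hv : ex π (fun x => (⟪x, η⟫ - m) ^ 2)
      = ex π (fun x => ⟪x, η⟫ ^ 2) - m ^ 2 := by
    rw [ex_congr (g := fun x => ⟪x, η⟫ ^ 2 - ((2 * m) * ⟪x, η⟫ - m ^ 2)) fun x => by ring,
      hp.ex_sub ((tame_inner η).pow 2) (((tame_inner η).const_mul _).sub (Tame.const _)),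
      hp.ex_sub ((tame_inner η).const_mul _) (Tame.const _), ex_const_mul, hp.ex_const]
    ring
  have hq : dotProduct (η : Fin n → ℝ) ((Am V s θ).mulVec η)
      = ex π (fun x => ⟪x, η⟫ ^ 2) - m ^ 2 := by
    simp only [hsq, hm]
    rw [hp.ex_sum Finset.univ (f := fun i x => ∑ j, η i * η j * (x i * x j))
      (fun i _ => Tame.sum _ fun j _ => ((tame_coord i).mul (tame_coord j)).const_mul _),
      sq, Finset.sum_mul_sum, ← Finset.sum_sub_distrib]
    refine Finset.sum_congr rfl fun i _ => ?_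
    rw [hp.ex_sum Finset.univ (f := fun j x => η i * η j * (x i * x j))
      (fun j _ => ((tame_coord i).mul (tame_coord j)).const_mul _), ← Finset.sum_sub_distrib]
    simp only [Matrix.mulVec, dotProduct, Finset.mul_sum]
    refine Finset.sum_congr rfl fun j _ => ?_
    simp only [Am, Matrix.of_apply, covF, cE, ex_const_mul]
    ring
  rw [hv, ← hq, EuclideanSpace.real_norm_sq_eq]
  refine (hA _).trans_eq ?_
  simp [dotProduct, sq]

/-- `exists_mgf` gives `|w| ≤ C (√KL + KL)`; above `KL = √(1 + sn)` use `exists_wsq_far`. -/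
theorem exists_wsq_good : ∃ C : ℝ, 0 < C ∧ ∀ (n : ℕ) (V g : E n → ℝ) (ε Λ : ℝ), Reg V ε Λ → Sub V →
    Dens V g → ∀ s, 0 ≤ s → ∀ θ, OpLe (Am V s θ) 10 → ‖θ‖ ^ 2 ≤ 64 * s * n →
      wsq V g s θ ≤ C * (1 + Real.sqrt (s * n)) * KLs V g s θ := by
  obtain ⟨c, C₁, hc, hC₁, hmgf⟩ := exists_mgf
  obtain ⟨C₂, hC₂, hfar⟩ := exists_wsq_far
  set r := Real.sqrt (c / 10) with hr
  have hr0 : 0 < r := Real.sqrt_pos.2 (by positivity)
  refine ⟨40 * C₁ + 4 / r ^ 2 + 66 * C₂, by positivity,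
    fun n V g ε Λ h hsub hg s hs θ hA hθ => ?_⟩
  have hW := h.pin_Ws hs
  have hp := hW.tilt θ
  have hq := Real.sqrt_nonneg (s * n)
  have hK : 0 ≤ KLs V g s θ := KLs_nonneg h hg hs θ
  rcases lt_or_ge (1 + Real.sqrt (s * n)) (KLs V g s θ) with hbig | hsmall
  · refine (hfar n V g ε Λ h hsub hg s hs θ).trans ?_
    have hs2 : s * n ≤ Real.sqrt (s * n) * KLs V g s θ := by
      have h1 := Real.mul_self_sqrt (mul_nonneg hs (Nat.cast_nonneg (α := ℝ) n))
      nlinarith
    calc C₂ * (KLs V g s θ + ‖θ‖ ^ 2 + s * n)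
        ≤ C₂ * (66 * ((1 + Real.sqrt (s * n)) * KLs V g s θ)) := by
          refine mul_le_mul_of_nonneg_left ?_ hC₂.le
          nlinarith [mul_nonneg hq hK]
      _ ≤ _ := by
          rw [mul_assoc (40 * C₁ + 4 / r ^ 2 + 66 * C₂), mul_left_comm, ← mul_assoc]
          exact mul_le_mul_of_nonneg_right
            (le_add_of_nonneg_left (by positivity)) (by positivity)
  · rw [wsq_eq s θ hp hg.good]
    rw [KLs_eq] at hK hsmall ⊢
    set π := tilt (Ws V s) θ
    set w := meanV π g - meanV π fun _ => 1 with hw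
    set K := kl π g
    have key : ∀ l : ℝ, 0 ≤ l → l * ‖w‖ ≤ r →
        l * ‖w‖ ^ 2 ≤ K + 10 * C₁ * (l * ‖w‖) ^ 2 := by
      intro l hl hlr
      have hκ : 10 * ‖l • w‖ ^ 2 ≤ c := by
        rw [norm_smul, Real.norm_of_nonneg hl]
        have := pow_le_pow_left₀ (by positivity) hlr 2
        rw [hr, Real.sq_sqrt (by positivity)] at this
        linarith
      have hm := hmgf n π (ε + s) (Λ + s) hp (by linarith [h.posΛ]) (l • w) _
        (var_inner_le hp hA (l • w)) hκ
      rw [ex_inner_mean hp] at hm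
      set μ := ⟪meanV π (fun _ => 1), l • w⟫
      have hL : ex π (fun x => Real.exp ⟪x, l • w⟫)
          ≤ Real.exp (μ + C₁ * (10 * ‖l • w‖ ^ 2)) := by
        rw [Real.exp_add, ← div_le_iff₀' (Real.exp_pos μ)]
        refine le_trans (le_of_eq ?_) hm
        rw [div_eq_inv_mul, ← ex_const_mul, ← Real.exp_neg]
        exact ex_congr fun x => by rw [← Real.exp_add]; ring_nf
      have h1 := inner_meanV_le hp hg.good (l • w) hL
      have h2 : ⟪meanV π g, l • w⟫ - μ = l * ‖w‖ ^ 2 := by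
        simp only [μ]
        rw [← inner_sub_left, ← hw, real_inner_smul_right, real_inner_self_eq_norm_sq]
      rw [norm_smul, Real.norm_of_nonneg hl] at h1
      nlinarith
    have hbound : ‖w‖ ^ 2 ≤ (40 * C₁ + 4 / r ^ 2 * K) * K := by
      rcases le_or_gt ‖w‖ (20 * C₁ * r) with hle | hgt
      · have := key (1 / (20 * C₁)) (by positivity) (by
          rw [div_mul_eq_mul_div, one_mul, div_le_iff₀ (by positivity)]; linarith)
        have e : 10 * C₁ * (1 / (20 * C₁) * ‖w‖) ^ 2 = 1 / (40 * C₁) * ‖w‖ ^ 2 := by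
          field_simp; ring
        rw [e] at this
        have e2 : 1 / (20 * C₁) * ‖w‖ ^ 2 - 1 / (40 * C₁) * ‖w‖ ^ 2
            = ‖w‖ ^ 2 / (40 * C₁) := by field_simp; ring
        have : ‖w‖ ^ 2 / (40 * C₁) ≤ K := by linarith
        rw [div_le_iff₀ (by positivity)] at this
        nlinarith [mul_nonneg (show 0 ≤ 4 / r ^ 2 by positivity) (mul_nonneg hK hK)]
      · have hw0 : 0 < ‖w‖ := lt_of_le_of_lt (by positivity) hgt
        have := key (r / ‖w‖) (by positivity) (le_of_eq (div_mul_cancel₀ _ hw0.ne'))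
        rw [div_mul_cancel₀ _ hw0.ne', show r / ‖w‖ * ‖w‖ ^ 2 = r * ‖w‖ by field_simp] at this
        have h2 : r * ‖w‖ ≤ 2 * K := by nlinarith [mul_lt_mul_of_pos_left hgt hr0]
        have h3 := pow_le_pow_left₀ (by positivity) h2 2
        have h4 : ‖w‖ ^ 2 ≤ 4 / r ^ 2 * K * K := by
          rw [div_mul_eq_mul_div, div_mul_eq_mul_div, le_div_iff₀ (by positivity)]
          linarith
        nlinarith [mul_nonneg (mul_nonneg (by norm_num : (0 : ℝ) ≤ 40) hC₁.le) hK]
    refine hbound.trans (mul_le_mul_of_nonneg_right ?_ hK)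
    have h5 := mul_le_mul_of_nonneg_left hsmall (show 0 ≤ 4 / r ^ 2 by positivity)
    nlinarith [mul_nonneg (mul_nonneg (show (0:ℝ) ≤ 40 by norm_num) hC₁.le) hq,
      mul_nonneg (mul_nonneg (show (0:ℝ) ≤ 66 by norm_num) hC₂.le)
        (show (0:ℝ) ≤ 1 + Real.sqrt (s * n) by positivity)]

end Vale.P245.Cube
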