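import Vale.Agent.P245.Cube.CalcRules
import Vale.Agent.P245.Cube.WBound

/-! # The entropy chain -/

namespace Vale.P245.Cube

open MeasureTheory Vale.P254.Skew

variable {n : ℕ} {V g : E n → ℝ} {ε Λ : ℝ}

/-- The squared gradient. -/
noncomputable def grad2 (g : E n → ℝ) (x : E n) : ℝ := ∑ i, fderiv ℝ g x (bv i) ^ 2

theorem Dens.g_pos (hg : Dens V g) (x : E n) : 0 < g x :=
  let ⟨_, hδ, h⟩ := hg.lower
  hδ.trans_le (h x)

theorem Dens.tame_g (hg : Dens V g) : Tame g := by
  obtain ⟨M, hM⟩ := hg.upper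
  exact Tame.bounded hg.smooth.continuous (C := M) fun x => by
    rw [Real.norm_of_nonneg (hg.g_pos x).le]
    exact hM x

theorem Dens.tame_mul_log (hg : Dens V g) : Tame fun x => g x * Real.log (g x) := by
  obtain ⟨δ, hδ, hl⟩ := hg.lower
  obtain ⟨M, hM⟩ := hg.upper
  obtain ⟨C, hC⟩ := (isCompact_Icc (a := δ) (b := M)).exists_bound_of_continuousOn
    Real.continuous_mul_log.continuousOn
  exact Tame.bounded (Real.continuous_mul_log.comp hg.smooth.continuous) fun x =>
    hC _ ⟨hl x, hM x⟩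

theorem gbar_lower (h : Reg V ε Λ) (hg : Dens V g) {δ : ℝ} (hl : ∀ x, δ ≤ g x) {s : ℝ}
    (hs : 0 ≤ s) (θ : E n) : δ ≤ gbar V g s θ := by
  have hp := (h.pin_Ws hs).tilt θ
  exact (hp.ex_const δ).symm.trans_le (hp.ex_mono (Tame.const δ) hg.tame_g hl)

theorem gbar_upper (h : Reg V ε Λ) (hg : Dens V g) {M : ℝ} (hM : ∀ x, g x ≤ M) {s : ℝ}
    (hs : 0 ≤ s) (θ : E n) : gbar V g s θ ≤ M := by
  have hp := (h.pin_Ws hs).tilt θ
  exact (hp.ex_mono hg.tame_g (Tame.const M) hM).trans_eq (hp.ex_const M)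

theorem gbar_pos (h : Reg V ε Λ) (hg : Dens V g) {s : ℝ} (hs : 0 ≤ s) (θ : E n) :
    0 < gbar V g s θ :=
  let ⟨_, hδ, hl⟩ := hg.lower
  hδ.trans_le (gbar_lower h hg hl hs θ)

theorem nice_comp_gbar (h : Reg V ε Λ) (hg : Dens V g) {φ : ℝ → ℝ}
    (hφ : ContinuousOn φ (Set.Ioi 0)) : Nice fun s θ => φ (gbar V g s θ) := by
  obtain ⟨δ, hδ, hl⟩ := hg.lower
  obtain ⟨M, hM⟩ := hg.upper
  obtain ⟨C, hC⟩ := (isCompact_Icc (a := δ) (b := M)).exists_bound_of_continuousOn
    (hφ.mono fun r hr => hδ.trans_le hr.1)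
  refine ⟨hφ.comp (nice_cE h hg.tame_g).cont fun p hp => ?_, fun T => ⟨C, 0, fun s hs θ => ?_⟩⟩
  · exact gbar_pos h hg hp.1 p.2
  · simpa using hC _ ⟨gbar_lower h hg hl hs.1 θ, gbar_upper h hg hM hs.1 θ⟩

theorem nice_Dfun_integrand (h : Reg V ε Λ) (hg : Dens V g) :
    Nice fun s θ => gbar V g s θ * Real.log (gbar V g s θ) :=
  nice_comp_gbar h hg Real.continuous_mul_log.continuousOn

theorem Dfun_zero (h : Reg V ε Λ) (hg : Dens V g) : Dfun V g 0 = 0 := by
  have e : gbar V g 0 0 = 1 := by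
    have : tilt (Ws V 0) (0 : E n) = V := funext fun x => by simp [tilt, Ws]
    rw [gbar, cE, this, hg.mass]
  simp [Dfun, EP_zero, e, h.pin.ex_const]

theorem continuousOn_Dfun (h : Reg V ε Λ) (hg : Dens V g) :
    ContinuousOn (Dfun V g) (Set.Ici 0) :=
  continuousOn_EP h (nice_Dfun_integrand h hg)

/-- `gen (φ ∘ gbar) = φ'' |∇gbar|² / 2` with `φ r = r log r`. -/
theorem hasDerivAt_Dfun (h : Reg V ε Λ) (hg : Dens V g) {s : ℝ} (hs : 0 < s) :
    HasDerivAt (Dfun V g) (1 / 2 * EP V s fun _ θ => gbar V g s θ * wsq V g s θ) s := by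
  have hlog : ContinuousOn Real.log (Set.Ioi 0) :=
    Real.continuousOn_log.mono fun r hr => ne_of_gt hr
  have hc := (calc_cE h hg.tame_g).comp (φ := fun r => r * Real.log r)
    (φ' := fun r => Real.log r + 1) (φ'' := fun r => r⁻¹) isOpen_Ioi
    (fun r hr θ => gbar_pos h hg hr θ)
    (contDiffOn_id.mul (Real.contDiffOn_log.mono fun r hr => ne_of_gt hr))
    (fun r hr => Real.hasDerivAt_mul_log (ne_of_gt hr))
    (fun r hr => (Real.hasDerivAt_log (ne_of_gt hr)).add_const 1)
    (nice_Dfun_integrand h hg)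
    (nice_comp_gbar h hg (hlog.add continuousOn_const))
    (nice_comp_gbar h hg (continuousOn_id.inv₀ fun r hr => ne_of_gt hr))
  refine (hasDerivAt_EP h hc hs).congr_deriv ?_
  rw [← EP_const_mul]
  congr 1
  funext x θ
  have hp := gbar_pos h hg hs.le θ
  have hz := gen_cE h hg.tame_g hs.le θ
  simp only [gen] at hz ⊢
  have e1 : ∀ l, mC V s θ l * ((Real.log (cE V s θ g) + 1) * cE1 V g l s θ)
      = (Real.log (cE V s θ g) + 1) * (mC V s θ l * cE1 V g l s θ) := fun l => by ring
  have e2 : gbar V g s θ * wsq V g s θ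
      = (cE V s θ g)⁻¹ * ∑ l, cE1 V g l s θ ^ 2 := by
    simp only [wsq, cE1, div_pow, ← Finset.sum_div]
    rw [gbar] at hp ⊢
    field_simp
  rw [e2, Finset.sum_congr rfl fun l _ => e1 l, ← Finset.mul_sum, Finset.sum_add_distrib,
    ← Finset.mul_sum, ← Finset.mul_sum]
  linear_combination (Real.log (cE V s θ g) + 1) * hz

theorem gbar_mul_KLs (h : Reg V ε Λ) (hg : Dens V g) {s : ℝ} (hs : 0 ≤ s) (θ : E n) :
    gbar V g s θ * KLs V g s θ
      = cE V s θ (fun x => g x * Real.log (g x))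
        - gbar V g s θ * Real.log (gbar V g s θ) := by
  rw [KLs, mul_sub, mul_div_cancel₀ _ (gbar_pos h hg hs θ).ne']

theorem EP_cE (h : Reg V ε Λ) {f : E n → ℝ} (hf : Tame f) {s : ℝ} (hs : 0 ≤ s) :
    EP V s (fun _ θ => cE V s θ f) = ex V f :=
  (EP_cond h hs (G := fun x _ => f x) hf.tame2_left).symm.trans (EP_left h s hf)

theorem EP_const (h : Reg V ε Λ) (s r : ℝ) : EP V s (fun _ _ => r) = r :=
  (EP_left h s (Tame.const r)).trans (h.pin.ex_const r)

theorem EP_KLs (h : Reg V ε Λ) (hg : Dens V g) {s : ℝ} (hs : 0 ≤ s) :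
    EP V s (fun _ θ => gbar V g s θ * KLs V g s θ) = Hent V g - Dfun V g s := by
  rw [show (fun (_ : E n) θ => gbar V g s θ * KLs V g s θ) = fun _ θ =>
      cE V s θ (fun x => g x * Real.log (g x)) - gbar V g s θ * Real.log (gbar V g s θ) from
      funext fun _ => funext fun θ => gbar_mul_KLs h hg hs θ,
    EP_sub h s ((nice_cE h hg.tame_mul_log).tame hs).tame2_right
      ((nice_Dfun_integrand h hg).tame hs).tame2_right, EP_cE h hg.tame_mul_log hs]
  rfl

theorem tame_gbar_KLs (h : Reg V ε Λ) (hg : Dens V g) {s : ℝ} (hs : 0 ≤ s) :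
    Tame fun θ => gbar V g s θ * KLs V g s θ := by
  simp only [gbar_mul_KLs h hg hs]
  exact ((nice_cE h hg.tame_mul_log).tame hs).sub ((nice_Dfun_integrand h hg).tame hs)

theorem Dfun_nonneg (h : Reg V ε Λ) (hg : Dens V g) {s : ℝ} (hs : 0 ≤ s) : 0 ≤ Dfun V g s := by
  have t1 : Tame fun θ => gbar V g s θ := (nice_cE h hg.tame_g).tame hs
  have := EP_mono h s (G := fun _ θ => gbar V g s θ - 1)
    (t1.sub (Tame.const 1)).tame2_right ((nice_Dfun_integrand h hg).tame hs).tame2_right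
    fun _ θ => by
      have hp := gbar_pos h hg hs θ
      have := mul_le_mul_of_nonneg_left (Real.one_sub_inv_le_log_of_pos hp) hp.le
      rwa [mul_sub, mul_one, mul_inv_cancel₀ hp.ne'] at this
  rw [EP_sub h s t1.tame2_right (Tame2.const 1), EP_const h] at this
  have e : EP V s (fun _ θ => gbar V g s θ) = 1 := (EP_cE h hg.tame_g hs).trans hg.mass
  rw [e, sub_self] at this
  exact this

theorem Dfun_le_Hent (h : Reg V ε Λ) (hg : Dens V g) {s : ℝ} (hs : 0 ≤ s) :
    Dfun V g s ≤ Hent V g := by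
  have := EP_mono h s (G := fun _ _ => (0 : ℝ)) (Tame2.const 0)
    (tame_gbar_KLs h hg hs).tame2_right
    fun _ θ => mul_nonneg (gbar_pos h hg hs θ).le (KLs_nonneg h hg hs θ)
  rw [EP_const h, EP_KLs h hg hs] at this
  linarith

theorem Dens.tame_grad2 (hg : Dens V g) : Tame (grad2 g) := by
  obtain ⟨L, hL⟩ := hg.lip
  refine Tame.bounded ?_ (C := n * L ^ 2) fun x => ?_
  · exact continuous_finsetSum _ fun i _ =>
      (((hg.smooth.continuous_fderiv one_ne_zero).clm_apply continuous_const).pow 2)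
  · rw [Real.norm_of_nonneg (by unfold grad2; positivity)]
    refine (Finset.sum_le_card_nsmul _ _ (L ^ 2) fun i _ => ?_).trans_eq (by simp)
    refine sq_le_sq' ?_ ?_ <;>
    · have := ((fderiv ℝ g x).le_opNorm (bv i)).trans_eq (by rw [norm_bv, mul_one])
      rw [Real.norm_eq_abs] at this
      have := abs_le.1 (this.trans (hL x))
      linarith

theorem cE_sq_sub (h : Reg V ε Λ) (hg : Dens V g) {s : ℝ} (hs : 0 ≤ s) (θ : E n) :
    cE V s θ (fun x => (g x - gbar V g s θ) ^ 2)
      = cE V s θ (fun x => g x ^ 2) - gbar V g s θ ^ 2 := by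
  have hp := (h.pin_Ws hs).tilt θ
  simp only [cE, gbar, sub_sq]
  rw [hp.ex_add ((hg.tame_g.pow 2).sub ((hg.tame_g.const_mul 2).mul (Tame.const _))) (Tame.const _),
    hp.ex_sub (hg.tame_g.pow 2) ((hg.tame_g.const_mul 2).mul (Tame.const _)), ex_mul_const,
    ex_const_mul, hp.ex_const]
  ring

/-- Brascamp-Lieb for the posterior law. -/
theorem var_posterior_le (h : Reg V ε Λ) (hg : Dens V g) {s : ℝ} (hs : 0 < s) (θ : E n) :
    s * (cE V s θ (fun x => g x ^ 2) - gbar V g s θ ^ 2) ≤ cE V s θ (grad2 g) := by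
  have hp := (h.pin_Ws hs.le).tilt θ
  have ha : 0 < ε + s := by linarith [h.pin.pos]
  have key := hp.bl (f := g) (G := fun x => (ε + s)⁻¹ * grad2 g x) hg.smooth hg.tame_g
    (hg.tame_grad2.const_mul _) fun x w => by
      have e : fderiv ℝ g x w = ∑ i, w i * fderiv ℝ g x (bv i) := by
        conv_lhs => rw [← sum_smul_bv w]
        simp
      have hw : ‖w‖ ^ 2 = ∑ i, w i ^ 2 := EuclideanSpace.real_norm_sq_eq w
      have h0 : 0 ≤ ∑ i, (ε + s)⁻¹ * (fderiv ℝ g x (bv i) + (ε + s) * w i) ^ 2 := by positivity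
      have e' : ∑ i, (ε + s)⁻¹ * (fderiv ℝ g x (bv i) + (ε + s) * w i) ^ 2
          = (ε + s)⁻¹ * grad2 g x + 2 * fderiv ℝ g x w + (ε + s) * ‖w‖ ^ 2 := by
        rw [grad2, e, hw, Finset.mul_sum, Finset.mul_sum, Finset.mul_sum,
          ← Finset.sum_add_distrib, ← Finset.sum_add_distrib]
        refine Finset.sum_congr rfl fun i _ => ?_
        field_simp
        ring
      linarith [hp.lower x w]
  rw [ex_const_mul, le_inv_mul_iff₀ ha] at key
  have h0 : 0 ≤ cE V s θ (fun x => g x ^ 2) - gbar V g s θ ^ 2 :=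
    (cE_sq_sub h hg hs.le θ).symm ▸ hp.ex_nonneg fun x => sq_nonneg _
  refine le_trans (mul_le_mul_of_nonneg_right ?_ h0) key
  linarith [h.pin.pos]

/-- The relative entropy is at most the chi-square divergence. -/
theorem gbar_KLs_le (h : Reg V ε Λ) (hg : Dens V g) {s : ℝ} (hs : 0 ≤ s) (θ : E n) :
    gbar V g s θ * KLs V g s θ
      ≤ (cE V s θ (fun x => g x ^ 2) - gbar V g s θ ^ 2) / gbar V g s θ := by
  have hp := (h.pin_Ws hs).tilt θ
  have hb := gbar_pos h hg hs θ
  set c := gbar V g s θ with hc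
  rw [gbar_mul_KLs h hg hs, ← hc, sub_div, sq c, mul_div_cancel_right₀ _ hb.ne']
  have := hp.ex_mono hg.tame_mul_log
    (((hg.tame_g.pow 2).const_mul c⁻¹).add (hg.tame_g.const_mul (Real.log c - 1))) fun x => by
      have := mul_le_mul_of_nonneg_left
        (Real.log_le_sub_one_of_pos (div_pos (hg.g_pos x) hb)) (hg.g_pos x).le
      rw [Real.log_div (hg.g_pos x).ne' hb.ne'] at this
      have e : g x * (g x / c) = c⁻¹ * g x ^ 2 := by ring
      linarith
  rw [hp.ex_add ((hg.tame_g.pow 2).const_mul c⁻¹) (hg.tame_g.const_mul _), ex_const_mul,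
    ex_const_mul] at this
  change cE V s θ (fun x => g x * Real.log (g x))
    ≤ c⁻¹ * cE V s θ (fun x => g x ^ 2) + (Real.log c - 1) * c at this
  rw [div_eq_inv_mul]
  linarith

/-- `r (H - D r)` is nondecreasing by `wsq_le_strong`, and at `r → ∞` the posterior Brascamp-Lieb
inequality and `KL ≤ χ²` bound it by the Fisher information. -/
theorem tail_lsi (h : Reg V ε Λ) (hg : Dens V g) {t : ℝ} (ht : 0 < t) :
    t * (Hent V g - Dfun V g t) ≤ Fish V g := by
  obtain ⟨δ, hδ, hl⟩ := hg.lower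
  obtain ⟨L, hL⟩ := hg.lip
  have tgr := hg.tame_grad2
  have hG0 : ∀ x, 0 ≤ grad2 g x := fun x => by unfold grad2; positivity
  have hG1 : ∀ x, grad2 g x ≤ n * L ^ 2 := fun x => by
    refine (Finset.sum_le_card_nsmul _ _ (L ^ 2) fun i _ => ?_).trans_eq (by simp)
    refine sq_le_sq.2 ?_
    have := ((fderiv ℝ g x).le_opNorm (bv i)).trans_eq (by rw [norm_bv, mul_one])
    exact (this.trans (hL x)).trans (le_abs_self L)
  set K : ℝ := n * L ^ 2 with hK
  set f : ℝ → ℝ := fun r => r * (Hent V g - Dfun V g r) with hf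
  have hd : ∀ r, 0 < r → HasDerivAt f (1 * (Hent V g - Dfun V g r)
      + r * -(1 / 2 * EP V r fun _ θ => gbar V g r θ * wsq V g r θ)) r := fun r hr =>
    (hasDerivAt_id r).mul ((hasDerivAt_Dfun h hg hr).const_sub _)
  have hmono : MonotoneOn f (Set.Ici t) := monotoneOn_of_hasDerivWithinAt_nonneg (convex_Ici t)
    (fun r hr => (hd r (ht.trans_le hr)).continuousAt.continuousWithinAt)
    (fun r hr => (hd r (by rw [interior_Ici] at hr; exact ht.trans hr)).hasDerivWithinAt)
    fun r hr => by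
      rw [interior_Ici] at hr
      have hr0 : 0 < r := ht.trans hr
      have tw : Tame fun θ => gbar V g r θ * wsq V g r θ := by
        have tb : Tame fun θ => (gbar V g r θ)⁻¹ :=
          (nice_comp_gbar h hg (continuousOn_id.inv₀ fun r hr => ne_of_gt hr)).tame hr0.le
        refine ((nice_cE h hg.tame_g).tame hr0.le).mul (Tame.sum _ fun i _ => ?_)
        simp only [div_eq_mul_inv]
        exact (((nice_covF h (tame_coord i) hg.tame_g).tame hr0.le).mul tb).pow 2
      have := EP_mono h r tw.tame2_right ((tame_gbar_KLs h hg hr0.le).const_mul (2 / r)).tame2_right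
        fun _ θ => by
          rw [mul_left_comm]
          exact mul_le_mul_of_nonneg_left (wsq_le_strong h hg hr0 θ) (gbar_pos h hg hr0.le θ).le
      rw [EP_const_mul, EP_KLs h hg hr0.le] at this
      have := mul_le_mul_of_nonneg_left this hr0.le
      rw [← mul_assoc r, mul_div_cancel₀ _ hr0.ne'] at this
      linarith
  have hbd : ∀ r, t ≤ r → f t ≤ Fish V g + K / δ ^ 2 * ((K + 1) / 2) * (Real.sqrt r)⁻¹ := by
    intro r hr
    have hr0 : 0 < r := ht.trans_le hr
    have hsq := Real.sqrt_pos.2 hr0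
    refine (hmono Set.self_mem_Ici hr hr).trans ?_
    have tb : Tame fun θ => (gbar V g r θ)⁻¹ :=
      (nice_comp_gbar h hg (continuousOn_id.inv₀ fun r hr => ne_of_gt hr)).tame hr0.le
    have tgb : Tame fun θ => gbar V g r θ := (nice_cE h hg.tame_g).tame hr0.le
    have T1 : Tame2 fun x θ => grad2 g x * (gbar V g r θ)⁻¹ := tgr.tame2_left.mul tb.tame2_right
    have T2 : Tame2 fun x θ => (g x - gbar V g r θ) ^ 2 :=
      (hg.tame_g.tame2_left.sub tgb.tame2_right).pow 2
    have tF : Tame fun x => grad2 g x / g x := by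
      refine Tame.bounded (tgr.1.div hg.smooth.continuous fun x => (hg.g_pos x).ne')
        (C := K / δ) fun x => ?_
      rw [Real.norm_of_nonneg (div_nonneg (hG0 x) (hg.g_pos x).le)]
      exact div_le_div₀ ((hG0 x).trans (hG1 x)) (hG1 x) hδ (hl x)
    -- entropy against the posterior Fisher information
    have s1 : f r ≤ EP V r fun x θ => grad2 g x * (gbar V g r θ)⁻¹ := by
      rw [EP_cond h hr0.le T1, show f r = r * (Hent V g - Dfun V g r) from rfl,
        ← EP_KLs h hg hr0.le, ← EP_const_mul]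
      refine EP_mono h r ((tame_gbar_KLs h hg hr0.le).const_mul r).tame2_right
        (tame_cE_pair h hr0.le T1).tame2_right fun _ θ => ?_
      have hb := gbar_pos h hg hr0.le θ
      refine (mul_le_mul_of_nonneg_left (gbar_KLs_le h hg hr0.le θ) hr0.le).trans ?_
      rw [show cE V r θ (fun x => grad2 g x * (gbar V g r θ)⁻¹)
        = cE V r θ (grad2 g) * (gbar V g r θ)⁻¹ from ex_mul_const _ _, ← mul_div_assoc,
        div_eq_mul_inv]
      exact mul_le_mul_of_nonneg_right (var_posterior_le h hg hr0 θ) (inv_nonneg.2 hb.le)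
    -- replace the posterior mass by the density
    have s2 : ∀ x θ, grad2 g x * (gbar V g r θ)⁻¹ ≤ grad2 g x / g x
        + (K / δ ^ 2 / 2 * Real.sqrt r * (g x - gbar V g r θ) ^ 2
          + K / δ ^ 2 / 2 * (Real.sqrt r)⁻¹) := by
      intro x θ
      have hb := gbar_pos h hg hr0.le θ
      have hx := hg.g_pos x
      set u := g x - gbar V g r θ with hu
      have e : grad2 g x * (gbar V g r θ)⁻¹ - grad2 g x / g x
          = grad2 g x / (g x * gbar V g r θ) * u := by
        rw [hu]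
        field_simp
      have h1 : |u| ≤ (Real.sqrt r * u ^ 2 + (Real.sqrt r)⁻¹) / 2 := by
        have e2 : (Real.sqrt r * u ^ 2 + (Real.sqrt r)⁻¹) / 2 - |u|
            = (Real.sqrt r * |u| - 1) ^ 2 / (2 * Real.sqrt r) := by
          rw [← sq_abs u]
          field_simp
          ring
        have := div_nonneg (sq_nonneg (Real.sqrt r * |u| - 1)) (by linarith : 0 ≤ 2 * Real.sqrt r)
        linarith
      have h2 : grad2 g x / (g x * gbar V g r θ) ≤ K / δ ^ 2 :=
        div_le_div₀ ((hG0 x).trans (hG1 x)) (hG1 x) (by positivity)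
          ((sq δ).trans_le (mul_le_mul (hl x) (gbar_lower h hg hl hr0.le θ) hδ.le hx.le))
      have h3 := mul_le_mul h2 h1 (abs_nonneg u) (by positivity)
      have h4 := mul_le_mul_of_nonneg_left (le_abs_self u)
        (div_nonneg (hG0 x) (mul_nonneg hx.le hb.le))
      linarith
    -- the posterior variance vanishes
    have s3 : r * (EP V r fun x θ => (g x - gbar V g r θ) ^ 2) ≤ K := by
      rw [EP_cond h hr0.le T2, ← EP_const_mul]
      refine (EP_mono h r ((tame_cE_pair h hr0.le T2).const_mul r).tame2_right (Tame2.const K)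
        fun _ θ => ?_).trans_eq (EP_const h r K)
      have hp := (h.pin_Ws hr0.le).tilt θ
      rw [cE_sq_sub h hg hr0.le θ]
      exact (var_posterior_le h hg hr0 θ).trans
        ((hp.ex_mono tgr (Tame.const K) hG1).trans_eq (hp.ex_const K))
    have T3 : Tame2 fun x θ => K / δ ^ 2 / 2 * Real.sqrt r * (g x - gbar V g r θ) ^ 2 :=
      (Tame2.const _).mul T2
    refine s1.trans ((EP_mono h r T1 (tF.tame2_left.add (T3.add (Tame2.const _))) s2).trans ?_)
    rw [EP_add h r tF.tame2_left (T3.add (Tame2.const _)), EP_add h r T3 (Tame2.const _),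
      EP_left h r tF, EP_const_mul, EP_const h, show ex V (fun x => grad2 g x / g x) = Fish V g
      from rfl]
    have e : Real.sqrt r * (EP V r fun x θ => (g x - gbar V g r θ) ^ 2)
        ≤ K * (Real.sqrt r)⁻¹ := by
      rw [le_mul_inv_iff₀ hsq]
      calc Real.sqrt r * (EP V r fun x θ => (g x - gbar V g r θ) ^ 2) * Real.sqrt r
          = Real.sqrt r * Real.sqrt r * (EP V r fun x θ => (g x - gbar V g r θ) ^ 2) := by ring
        _ ≤ K := by rw [Real.mul_self_sqrt hr0.le]; exact s3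
    have h5 := mul_le_mul_of_nonneg_left e (by positivity : 0 ≤ K / δ ^ 2 / 2)
    linarith
  have hlim : Filter.Tendsto
      (fun r => Fish V g + K / δ ^ 2 * ((K + 1) / 2) * (Real.sqrt r)⁻¹)
      Filter.atTop (nhds (Fish V g)) := by
    simpa using ((tendsto_inv_atTop_zero.comp Real.tendsto_sqrt_atTop).const_mul
      (K / δ ^ 2 * ((K + 1) / 2))).const_add (Fish V g)
  exact ge_of_tendsto hlim (Filter.eventually_atTop.2 ⟨t, hbd⟩)

end Vale.P245.Cube
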