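import Vale.Agent.P245.Cube.Defs
import Vale.Agent.P254.Skew.Exist

/-! # Expectations over the channel -/

namespace Vale.P245.Cube

open MeasureTheory Filter Topology Vale.P254.Skew

variable {n : ℕ} {V : E n → ℝ} {ε Λ : ℝ}

theorem gam_eq : (gam : E n → ℝ) = fun z => (1 : ℝ) / 2 * ‖z‖ ^ 2 := by
  funext z; simp only [gam]; ring

theorem pinched_gam : Pinched (gam : E n → ℝ) 1 1 := by
  rw [gam_eq]
  exact pinched_quad one_pos one_pos le_rfl le_rfl

theorem Ws_zero (V : E n → ℝ) : Ws V 0 = V := by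
  funext x; simp [Ws]

theorem Reg.pin_Ws (h : Reg V ε Λ) {s : ℝ} (hs : 0 ≤ s) :
    Pinched (Ws V s) (ε + s) (Λ + s) := by
  rcases hs.eq_or_lt with rfl | hs'
  · simpa [Ws_zero] using h.pin
  · exact h.pin.sum2 (pinched_quad hs' hs' le_rfl le_rfl)

theorem Reg.pin_tilt (h : Reg V ε Λ) {s : ℝ} (hs : 0 ≤ s) (θ : E n) :
    Pinched (tilt (Ws V s) θ) (ε + s) (Λ + s) :=
  (h.pin_Ws hs).tilt θ

theorem tame_weight (N : ℕ) : Tame fun x : E n => (1 + ‖x‖) ^ N :=
  ((Tame.const 1).add tame_id.norm).pow N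

theorem tilt_zero (W : E n → ℝ) : tilt W 0 = W := by
  funext x; simp [tilt]

/-! ## Closure of `Nice` -/

theorem Nice.tame {F : ℝ → E n → ℝ} (hF : Nice F) {s : ℝ} (hs : 0 ≤ s) : Tame (F s) := by
  obtain ⟨C, N, hC⟩ := hF.poly s
  refine ⟨?_, C, N, fun θ => hC s ⟨hs, le_rfl⟩ θ⟩
  exact hF.cont.comp_continuous (f := fun θ : E n => (s, θ)) (by fun_prop) fun θ => ⟨hs, trivial⟩

theorem Nice.const (r : ℝ) : Nice (fun _ (_ : E n) => r) :=
  ⟨continuousOn_const, fun _ => ⟨|r|, 0, fun _ _ _ => by simp⟩⟩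

/-- The bound with a nonnegative constant and a larger degree. -/
theorem poly_weaken {a C : ℝ} {N M : ℕ} (θ : E n) (h : a ≤ C * (1 + ‖θ‖) ^ N) (hM : N ≤ M) :
    a ≤ max C 0 * (1 + ‖θ‖) ^ M :=
  h.trans (mul_le_mul (le_max_left _ _) (pow_le_pow_right₀ (by linarith [norm_nonneg θ]) hM)
    (by positivity) (le_max_right _ _))

theorem Nice.add {F F' : ℝ → E n → ℝ} (hF : Nice F) (hF' : Nice F') :
    Nice fun s θ => F s θ + F' s θ := by
  refine ⟨hF.cont.add hF'.cont, fun T => ?_⟩
  obtain ⟨C, N, hC⟩ := hF.poly T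
  obtain ⟨D, M, hD⟩ := hF'.poly T
  refine ⟨max C 0 + max D 0, max N M, fun s hs θ => ?_⟩
  rw [add_mul]
  exact (abs_add_le _ _).trans (add_le_add (poly_weaken θ (hC s hs θ) (le_max_left _ _))
    (poly_weaken θ (hD s hs θ) (le_max_right _ _)))

theorem Nice.mul {F F' : ℝ → E n → ℝ} (hF : Nice F) (hF' : Nice F') :
    Nice fun s θ => F s θ * F' s θ := by
  refine ⟨hF.cont.mul hF'.cont, fun T => ?_⟩
  obtain ⟨C, N, hC⟩ := hF.poly T
  obtain ⟨D, M, hD⟩ := hF'.poly T
  refine ⟨max C 0 * max D 0, N + M, fun s hs θ => ?_⟩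
  rw [abs_mul, pow_add, mul_mul_mul_comm]
  exact mul_le_mul (poly_weaken θ (hC s hs θ) le_rfl) (poly_weaken θ (hD s hs θ) le_rfl)
    (abs_nonneg _) (by positivity)

theorem Nice.const_mul (r : ℝ) {F : ℝ → E n → ℝ} (hF : Nice F) : Nice fun s θ => r * F s θ :=
  (Nice.const r).mul hF

theorem Nice.sum {ι : Type} (t : Finset ι) {F : ι → ℝ → E n → ℝ} (hF : ∀ i ∈ t, Nice (F i)) :
    Nice fun s θ => ∑ i ∈ t, F i s θ := by
  classical
  induction t using Finset.induction_on with
  | empty => simpa using Nice.const (n := n) 0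
  | insert i t hi ih =>
    simp only [Finset.sum_insert hi]
    exact (hF i (Finset.mem_insert_self i t)).add
      (ih fun j hj => hF j (Finset.mem_insert_of_mem hj))

/-! ## Posterior moments -/

theorem exp_Ws (s : ℝ) (θ x : E n) :
    Real.exp (-tilt (Ws V s) θ x)
      = Real.exp (-tilt V θ x) * Real.exp (-(s / 2 * ‖x‖ ^ 2)) := by
  rw [← Real.exp_add]
  simp only [tilt, Ws]
  ring_nf

/-- The posterior is the time-zero posterior reweighted. -/
theorem cE_eq (h : Reg V ε Λ) (s : ℝ) (θ : E n) (f : E n → ℝ) :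
    cE V s θ f = ex (tilt V θ) (fun x => Real.exp (-(s / 2 * ‖x‖ ^ 2)) * f x)
      / ex (tilt V θ) (fun x => Real.exp (-(s / 2 * ‖x‖ ^ 2))) := by
  have hz := (h.pin.tilt θ).zc_pos
  simp only [cE, ex, smul_eq_mul, Zc, exp_Ws, mul_assoc] at hz ⊢
  rw [mul_div_mul_left _ _ (inv_ne_zero hz.ne')]
  exact (div_eq_inv_mul _ _).symm

/-- Posterior radial moments decrease in time, as the weight decreases in the radius. -/
theorem cE_weight_le (h : Reg V ε Λ) (N : ℕ) {s : ℝ} (hs : 0 ≤ s) (θ : E n) :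
    cE V s θ (fun x => (1 + ‖x‖) ^ N) ≤ ex (tilt V θ) (fun x => (1 + ‖x‖) ^ N) := by
  rcases Nat.eq_zero_or_pos N with rfl | hN
  · simp [cE, (h.pin_tilt hs θ).ex_const, (h.pin.tilt θ).ex_const]
  have hp := h.pin.tilt θ
  set φ : E n → ℝ := fun x => (1 + ‖x‖) ^ N with hφ
  set w : E n → ℝ := fun x => Real.exp (-(s / 2 * ‖x‖ ^ 2))
  have tφ : Tame φ := tame_weight N
  have tw : Tame w := Tame.bounded (by fun_prop) (C := 1) fun x => by
    rw [Real.norm_eq_abs, abs_of_pos (Real.exp_pos _), Real.exp_le_one_iff]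
    exact neg_nonpos.2 (by positivity)
  set m := ex (tilt V θ) φ with hm
  have h1 : (1 : ℝ) ≤ m := (hp.ex_const 1).ge.trans
    (hp.ex_mono (Tame.const 1) tφ fun x => one_le_pow₀ (by linarith [norm_nonneg x]))
  set r := m ^ ((N : ℝ)⁻¹) - 1 with hr
  have hr0 : 0 ≤ r := sub_nonneg.2 (Real.one_le_rpow h1 (by positivity))
  have hrm : (1 + r) ^ N = m := by
    rw [hr, add_sub_cancel, Real.rpow_inv_natCast_pow (by linarith) hN.ne']
  set w₀ := Real.exp (-(s / 2 * r ^ 2))
  have hpt : ∀ x, (φ x - m) * (w x - w₀) ≤ 0 := fun x => by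
    rcases le_total ‖x‖ r with hle | hle
    · refine mul_nonpos_of_nonpos_of_nonneg ?_ ?_
      · rw [sub_nonpos, ← hrm, hφ]
        exact pow_le_pow_left₀ (by positivity) (by linarith) N
      · exact sub_nonneg.2 (Real.exp_le_exp.2 (neg_le_neg (by gcongr)))
    · refine mul_nonpos_of_nonneg_of_nonpos ?_ ?_
      · rw [sub_nonneg, ← hrm, hφ]
        exact pow_le_pow_left₀ (by positivity) (by linarith) N
      · exact sub_nonpos.2 (Real.exp_le_exp.2 (neg_le_neg (by gcongr)))
  have key : ex (tilt V θ) (fun x => w x * φ x) - m * ex (tilt V θ) w ≤ 0 := by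
    have e : ex (tilt V θ) (fun x => w x * φ x - m * w x - (w₀ * φ x - w₀ * m))
        = ex (tilt V θ) (fun x => w x * φ x) - m * ex (tilt V θ) w := by
      rw [hp.ex_sub ((tw.mul tφ).sub (tw.const_mul m)) ((tφ.const_mul w₀).sub (Tame.const _)),
        hp.ex_sub (tw.mul tφ) (tw.const_mul m), hp.ex_sub (tφ.const_mul w₀) (Tame.const _),
        ex_const_mul, ex_const_mul, hp.ex_const, ← hm]
      ring
    rw [← e]
    refine (hp.ex_mono (((tw.mul tφ).sub (tw.const_mul m)).sub
      ((tφ.const_mul w₀).sub (Tame.const _))) (Tame.const 0) fun x => ?_).trans_eq (hp.ex_const 0)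
    linarith [hpt x]
  have hpos : 0 < ex (tilt V θ) w := by
    refine mul_pos (inv_pos.2 hp.zc_pos) ?_
    have hi : Integrable fun x => Real.exp (-tilt V θ x + -(s / 2 * ‖x‖ ^ 2)) := by
      simp only [Real.exp_add]
      simpa using hp.integrable tw
    refine (integral_exp_pos hi).trans_eq (integral_congr_ae (Eventually.of_forall fun x => ?_))
    exact Real.exp_add _ _
  rw [cE_eq h, div_le_iff₀ hpos]
  linarith

/-- Posterior moments, uniformly in time. -/
theorem exists_cE_moment (h : Reg V ε Λ) (N : ℕ) (T : ℝ) :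
    ∃ C : ℝ, 0 ≤ C ∧ ∀ s ∈ Set.Icc 0 T, ∀ θ,
      cE V s θ (fun x => (1 + ‖x‖) ^ N) ≤ C * (1 + ‖θ‖) ^ N := by
  obtain ⟨C, hC0, hC⟩ := exists_moment_bound h.pin h.posΛ N
  exact ⟨C, hC0, fun s hs θ => (cE_weight_le h N hs.1 θ).trans (hC θ)⟩

theorem abs_ex_le {W : E n → ℝ} {a b : ℝ} (h : Pinched W a b) {f : E n → ℝ} (hf : Tame f) :
    |ex W f| ≤ ex W fun x => |f x| := by
  rw [abs_le, ← ex_neg]
  exact ⟨h.ex_mono hf.norm.neg hf fun x => neg_abs_le _,
    h.ex_mono hf hf.norm fun x => le_abs_self _⟩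

/-- Unnormalised posterior integrals are continuous in time and `θ`. -/
theorem continuous_integral (h : Reg V ε Λ) {f : E n → ℝ} (hf : Tame f) :
    Continuous fun p : ℝ × E n => ∫ x, Real.exp (-tilt (Ws V (max p.1 0)) p.2 x) * f x := by
  refine continuous_iff_continuousAt.2 fun p₀ => ?_
  obtain ⟨D, hD⟩ := h.pin.gauss_bound hf (‖p₀.2‖ + 1)
  refine continuousAt_of_dominated (bound := fun x => D * Real.exp (-(ε / 4) * ‖x‖ ^ 2))
    (Eventually.of_forall fun p => ?_) ?_
    ((integrable_gauss (by linarith [h.pin.pos])).const_mul D)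
    (Eventually.of_forall fun x => ?_)
  · exact ((h.pin_tilt (le_max_right p.1 0) p.2).integrable hf).aestronglyMeasurable
  · filter_upwards [Metric.ball_mem_nhds p₀ one_pos] with p hp
    refine Eventually.of_forall fun x => le_trans ?_ (hD x)
    rw [norm_mul, Real.norm_of_nonneg (Real.exp_pos _).le]
    refine mul_le_mul_of_nonneg_right (Real.exp_le_exp.2 ?_) (norm_nonneg _)
    have hp' : ‖p.2‖ ≤ ‖p₀.2‖ + 1 := by
      rw [Metric.mem_ball, dist_eq_norm] at hp
      have h1 : ‖p.2 - p₀.2‖ ≤ ‖p - p₀‖ := norm_snd_le (p - p₀)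
      linarith [norm_le_norm_add_norm_sub' p.2 p₀.2]
    have h2 := real_inner_le_norm p.2 x
    have h3 := mul_le_mul_of_nonneg_right hp' (norm_nonneg x)
    have h4 : 0 ≤ max p.1 0 / 2 * ‖x‖ ^ 2 := by positivity
    simp only [tilt, Ws]
    linarith
  · refine Continuous.continuousAt ?_
    simp only [tilt, Ws]
    fun_prop

theorem nice_cE (h : Reg V ε Λ) {f : E n → ℝ} (hf : Tame f) :
    Nice fun s θ => cE V s θ f := by
  refine ⟨?_, fun T => ?_⟩
  · have hz : Continuous fun p : ℝ × E n => Zc (tilt (Ws V (max p.1 0)) p.2) := by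
      simpa [Zc] using continuous_integral h (Tame.const (1 : ℝ))
    have hc := (hz.inv₀ fun p => (h.pin_tilt (le_max_right _ _) _).zc_pos.ne').mul
      (continuous_integral h hf)
    refine hc.continuousOn.congr fun p hp => ?_
    simp only [Function.uncurry, cE, ex, smul_eq_mul, Pi.mul_apply, Pi.inv_apply, max_eq_left hp.1.out]
  · obtain ⟨hc, C, N, hC⟩ := hf
    obtain ⟨D, hD0, hD⟩ := exists_cE_moment h N T
    refine ⟨max C 0 * D, N, fun s hs θ => ?_⟩
    have hp := h.pin_tilt hs.1 θ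
    have hf : Tame f := ⟨hc, C, N, hC⟩
    have hle : ∀ x, |f x| ≤ max C 0 * (1 + ‖x‖) ^ N := fun x =>
      poly_weaken x ((Real.norm_eq_abs _).symm.trans_le (hC x)) le_rfl
    refine (abs_ex_le hp hf).trans ((hp.ex_mono hf.norm ((tame_weight N).const_mul _) hle).trans ?_)
    rw [ex_const_mul, mul_assoc]
    exact mul_le_mul_of_nonneg_left (hD s hs θ) (le_max_right _ _)

theorem nice_covF (h : Reg V ε Λ) {f f' : E n → ℝ} (hf : Tame f) (hf' : Tame f') :
    Nice fun s θ => covF V s θ f f' := by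
  simp only [covF, sub_eq_add_neg, ← neg_one_mul (_ * _)]
  exact (nice_cE h (hf.mul hf')).add (((nice_cE h hf).mul (nice_cE h hf')).const_mul (-1))

theorem nice_mC (h : Reg V ε Λ) (i : Fin n) : Nice fun s θ => mC V s θ i :=
  nice_cE h (tame_coord i)

/-! ## Expectations over the channel -/

theorem tame2_channel {G : E n → E n → ℝ} (hG : Tame2 G) (s : ℝ) :
    Tame2 fun x z => G x (s • x + Real.sqrt s • z) := by
  obtain ⟨hc, C, N, hC0, hC⟩ := hG
  set K := 1 + |s| + Real.sqrt s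
  have hK : 0 ≤ K := by positivity
  refine ⟨hc.comp (f := fun p : E n × E n => (p.1, s • p.1 + Real.sqrt s • p.2)) (by fun_prop),
    C * K ^ N, 2 * N, by positivity, fun x z => (hC x _).trans ?_⟩
  rw [mul_assoc, pow_mul, ← mul_pow K]
  refine mul_le_mul_of_nonneg_left (pow_le_pow_left₀ (by positivity) ?_ N) hC0
  have h1 : 1 + ‖s • x + Real.sqrt s • z‖ ≤ K * ((1 + ‖x‖) * (1 + ‖z‖)) := by
    refine (add_le_add_right (norm_add_le _ _) 1).trans ?_
    rw [norm_smul, norm_smul, Real.norm_eq_abs, Real.norm_eq_abs,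
      abs_of_nonneg (Real.sqrt_nonneg s)]
    nlinarith [norm_nonneg x, norm_nonneg z, abs_nonneg s, Real.sqrt_nonneg s,
      mul_nonneg (norm_nonneg x) (norm_nonneg z)]
  calc (1 + ‖x‖) * (1 + ‖s • x + Real.sqrt s • z‖)
      ≤ (1 + ‖x‖) * (K * ((1 + ‖x‖) * (1 + ‖z‖))) := by gcongr
    _ ≤ ((1 + ‖x‖) * (1 + ‖z‖)) * (K * ((1 + ‖x‖) * (1 + ‖z‖))) := by
        gcongr
        exact le_mul_of_one_le_right (by positivity) (by linarith [norm_nonneg z])
    _ = _ := by ring

theorem tame_GE (s : ℝ) {G : E n → E n → ℝ} (hG : Tame2 G) :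
    Tame fun x => GE fun z => G x (s • x + Real.sqrt s • z) := by
  have := tame_cond (pinched_gam (n := n)) one_pos 0 (tame2_channel hG s)
  simpa [GE, tilt_zero] using this

theorem EP_add (h : Reg V ε Λ) (s : ℝ) {G G' : E n → E n → ℝ} (hG : Tame2 G) (hG' : Tame2 G') :
    EP V s (fun x θ => G x θ + G' x θ) = EP V s G + EP V s G' := by
  simp only [EP]
  rw [← h.pin.ex_add (tame_GE s hG) (tame_GE s hG')]
  exact ex_congr fun x =>
    pinched_gam.ex_add ((tame2_channel hG s).section_right x) ((tame2_channel hG' s).section_right x)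

theorem EP_sub (h : Reg V ε Λ) (s : ℝ) {G G' : E n → E n → ℝ} (hG : Tame2 G) (hG' : Tame2 G') :
    EP V s (fun x θ => G x θ - G' x θ) = EP V s G - EP V s G' := by
  simp only [EP]
  rw [← h.pin.ex_sub (tame_GE s hG) (tame_GE s hG')]
  exact ex_congr fun x =>
    pinched_gam.ex_sub ((tame2_channel hG s).section_right x) ((tame2_channel hG' s).section_right x)

theorem EP_const_mul (V : E n → ℝ) (s r : ℝ) (G : E n → E n → ℝ) :
    EP V s (fun x θ => r * G x θ) = r * EP V s G := by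
  simp only [EP, GE, ex_const_mul]

theorem EP_sum (h : Reg V ε Λ) (s : ℝ) {ι : Type} (t : Finset ι) {G : ι → E n → E n → ℝ}
    (hG : ∀ i ∈ t, Tame2 (G i)) :
    EP V s (fun x θ => ∑ i ∈ t, G i x θ) = ∑ i ∈ t, EP V s (G i) := by
  simp only [EP]
  rw [← h.pin.ex_sum t fun i hi => tame_GE s (hG i hi)]
  exact ex_congr fun x =>
    pinched_gam.ex_sum t fun i hi => (tame2_channel (hG i hi) s).section_right x

theorem EP_mono (h : Reg V ε Λ) (s : ℝ) {G G' : E n → E n → ℝ} (hG : Tame2 G) (hG' : Tame2 G')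
    (hle : ∀ x θ, G x θ ≤ G' x θ) : EP V s G ≤ EP V s G' :=
  h.pin.ex_mono (tame_GE s hG) (tame_GE s hG') fun x =>
    pinched_gam.ex_mono ((tame2_channel hG s).section_right x)
      ((tame2_channel hG' s).section_right x) fun _ => hle x _

theorem EP_left (_h : Reg V ε Λ) (s : ℝ) {f : E n → ℝ} (_hf : Tame f) :
    EP V s (fun x _ => f x) = ex V f :=
  ex_congr fun x => pinched_gam.ex_const (f x)

theorem EP_zero (V : E n → ℝ) (G : E n → E n → ℝ) : EP V 0 G = ex V fun x => G x 0 := by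
  refine ex_congr fun x => ?_
  simp only [Real.sqrt_zero, zero_smul, add_zero]
  exact pinched_gam.ex_const (G x 0)

theorem tame_cE_pair (h : Reg V ε Λ) {s : ℝ} (hs : 0 ≤ s) {G : E n → E n → ℝ} (hG : Tame2 G) :
    Tame fun θ => cE V s θ fun x => G x θ := by
  simpa [cE] using tame_cond (h.pin_Ws hs) (by linarith [h.posΛ]) 1 hG.swap

theorem integral_affine (a : E n) (c : ℝ) (f : E n → ℝ) :
    ∫ z, f (a + c • z) = |(c ^ n)⁻¹| * ∫ θ, f θ := by
  rw [Measure.integral_comp_smul volume (fun y => f (a + y)) c, integral_add_left_eq_self f a,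
    finrank_euclideanSpace_fin, smul_eq_mul]

/-- The joint density of the channel, in the translated variable. -/
theorem joint_eq {s : ℝ} (hs : 0 < s) (x z : E n) :
    Real.exp (-tilt (Ws V s) (s • x + Real.sqrt s • z) x)
        * Real.exp (-(‖s • x + Real.sqrt s • z‖ ^ 2 / (2 * s)))
      = Real.exp (-V x) * Real.exp (-gam z) := by
  rw [← Real.exp_add, ← Real.exp_add]
  congr 1
  have hr := Real.sq_sqrt hs.le
  simp only [tilt, Ws, gam, norm_add_sq_real, inner_add_left, real_inner_smul_left,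
    real_inner_smul_right, norm_smul, mul_pow, Real.norm_eq_abs, sq_abs, hr,
    real_inner_self_eq_norm_sq, real_inner_comm x z]
  field_simp
  ring

/-- The channel as an integral over `θ`. -/
theorem EP_swap (h : Reg V ε Λ) {s : ℝ} (hs : 0 < s) {G : E n → E n → ℝ} (hG : Tame2 G) :
    EP V s G = (Zc (gam : E n → ℝ))⁻¹ * |(Real.sqrt s ^ n)⁻¹| *
      ∫ θ, Real.exp (-(‖θ‖ ^ 2 / (2 * s))) * Zc (tilt (Ws V s) θ) * cE V s θ fun x => G x θ := by
  let P : E n → E n → (E n → E n → ℝ) → ℝ := fun x θ H =>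
    Real.exp (-tilt (Ws V s) θ x) * Real.exp (-(‖θ‖ ^ 2 / (2 * s))) * H x θ
  set b := |(Real.sqrt s ^ n)⁻¹| with hb
  have hsq : Real.sqrt s ≠ 0 := (Real.sqrt_pos.2 hs).ne'
  have hb0 : b ≠ 0 := abs_ne_zero.2 (inv_ne_zero (pow_ne_zero _ hsq))
  have hsub : ∀ (H : E n → E n → ℝ) x, b * ∫ θ, P x θ H
      = Real.exp (-V x) * ∫ z, Real.exp (-gam z) * H x (s • x + Real.sqrt s • z) := by
    intro H x
    rw [hb, ← integral_affine (s • x) (Real.sqrt s) (fun θ => P x θ H), ← integral_const_mul]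
    refine integral_congr_ae (Eventually.of_forall fun z => ?_)
    simp only [P]
    rw [joint_eq hs, mul_assoc]
  have hint : Integrable (fun p : E n × E n => P p.1 p.2 G) (volume.prod volume) := by
    have hc : Continuous fun p : E n × E n => P p.1 p.2 G := by
      have := hG.1
      have := h.pin.continuous
      simp only [P, tilt, Ws]
      exact (by fun_prop : Continuous fun p : E n × E n =>
        Real.exp (-(V p.1 + s / 2 * ‖p.1‖ ^ 2 - inner ℝ p.2 p.1))
          * Real.exp (-(‖p.2‖ ^ 2 / (2 * s)))).mul hG.1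
    refine (integrable_prod_iff hc.aestronglyMeasurable).2 ⟨Eventually.of_forall fun x => ?_, ?_⟩
    · have h1 := (pinched_gam (n := n)).integrable ((tame2_channel hG s).section_right x)
      have h2 : Integrable fun z : E n => P x (s • x + Real.sqrt s • z) G := by
        refine (h1.const_mul (Real.exp (-V x))).congr (Eventually.of_forall fun z => ?_)
        simp only [P, smul_eq_mul]
        rw [joint_eq hs, mul_assoc]
      have h3 := (integrable_comp_smul_iff volume (fun y => P x (s • x + y) G) hsq).1 h2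
      simpa using h3.comp_add_left (-(s • x))
    · refine ((h.pin.integrable (tame_GE s hG.abs)).const_mul (Zc (gam : E n → ℝ) / b)).congr
        (Eventually.of_forall fun x => ?_)
      have e : ∀ θ, ‖P x θ G‖ = P x θ fun x θ => |G x θ| := fun θ => by
        simp [P, abs_of_pos (Real.exp_pos _)]
      simp only [e]
      refine mul_left_cancel₀ hb0 ?_
      refine Eq.trans ?_ (hsub (fun x θ => |G x θ|) x).symm
      simp only [GE, ex, smul_eq_mul]
      field_simp [(pinched_gam (n := n)).zc_pos.ne']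
  have e1 : EP V s G = (Zc (gam : E n → ℝ))⁻¹ * b * ∫ x, ∫ θ, P x θ G := by
    simp only [EP, ex, GE, h.mass, inv_one, one_mul, smul_eq_mul]
    rw [mul_assoc, ← integral_const_mul, ← integral_const_mul]
    refine integral_congr_ae (Eventually.of_forall fun x => ?_)
    simp only [hsub]
    ring
  rw [e1, integral_integral_swap hint]
  congr 1
  refine integral_congr_ae (Eventually.of_forall fun θ => ?_)
  simp only [P, cE, ex, smul_eq_mul, ← mul_assoc]
  rw [mul_inv_cancel_right₀ ((h.pin_tilt hs.le θ).zc_pos.ne'), ← integral_const_mul]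
  refine integral_congr_ae (Eventually.of_forall fun x => ?_)
  simp only
  ring

/-- Conditioning on `θ`: translate `z` by `√s x` and exchange the integrals. -/
theorem EP_cond (h : Reg V ε Λ) {s : ℝ} (hs : 0 ≤ s) {G : E n → E n → ℝ} (hG : Tame2 G) :
    EP V s G = EP V s (fun _ θ => cE V s θ fun x => G x θ) := by
  rcases hs.eq_or_lt with rfl | hs'
  · rw [EP_zero, EP_zero, h.pin.ex_const]
    simp [cE, Ws_zero, tilt_zero]
  · rw [EP_swap h hs' hG, EP_swap h hs' (tame_cE_pair h hs hG).tame2_right]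
    congr 1
    refine integral_congr_ae (Eventually.of_forall fun θ => ?_)
    exact congrArg _ ((h.pin_tilt hs θ).ex_const _).symm

end Vale.P245.Cube
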