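import Vale.Agent.P254.Skew.Moments

/-! # The Gaussian channel of a log-concave law: definitions

The law proportional to `exp (-V)` is observed through `θ = s x + √s z`, `z` standard Gaussian. -/

namespace Vale.P245.Cube

open MeasureTheory Vale.P254.Skew

variable {n : ℕ}

/-- The standard Gaussian potential. -/
noncomputable def gam : E n → ℝ := fun z => ‖z‖ ^ 2 / 2

/-- The standard Gaussian expectation. -/
noncomputable def GE (F : E n → ℝ) : ℝ := ex gam F

/-- The untilted posterior potential at time `s`. -/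
noncomputable def Ws (V : E n → ℝ) (s : ℝ) : E n → ℝ := fun x => V x + s / 2 * ‖x‖ ^ 2

/-- The posterior expectation. -/
noncomputable def cE (V : E n → ℝ) (s : ℝ) (θ : E n) (f : E n → ℝ) : ℝ :=
  ex (tilt (Ws V s) θ) f

/-- The posterior covariance of two functions. -/
noncomputable def covF (V : E n → ℝ) (s : ℝ) (θ : E n) (f g : E n → ℝ) : ℝ :=
  cE V s θ (fun x => f x * g x) - cE V s θ f * cE V s θ g

/-- The posterior mean. -/
noncomputable def mC (V : E n → ℝ) (s : ℝ) (θ : E n) (i : Fin n) : ℝ :=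
  cE V s θ (fun x => x i)

/-- The posterior covariance matrix. -/
noncomputable def Am (V : E n → ℝ) (s : ℝ) (θ : E n) : Matrix (Fin n) (Fin n) ℝ :=
  Matrix.of fun i j => covF V s θ (fun x => x i) (fun x => x j)

/-- The expectation of `G x θ` over the channel at time `s`. -/
noncomputable def EP (V : E n → ℝ) (s : ℝ) (G : E n → E n → ℝ) : ℝ :=
  ex V fun x => GE fun z => G x (s • x + Real.sqrt s • z)

/-- Continuous, of polynomial growth in `θ` locally uniformly in time. -/
structure Nice (F : ℝ → E n → ℝ) : Prop where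
  cont : ContinuousOn (Function.uncurry F) (Set.Ici 0 ×ˢ Set.univ)
  poly : ∀ T : ℝ, ∃ (C : ℝ) (N : ℕ), ∀ s ∈ Set.Icc 0 T, ∀ θ, |F s θ| ≤ C * (1 + ‖θ‖) ^ N

/-- A function of time and `θ` with its first and diagonal second space derivatives and its time
derivative. -/
structure Calc (F : ℝ → E n → ℝ) (F1 F2 : Fin n → ℝ → E n → ℝ) (Ft : ℝ → E n → ℝ) : Prop where
  nice : Nice F
  nice1 : ∀ l, Nice (F1 l)
  nice2 : ∀ l, Nice (F2 l)
  niceT : Nice Ft
  smooth : ∀ s, 0 ≤ s → ContDiff ℝ 2 (F s)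
  d1 : ∀ s, 0 ≤ s → ∀ θ l, fderiv ℝ (F s) θ (bv l) = F1 l s θ
  d2 : ∀ s, 0 ≤ s → ∀ θ l, D2 (F s) θ (bv l) (bv l) = F2 l s θ
  dt : ∀ s, 0 < s → ∀ (γ : ℝ → E n) (γ' : E n), HasDerivAt γ γ' s →
    HasDerivAt (fun r => F r (γ r)) (Ft s (γ s) + ∑ l, F1 l s (γ s) * γ' l) s

/-- The generator of the channel. -/
noncomputable def gen (V : E n → ℝ) (F1 F2 : Fin n → ℝ → E n → ℝ) (Ft : ℝ → E n → ℝ)
    (s : ℝ) (θ : E n) : ℝ :=
  Ft s θ + (∑ l, mC V s θ l * F1 l s θ) + (∑ l, F2 l s θ) / 2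

/-- Linear subgaussianity at scale one. -/
def Sub (V : E n → ℝ) : Prop :=
  ∀ v : E n, ‖v‖ = 1 → Integrable (fun x => Real.exp (-V x) * Real.exp (inner ℝ x v ^ 2)) ∧
    ex V (fun x => Real.exp (inner ℝ x v ^ 2)) ≤ 2

/-- A regular probability potential, centred. -/
structure Reg (V : E n → ℝ) (ε Λ : ℝ) : Prop where
  pin : Pinched V ε Λ
  posΛ : 0 < Λ
  mass : Zc V = 1
  mean : ∀ v : E n, ex V (fun x => inner ℝ x v) = 0

/-- A probability density with respect to `V`: smooth, bounded above and below, bounded gradient. -/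
structure Dens (V : E n → ℝ) (g : E n → ℝ) : Prop where
  smooth : ContDiff ℝ 1 g
  lower : ∃ δ : ℝ, 0 < δ ∧ ∀ x, δ ≤ g x
  upper : ∃ M : ℝ, ∀ x, g x ≤ M
  lip : ∃ L : ℝ, ∀ x, ‖fderiv ℝ g x‖ ≤ L
  mass : ex V g = 1

/-- The entropy of the density. -/
noncomputable def Hent (V g : E n → ℝ) : ℝ := ex V fun x => g x * Real.log (g x)

/-- The Fisher information of the density. -/
noncomputable def Fish (V g : E n → ℝ) : ℝ :=
  ex V fun x => (∑ i, fderiv ℝ g x (bv i) ^ 2) / g x

/-- The posterior mass of the density. -/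
noncomputable def gbar (V g : E n → ℝ) (s : ℝ) (θ : E n) : ℝ := cE V s θ g

/-- The posterior relative entropy. -/
noncomputable def KLs (V g : E n → ℝ) (s : ℝ) (θ : E n) : ℝ :=
  cE V s θ (fun x => g x * Real.log (g x)) / gbar V g s θ - Real.log (gbar V g s θ)

/-- The squared shift of the posterior mean. -/
noncomputable def wsq (V g : E n → ℝ) (s : ℝ) (θ : E n) : ℝ :=
  ∑ i, (covF V s θ (fun x => x i) g / gbar V g s θ) ^ 2

/-- The entropy gained by time `s`. -/
noncomputable def Dfun (V g : E n → ℝ) (s : ℝ) : ℝ :=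
  EP V s fun _ θ => gbar V g s θ * Real.log (gbar V g s θ)

/-- All eigenvalues at most `κ`, as quadratic forms. -/
def OpLe (A : Matrix (Fin n) (Fin n) ℝ) (κ : ℝ) : Prop :=
  ∀ v : Fin n → ℝ, dotProduct v (A.mulVec v) ≤ κ * dotProduct v v

/-- The exponent of the trace potential. -/
noncomputable def qn (n : ℕ) : ℕ := ⌈Real.log n⌉₊ + 2

/-- The trace potential. -/
noncomputable def Ypot (V : E n → ℝ) (s : ℝ) (θ : E n) : ℝ :=
  ((Am V s θ) ^ qn n).trace ^ (1 / (qn n : ℝ))

/-- A continuous indicator of a large trace potential. -/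
noncomputable def chi (V : E n → ℝ) (s : ℝ) (θ : E n) : ℝ :=
  min 1 (max 0 (20 * (Ypot V s θ / (1 + Ypot V s θ) - 17 / 20)))

/-- The excess of the squared norm of `θ`. -/
noncomputable def excess (s : ℝ) (θ : E n) : ℝ := max 0 (‖θ‖ ^ 2 - 32 * s * n)

end Vale.P245.Cube
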