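import Vale.Agent.P245.Cube.Approx

/-! # The inequality for log-concave probability measures -/

namespace Vale.P245.Cube

open MeasureTheory Filter Topology Vale.P254.Skew
open scoped RealInnerProductSpace ENNReal ContDiff

variable {n : ℕ}

theorem sum_sq_apply (L : E n →L[ℝ] ℝ) : ∑ i, L (bv i) ^ 2 = ‖L‖ ^ 2 := by
  set v := (InnerProductSpace.toDual ℝ (E n)).symm L with hv
  have h1 : ∀ i, L (bv i) = v i := fun i => by
    rw [← inner_bv v i, hv, InnerProductSpace.toDual_symm_apply]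
  rw [← (InnerProductSpace.toDual ℝ (E n)).symm.norm_map L, ← hv, EuclideanSpace.norm_sq_eq]
  exact Finset.sum_congr rfl fun i _ => by rw [h1, Real.norm_eq_abs, sq_abs]

theorem lsi_withDensity {K : ℝ}
    (hK : ∀ (V : E n → ℝ) (ε Λ : ℝ), Reg V ε Λ → Sub V → ∀ f : E n → ℝ, ContDiff ℝ 1 f →
      (∃ M, ∀ x, |f x| ≤ M) → (∃ L, ∀ x, ‖fderiv ℝ f x‖ ≤ L) →
      Ent2 V f ≤ K * ex V (fun x => ∑ i, fderiv ℝ f x (bv i) ^ 2))
    {μ : Measure (E n)} [IsProbabilityMeasure μ] {ρ : E n → ℝ} (hm : Measurable ρ)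
    (h0 : ∀ x, 0 ≤ ρ x) (hc : ConcaveOn ℝ {x | 0 < ρ x} fun x => Real.log (ρ x))
    (hμ : μ = volume.withDensity fun x => ENNReal.ofReal (ρ x)) (hmean : ∫ x, x ∂μ = 0)
    {a : ℝ} (ha : 0 < a)
    (hsub : ∀ θ : E n, ‖θ‖ = 1 → ∫⁻ x, ENNReal.ofReal (Real.exp (⟪x, θ⟫ ^ 2 / a ^ 2)) ∂μ ≤ 2)
    {f : E n → ℝ} (hf : ContDiff ℝ 1 f) (hfs : HasCompactSupport f) :
    ∫ x, f x ^ 2 * Real.log (f x ^ 2) ∂μ - (∫ x, f x ^ 2 ∂μ) * Real.log (∫ x, f x ^ 2 ∂μ)
      ≤ K * a ^ 2 * ∫ x, ‖fderiv ℝ f x‖ ^ 2 ∂μ := by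
  have hmo : Measurable fun x => ENNReal.ofReal (ρ x) := hm.ennreal_ofReal
  have hmass : ∫ x, ρ x = 1 := by
    rw [integral_eq_lintegral_of_nonneg_ae (Eventually.of_forall h0) hm.aestronglyMeasurable,
      ← setLIntegral_univ, ← withDensity_apply _ MeasurableSet.univ, ← hμ, measure_univ,
      ENNReal.toReal_one]
  have h : LogDens ρ := ⟨h0, hm, hmass, hc⟩
  have conv : ∀ {F : Type} [NormedAddCommGroup F] [NormedSpace ℝ F] (G : E n → F),
      ∫ x, G x ∂μ = ∫ x, ρ x • G x := by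
    intro F _ _ G
    rw [hμ, integral_withDensity_eq_integral_toReal_smul hmo
      (Eventually.of_forall fun x => ENNReal.ofReal_lt_top)]
    simp only [ENNReal.toReal_ofReal (h0 _)]
  have hs : SubDens ρ a := fun v hv => by
    have hF : Measurable fun x : E n => Real.exp (⟪x, v⟫ ^ 2 / a ^ 2) := by fun_prop
    have hle := hsub v hv
    rw [hμ, lintegral_withDensity_eq_lintegral_mul _ hmo hF.ennreal_ofReal] at hle
    simp only [Pi.mul_apply, ← ENNReal.ofReal_mul (h0 _)] at hle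
    have hnn : ∀ x, 0 ≤ ρ x * Real.exp (⟪x, v⟫ ^ 2 / a ^ 2) :=
      fun x => mul_nonneg (h0 x) (Real.exp_pos _).le
    have hI : Integrable fun x => ρ x * Real.exp (⟪x, v⟫ ^ 2 / a ^ 2) :=
      ⟨(hm.mul hF).aestronglyMeasurable, (hasFiniteIntegral_iff_ofReal
        (Eventually.of_forall hnn)).2 (hle.trans_lt ENNReal.ofNat_lt_top)⟩
    refine ⟨hI, ?_⟩
    rw [integral_eq_lintegral_of_nonneg_ae (Eventually.of_forall hnn) hI.1]
    have := ENNReal.toReal_mono ENNReal.ofNat_ne_top hle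
    simpa using this
  have hint : Integrable fun x => ρ x • x := by
    refine (hs.integrable_norm h ha).mono' (hm.smul measurable_id).aestronglyMeasurable
      (Eventually.of_forall fun x => ?_)
    rw [norm_smul, Real.norm_of_nonneg (h0 x)]
    exact mul_le_mul_of_nonneg_left (by linarith [norm_nonneg x]) (h0 x)
  have hmi : ∀ i, ∫ x, ρ x * x i = 0 := fun i => by
    rw [conv fun x => x] at hmean
    have := (EuclideanSpace.proj (𝕜 := ℝ) i).integral_comp_comm hint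
    rw [hmean, map_zero] at this
    simpa using this
  have := approx_lsi hK h ha hmi hs hf hfs
  simp only [sum_sq_apply] at this
  simpa only [conv, smul_eq_mul] using this

theorem exists_lsi : ∃ C : ℝ, 0 < C ∧ ∀ n : ℕ, 1 ≤ n →
    ∀ μ : Measure (EuclideanSpace ℝ (Fin n)), IsProbabilityMeasure μ →
    ∀ ρ : EuclideanSpace ℝ (Fin n) → ℝ, Measurable ρ → (∀ x, 0 ≤ ρ x) →
    ConcaveOn ℝ {x | 0 < ρ x} (fun x => Real.log (ρ x)) →
    μ = volume.withDensity (fun x => ENNReal.ofReal (ρ x)) → ∫ x, x ∂μ = 0 →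
    ∀ a : ℝ, 0 < a →
    (∀ θ : EuclideanSpace ℝ (Fin n), ‖θ‖ = 1 →
      ∫⁻ x, ENNReal.ofReal (Real.exp (inner ℝ x θ ^ 2 / a ^ 2)) ∂μ ≤ 2) →
    ∀ f : EuclideanSpace ℝ (Fin n) → ℝ, ContDiff ℝ ∞ f → HasCompactSupport f →
      ∫ x, f x ^ 2 * Real.log (f x ^ 2) ∂μ - (∫ x, f x ^ 2 ∂μ) * Real.log (∫ x, f x ^ 2 ∂μ)
        ≤ C * (n : ℝ) ^ (1 / 3 : ℝ) * a ^ 2 * ∫ x, ‖fderiv ℝ f x‖ ^ 2 ∂μ := by
  obtain ⟨K, hK0, hK⟩ := exists_lsi_reg
  refine ⟨K, hK0, fun n hn μ hp ρ hm h0 hc hμ hmean a ha hsub f hf hfs => ?_⟩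
  exact lsi_withDensity (fun V ε Λ hR hS => hK n V ε Λ hn hR hS) hm h0 hc hμ hmean ha hsub
    (hf.of_le (mod_cast le_top)) hfs

end Vale.P245.Cube
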