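import Vale.Agent.P245.Cube.Smooth

/-! # The Gaussian smoothing converges -/

namespace Vale.P245.Cube

open MeasureTheory Filter Topology Vale.P254.Skew
open scoped RealInnerProductSpace ENNReal

variable {n : ℕ}

/-- The Gaussian kernel. -/
noncomputable def gker (z : E n) : ℝ := Real.exp (-(‖z‖ ^ 2 / 2))

/-- The integrand of the smoothed expectation in the variables `x = y + √δ z`. -/
noncomputable def smI (δ : ℝ) (ρ G : E n → ℝ) (p : E n × E n) : ℝ :=
  ρ p.1 * gker p.2 *
    (Real.exp (-(δ / 2 * ‖p.1 + Real.sqrt δ • p.2‖ ^ 2)) * G (p.1 + Real.sqrt δ • p.2))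

/-- The smoothed expectation, not normalised. -/
noncomputable def Jd (δ : ℝ) (ρ G : E n → ℝ) : ℝ := ∫ p, smI δ ρ G p

/-- `G` is dominated, after smoothing at scale `δ`, by a product of integrable functions. -/
structure Dom (δ : ℝ) (ρ G A B : E n → ℝ) : Prop where
  cont : Continuous G
  intA : Integrable fun y => ρ y * A y
  intB : Integrable fun z => gker z * B z
  bound : ∀ y z, |G (y + Real.sqrt δ • z)| ≤ A y * B z

theorem integrable_gker : Integrable (gker (n := n)) := by
  refine (integrable_gauss (k := n) (by norm_num : (0 : ℝ) < 1 / 2)).congr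
    (Eventually.of_forall fun z => ?_)
  simp only [gker]
  congr 1
  ring

theorem integrable_gker_exp {c : ℝ} (hc : c < 1 / 2) :
    Integrable fun z : E n => gker z * Real.exp (c * ‖z‖ ^ 2) := by
  refine (integrable_gauss (k := n) (by linarith : (0 : ℝ) < 1 / 2 - c)).congr
    (Eventually.of_forall fun z => ?_)
  simp only [gker, ← Real.exp_add]
  congr 1
  ring

theorem gker_pos (z : E n) : 0 < gker z := Real.exp_pos _

theorem integral_gker_pos : 0 < ∫ z : E n, gker z := integral_exp_pos integrable_gker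

theorem integrable_gker_linear : Integrable fun z : E n => gker z * (1 + ‖z‖) := by
  refine ((integrable_gker_exp (n := n) (by norm_num : (1 / 4 : ℝ) < 1 / 2)).const_mul 3).mono'
    (Continuous.aestronglyMeasurable (by unfold gker; fun_prop))
    (Eventually.of_forall fun z => ?_)
  rw [Real.norm_eq_abs, abs_of_nonneg (mul_nonneg (gker_pos z).le (by positivity)), mul_left_comm]
  refine mul_le_mul_of_nonneg_left ?_ (gker_pos z).le
  have := Real.add_one_le_exp (1 / 4 * ‖z‖ ^ 2)
  nlinarith [sq_nonneg (‖z‖ - 1), sq_nonneg ‖z‖, Real.exp_pos (1 / 4 * ‖z‖ ^ 2)]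

variable {ρ : E n → ℝ} {δ : ℝ} {G A B : E n → ℝ}

theorem abs_smI_le (h : LogDens ρ) (hδ : 0 ≤ δ)
    (hb : ∀ y z, |G (y + Real.sqrt δ • z)| ≤ A y * B z) (p : E n × E n) :
    |smI δ ρ G p| ≤ ρ p.1 * A p.1 * (gker p.2 * B p.2) := by
  have hρ := h.nonneg p.1
  have hg : 0 < gker p.2 := Real.exp_pos _
  rw [smI, abs_mul, abs_mul, abs_mul, Real.abs_exp, abs_of_nonneg hρ, abs_of_pos hg]
  calc ρ p.1 * gker p.2 * (Real.exp (-(δ / 2 * ‖p.1 + Real.sqrt δ • p.2‖ ^ 2))
        * |G (p.1 + Real.sqrt δ • p.2)|)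
      ≤ ρ p.1 * gker p.2 * (1 * (A p.1 * B p.2)) := by
        refine mul_le_mul_of_nonneg_left (mul_le_mul ?_ (hb _ _) (abs_nonneg _) zero_le_one)
          (by positivity)
        exact Real.exp_le_one_iff.2 (neg_nonpos.2 (by positivity))
    _ = _ := by ring

theorem measurable_smI (h : LogDens ρ) (hG : Continuous G) (δ : ℝ) :
    Measurable (smI δ ρ G) :=
  ((h.meas.comp measurable_fst).mul (by unfold gker; fun_prop)).mul
    (by fun_prop : Continuous fun p : E n × E n =>
      Real.exp (-(δ / 2 * ‖p.1 + Real.sqrt δ • p.2‖ ^ 2)) * G (p.1 + Real.sqrt δ • p.2)).measurable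

theorem Dom.integrable_smI (hd : Dom δ ρ G A B) (h : LogDens ρ) (hδ : 0 ≤ δ) :
    Integrable (smI δ ρ G) :=
  (hd.intA.mul_prod hd.intB).mono' (measurable_smI h hd.cont δ).aestronglyMeasurable
    (Eventually.of_forall fun p => abs_smI_le h hδ hd.bound p)

/-- The change of variables `x = y + √δ z`. -/
theorem Dom.identity (hd : Dom δ ρ G A B) (h : LogDens ρ) (hδ : 0 < δ) :
    Integrable (fun x => Real.exp (-Wt δ ρ x) * G x) ∧
      ∫ x, Real.exp (-Wt δ ρ x) * G x = Real.sqrt δ ^ n * Jd δ ρ G := by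
  have hr : 0 < Real.sqrt δ := Real.sqrt_pos.2 hδ
  have hI := hd.integrable_smI h hδ.le
  have hGc := hd.cont
  let H : E n → E n → ℝ := fun x y => ρ y * Real.exp (-(‖x - y‖ ^ 2 / (2 * δ)))
    * (Real.exp (-(δ / 2 * ‖x‖ ^ 2)) * G x)
  have hHI : ∀ y z, smI δ ρ G (y, z) = H (y + Real.sqrt δ • z) y := fun y z => by
    simp only [smI, H, gker, add_sub_cancel_left, norm_smul, mul_pow, Real.norm_eq_abs, sq_abs,
      Real.sq_sqrt hδ.le]
    field_simp
  have hcv : ∀ F : E n → ℝ, ∀ y : E n, ∫ z, F (y + Real.sqrt δ • z)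
      = (Real.sqrt δ ^ n)⁻¹ * ∫ x, F x := fun F y => by
    rw [Measure.integral_comp_smul volume (fun u => F (y + u)) (Real.sqrt δ),
      integral_add_left_eq_self F y, finrank_euclideanSpace_fin,
      abs_of_pos (inv_pos.2 (pow_pos hr n)), smul_eq_mul]
  have hHm : Measurable (Function.uncurry H) :=
    ((h.meas.comp measurable_snd).mul (by fun_prop)).mul
      (by fun_prop : Continuous fun p : E n × E n =>
        Real.exp (-(δ / 2 * ‖p.1‖ ^ 2)) * G p.1).measurable
        |>.comp measurable_id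
  have hH : Integrable (Function.uncurry H) := by
    refine (integrable_prod_iff' hHm.aestronglyMeasurable).2 ⟨?_, ?_⟩
    · filter_upwards [hI.prod_right_ae] with y hy
      simp only [hHI] at hy
      have := (integrable_comp_smul_iff volume (fun u => H (y + u) y) hr.ne').1 hy
      have h2 := this.comp_add_left (-y)
      simpa using h2
    · refine (hI.norm.integral_prod_left.const_mul (Real.sqrt δ ^ n)).congr
        (Eventually.of_forall fun y => ?_)
      simp only [hHI, Function.uncurry]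
      rw [hcv (fun x => ‖H x y‖) y, ← mul_assoc, mul_inv_cancel₀ (pow_pos hr n).ne', one_mul]
  have hx : ∀ x, ∫ y, H x y = Real.exp (-Wt δ ρ x) * G x := fun x => by
    simp only [H]
    rw [integral_mul_const, ← mul_assoc, Wt, neg_add, neg_neg, Real.exp_add,
      Real.exp_log (h.smooth_pos hδ x)]
    rfl
  refine ⟨hH.integral_prod_left.congr (Eventually.of_forall hx), ?_⟩
  rw [← integral_congr_ae (Eventually.of_forall hx), integral_integral_swap hH, Jd,
    show (volume : Measure (E n × E n)) = volume.prod volume from rfl, integral_prod _ hI,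
    ← integral_const_mul]
  congr 1
  ext y
  simp only [hHI]
  rw [hcv (fun x => H x y) y, ← mul_assoc, mul_inv_cancel₀ (pow_pos hr n).ne', one_mul]

theorem Dom.one (h : LogDens ρ) (δ : ℝ) :
    Dom δ ρ (fun _ => 1) (fun _ => 1) (fun _ => 1) :=
  ⟨continuous_const, by simpa using h.integrable, by simpa using integrable_gker, fun y z => by simp⟩

theorem Jd_one_pos (h : LogDens ρ) (hδ : 0 < δ) : 0 < Jd δ ρ (fun _ => 1) := by
  have e := ((Dom.one h δ).identity h hδ).2
  have hz := (h.pinched_Wt hδ).zc_pos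
  simp only [mul_one] at e
  rw [Zc, e] at hz
  exact pos_of_mul_pos_right hz (by positivity)

theorem Dom.ex_eq (hd : Dom δ ρ G A B) (h : LogDens ρ) (hδ : 0 < δ) :
    ex (Wt δ ρ) G = Jd δ ρ G / Jd δ ρ (fun _ => 1) := by
  have e := ((Dom.one h δ).identity h hδ).2
  simp only [mul_one] at e
  simp only [ex, Zc, smul_eq_mul]
  rw [e, (hd.identity h hδ).2]
  have := Jd_one_pos h hδ
  have : 0 < Real.sqrt δ ^ n := pow_pos (Real.sqrt_pos.2 hδ) n
  field_simp

theorem tendsto_Jd (h : LogDens ρ) (hd : ∀ δ ∈ Set.Ioc (0 : ℝ) 1, Dom δ ρ G A B)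
    (hG : Continuous G) :
    Tendsto (fun δ => Jd δ ρ G) (𝓝[>] 0) (𝓝 ((∫ y, ρ y * G y) * ∫ z : E n, gker z)) := by
  have h1 := hd 1 ⟨one_pos, le_rfl⟩
  have hev : ∀ᶠ δ in 𝓝[>] (0 : ℝ), δ ∈ Set.Ioc (0 : ℝ) 1 :=
    Ioc_mem_nhdsGT one_pos
  have key : Tendsto (fun δ => Jd δ ρ G) (𝓝[>] 0)
      (𝓝 (∫ p : E n × E n, ρ p.1 * G p.1 * gker p.2)) := by
    refine tendsto_integral_filter_of_dominated_convergence
      (fun p => ρ p.1 * A p.1 * (gker p.2 * B p.2))
      (Eventually.of_forall fun δ => (measurable_smI h hG δ).aestronglyMeasurable) ?_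
      (h1.intA.mul_prod h1.intB) (Eventually.of_forall fun p => ?_)
    · filter_upwards [hev] with δ hδ
      exact Eventually.of_forall fun p => abs_smI_le h hδ.1.le (hd δ hδ).bound p
    · have hc : Continuous fun δ : ℝ => smI δ ρ G p := by unfold smI; fun_prop
      have := (hc.tendsto 0).mono_left (nhdsWithin_le_nhds (s := Set.Ioi (0 : ℝ)))
      have e : smI 0 ρ G p = ρ p.1 * G p.1 * gker p.2 := by simp [smI]; ring
      rwa [e] at this
  rwa [show (volume : Measure (E n × E n)) = volume.prod volume from rfl,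
    integral_prod_mul (fun y => ρ y * G y) gker] at key

theorem tendsto_Jd_one (h : LogDens ρ) :
    Tendsto (fun δ => Jd δ ρ fun _ : E n => 1) (𝓝[>] 0) (𝓝 (∫ z : E n, gker z)) := by
  have := tendsto_Jd h (fun δ _ => Dom.one h δ) continuous_const
  simpa [h.mass] using this

theorem tendsto_ex (h : LogDens ρ) (hd : ∀ δ ∈ Set.Ioc (0 : ℝ) 1, Dom δ ρ G A B)
    (hG : Continuous G) :
    Tendsto (fun δ => ex (Wt δ ρ) G) (𝓝[>] 0) (𝓝 (∫ y, ρ y * G y)) := by
  have hZ := integral_gker_pos (n := n)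
  have hlim := (tendsto_Jd h hd hG).div (tendsto_Jd_one h) hZ.ne'
  rw [mul_div_cancel_right₀ _ hZ.ne'] at hlim
  refine hlim.congr' ?_
  filter_upwards [Ioc_mem_nhdsGT (one_pos : (0 : ℝ) < 1)] with δ hδ
  exact ((hd δ hδ).ex_eq h hδ.1).symm

theorem tendsto_ex_bounded (h : LogDens ρ) (hG : Continuous G) {M : ℝ} (hM : ∀ x, |G x| ≤ M) :
    Tendsto (fun δ => ex (Wt δ ρ) G) (𝓝[>] 0) (𝓝 (∫ y, ρ y * G y)) :=
  tendsto_ex (A := fun _ => 1) (B := fun _ => M) h (fun δ _ => ⟨hG, by simpa using h.integrable,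
    integrable_gker.mul_const M, fun y z => by simpa using hM _⟩) hG

theorem tendsto_gker_exp (c : ℝ) :
    Tendsto (fun δ : ℝ => ∫ z : E n, gker z * Real.exp (c * δ * ‖z‖ ^ 2)) (𝓝[>] 0)
      (𝓝 (∫ z : E n, gker z)) := by
  refine tendsto_integral_filter_of_dominated_convergence
    (fun z => gker z * Real.exp (1 / 4 * ‖z‖ ^ 2))
    (Eventually.of_forall fun δ => Continuous.aestronglyMeasurable (by unfold gker; fun_prop)) ?_
    (integrable_gker_exp (by norm_num)) (Eventually.of_forall fun z => ?_)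
  · have : Tendsto (fun δ : ℝ => c * δ) (𝓝[>] 0) (𝓝 0) := by
      simpa using ((continuous_const_mul c).tendsto (0 : ℝ)).mono_left
        (nhdsWithin_le_nhds (s := Set.Ioi (0 : ℝ)))
    filter_upwards [this.eventually_le_const (by norm_num : (0 : ℝ) < 1 / 4)] with δ hδ
    refine Eventually.of_forall fun z => ?_
    rw [Real.norm_eq_abs, abs_of_pos (mul_pos (gker_pos z) (Real.exp_pos _))]
    exact mul_le_mul_of_nonneg_left (Real.exp_le_exp.2
      (mul_le_mul_of_nonneg_right hδ (sq_nonneg _))) (gker_pos z).le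
  · have hc : Continuous fun δ : ℝ => gker z * Real.exp (c * δ * ‖z‖ ^ 2) := by fun_prop
    simpa using (hc.tendsto 0).mono_left (nhdsWithin_le_nhds (s := Set.Ioi (0 : ℝ)))

end Vale.P245.Cube
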