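import Vale.Agent.P245.Cube.Defs
import Vale.Agent.P254.Skew.Exist
import Vale.Agent.P074.PrekopaLeindler

/-! # Gaussian smoothing of a log-concave density -/

namespace Vale.P245.Cube

open MeasureTheory Filter Topology Vale.P254.Skew
open scoped RealInnerProductSpace ENNReal

variable {n : ℕ}

/-- A log-concave probability density. -/
structure LogDens (ρ : E n → ℝ) : Prop where
  nonneg : ∀ x, 0 ≤ ρ x
  meas : Measurable ρ
  mass : ∫ x, ρ x = 1
  concave : ConcaveOn ℝ {x | 0 < ρ x} fun x => Real.log (ρ x)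

/-- The Gaussian average of a density, not normalised. -/
noncomputable def smooth (δ : ℝ) (ρ : E n → ℝ) (x : E n) : ℝ :=
  ∫ y, ρ y * Real.exp (-(‖x - y‖ ^ 2 / (2 * δ)))

/-- The smoothed and tilted potential. -/
noncomputable def Wt (δ : ℝ) (ρ : E n → ℝ) (x : E n) : ℝ :=
  -Real.log (smooth δ ρ x) + δ / 2 * ‖x‖ ^ 2

variable {ρ : E n → ℝ}

theorem LogDens.integrable (h : LogDens ρ) : Integrable ρ := by
  by_contra hc
  have := h.mass
  rw [integral_undef hc] at this
  exact zero_ne_one this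

theorem LogDens.mid (h : LogDens ρ) (x y : E n) :
    ρ x * ρ y ≤ ρ ((1 / 2 : ℝ) • (x + y)) ^ 2 := by
  rcases (h.nonneg x).eq_or_lt with hx | hx
  · rw [← hx, zero_mul]; positivity
  rcases (h.nonneg y).eq_or_lt with hy | hy
  · rw [← hy, mul_zero]; positivity
  have hxm : x ∈ {x | 0 < ρ x} := hx
  have hym : y ∈ {x | 0 < ρ x} := hy
  have e : (1 / 2 : ℝ) • (x + y) = (1 / 2 : ℝ) • x + (1 / 2 : ℝ) • y := smul_add _ _ _
  have hm : (0 : ℝ) < ρ ((1 / 2 : ℝ) • (x + y)) :=
    e ▸ h.concave.1 hxm hym (by norm_num) (by norm_num) (by norm_num)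
  have := h.concave.2 hxm hym (show (0 : ℝ) ≤ 1 / 2 by norm_num) (show (0 : ℝ) ≤ 1 / 2 by norm_num)
    (by norm_num)
  rw [← e, smul_eq_mul, smul_eq_mul] at this
  rw [← Real.log_le_log_iff (mul_pos hx hy) (pow_pos hm 2), Real.log_mul hx.ne' hy.ne',
    Real.log_pow]
  push_cast
  linarith

theorem LogDens.integrable_kernel (h : LogDens ρ) {δ : ℝ} (hδ : 0 < δ) (x : E n) :
    Integrable fun y => ρ y * Real.exp (-(‖x - y‖ ^ 2 / (2 * δ))) := by
  refine h.integrable.mono' (h.integrable.aestronglyMeasurable.mul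
    (Continuous.aestronglyMeasurable (by fun_prop))) (Eventually.of_forall fun y => ?_)
  rw [Real.norm_eq_abs, abs_mul, Real.abs_exp, abs_of_nonneg (h.nonneg y)]
  exact mul_le_of_le_one_right (h.nonneg y)
    (Real.exp_le_one_iff.2 (neg_nonpos.2 (by positivity)))

theorem LogDens.smooth_pos (h : LogDens ρ) {δ : ℝ} (hδ : 0 < δ) (x : E n) :
    0 < smooth δ ρ x := by
  rw [smooth, integral_pos_iff_support_of_nonneg
    (fun y => mul_nonneg (h.nonneg y) (Real.exp_pos _).le) (h.integrable_kernel hδ x)]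
  have e : Function.support (fun y => ρ y * Real.exp (-(‖x - y‖ ^ 2 / (2 * δ))))
      = Function.support ρ := by
    ext y
    simp [Real.exp_ne_zero]
  rw [e, ← integral_pos_iff_support_of_nonneg h.nonneg h.integrable, h.mass]
  exact one_pos

/-- Differentiation of a Gaussian-damped Laplace transform. -/
theorem hasFDerivAt_lap {F : Type} [NormedAddCommGroup F] [NormedSpace ℝ F] [CompleteSpace F]
    {w : E n → ℝ} (hw : Integrable w) {Q : E n → ℝ} {a b : ℝ} (hQ : Pinched Q a b) {f : E n → F}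
    (hf : Tame f) (θ : E n) :
    HasFDerivAt (fun θ => ∫ x, w x • Real.exp (-tilt Q θ x) • f x)
      (∫ x, w x • Real.exp (-tilt Q θ x) • (innerSL ℝ x).smulRight (f x)) θ := by
  have hint : ∀ {G : Type} [NormedAddCommGroup G] [NormedSpace ℝ G] {g : E n → G}, Tame g →
      ∀ η, Integrable fun x => w x • Real.exp (-tilt Q η x) • g x := by
    intro G _ _ g hg η
    obtain ⟨C, hC⟩ := (hQ.tilt η).gauss_bound hg 0
    refine (hw.norm.mul_const |C|).mono' (hw.aestronglyMeasurable.smul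
      ((Real.continuous_exp.comp (hQ.tilt η).continuous.neg).smul hg.1).aestronglyMeasurable)
      (Eventually.of_forall fun x => ?_)
    rw [norm_smul, norm_smul, Real.norm_of_nonneg (Real.exp_pos _).le]
    refine mul_le_mul_of_nonneg_left ?_ (norm_nonneg _)
    have h1 := hC x
    simp only [zero_mul, add_zero] at h1
    refine h1.trans ((mul_le_mul_of_nonneg_right (le_abs_self C) (Real.exp_pos _).le).trans ?_)
    exact mul_le_of_le_one_right (abs_nonneg C) (Real.exp_le_one_iff.2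
      (by nlinarith [hQ.pos, sq_nonneg ‖x‖]))
  obtain ⟨C, hC⟩ := hQ.gauss_bound (tame_id.norm.mul hf.norm) (‖θ‖ + 1)
  have hsm : Tame fun x : E n => (innerSL ℝ x).smulRight (f x) :=
    (tame_id.clm (innerSL ℝ)).bilin (ContinuousLinearMap.smulRightL ℝ (E n) F) hf
  refine hasFDerivAt_integral_of_dominated_of_fderiv_le
    (F' := fun η x => w x • Real.exp (-tilt Q η x) • (innerSL ℝ x).smulRight (f x))
    (bound := fun x => ‖w x‖ * |C|) (Metric.ball_mem_nhds θ one_pos)
    (Eventually.of_forall fun η => (hint hf η).aestronglyMeasurable)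
    (hint hf θ) (hint hsm θ).aestronglyMeasurable
    (Eventually.of_forall fun x η hη => ?_)
    (hw.norm.mul_const _)
    (Eventually.of_forall fun x η _ => ?_)
  · have hb : ‖η‖ ≤ ‖θ‖ + 1 := by
      have := norm_le_norm_add_norm_sub' η θ
      rw [Metric.mem_ball, dist_eq_norm] at hη
      linarith
    rw [norm_smul, norm_smul, Real.norm_of_nonneg (Real.exp_pos _).le,
      ContinuousLinearMap.norm_smulRight_apply, innerSL_apply_norm]
    refine mul_le_mul_of_nonneg_left (le_trans (mul_le_mul_of_nonneg_right (Real.exp_le_exp.2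
      (?_ : -tilt Q η x ≤ -Q x + (‖θ‖ + 1) * ‖x‖)) (by positivity))
      (((le_of_eq ?_).trans (hC x)).trans ?_)) (norm_nonneg _)
    · have := real_inner_le_norm η x
      have := mul_le_mul_of_nonneg_right hb (norm_nonneg x)
      simp only [tilt]
      linarith
    · simp
    · exact (mul_le_mul_of_nonneg_right (le_abs_self C) (Real.exp_pos _).le).trans
        (mul_le_of_le_one_right (abs_nonneg C) (Real.exp_le_one_iff.2
          (by nlinarith [hQ.pos, sq_nonneg ‖x‖])))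
  · have h1 : HasFDerivAt (fun η => -tilt Q η x) (innerSL ℝ x) η := by
      simp only [tilt, neg_sub]
      exact ((innerSL ℝ x).hasFDerivAt.congr_of_eventuallyEq
        (Eventually.of_forall fun η => real_inner_comm x η)).sub_const _
    refine ((h1.exp.smul_const (f x)).const_smul (w x)).congr_fderiv ?_
    ext v
    simp [smul_smul]
    ring_nf

theorem contDiff_lap {F : Type} [NormedAddCommGroup F] [NormedSpace ℝ F] [CompleteSpace F]
    {w : E n → ℝ} (hw : Integrable w) {Q : E n → ℝ} {a b : ℝ} (hQ : Pinched Q a b) {f : E n → F}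
    (hf : Tame f) (m : ℕ) :
    ContDiff ℝ m fun θ => ∫ x, w x • Real.exp (-tilt Q θ x) • f x := by
  induction m generalizing F with
  | zero =>
    exact contDiff_zero.2 (continuous_iff_continuousAt.2 fun θ =>
      (hasFDerivAt_lap hw hQ hf θ).continuousAt)
  | succ m ih =>
    have hsm : Tame fun x : E n => (innerSL ℝ x).smulRight (f x) :=
      (tame_id.clm (innerSL ℝ)).bilin (ContinuousLinearMap.smulRightL ℝ (E n) F) hf
    rw [show ((m + 1 : ℕ) : WithTop ℕ∞) = (m : WithTop ℕ∞) + 1 from rfl,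
      contDiff_succ_iff_fderiv]
    refine ⟨fun θ => (hasFDerivAt_lap hw hQ hf θ).differentiableAt, by simp, ?_⟩
    rw [show (fderiv ℝ fun θ => ∫ x, w x • Real.exp (-tilt Q θ x) • f x) = _ from
      funext fun θ => (hasFDerivAt_lap hw hQ hf θ).fderiv]
    exact ih hsm

theorem LogDens.contDiff_smooth (h : LogDens ρ) {δ : ℝ} (hδ : 0 < δ) :
    ContDiff ℝ 2 (smooth δ ρ) := by
  have hQ : Pinched (fun y : E n => δ⁻¹ / 2 * ‖y‖ ^ 2) δ⁻¹ δ⁻¹ :=
    pinched_quad (inv_pos.2 hδ) (inv_pos.2 hδ) le_rfl le_rfl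
  have e : smooth δ ρ = fun x => Real.exp (-(δ⁻¹ / 2 * ‖x‖ ^ 2))
      * ∫ y, ρ y • Real.exp (-tilt (fun y : E n => δ⁻¹ / 2 * ‖y‖ ^ 2) (δ⁻¹ • x) y)
        • (1 : ℝ) := by
    funext x
    rw [smooth, ← integral_const_mul]
    congr 1
    ext y
    simp only [smul_eq_mul, mul_one, tilt, real_inner_smul_left]
    rw [mul_left_comm, ← Real.exp_add, norm_sub_sq_real]
    congr 2
    field_simp
    ring
  rw [e]
  exact (contDiff_const.mul (contDiff_norm_sq ℝ)).neg.exp.mul
    ((contDiff_lap h.integrable hQ (Tame.const _) 2).comp (contDiff_const_smul δ⁻¹))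

/-- The smoothed density is log-concave, by Prékopa-Leindler. -/
theorem LogDens.smooth_mul_le (h : LogDens ρ) {δ : ℝ} (hδ : 0 < δ) (x w : E n) :
    smooth δ ρ (x + w) * smooth δ ρ (x - w) ≤ smooth δ ρ x ^ 2 := by
  let P : E n → E n → ℝ≥0∞ := fun z y =>
    ENNReal.ofReal (ρ y * Real.exp (-(‖z - y‖ ^ 2 / (2 * δ))))
  have hnn : ∀ z y, 0 ≤ ρ y * Real.exp (-(‖z - y‖ ^ 2 / (2 * δ))) := fun z y =>
    mul_nonneg (h.nonneg y) (Real.exp_pos _).le
  have hP : ∀ z, ∫⁻ y, P z y = ENNReal.ofReal (smooth δ ρ z) := fun z =>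
    (ofReal_integral_eq_lintegral_ofReal (h.integrable_kernel hδ z)
      (Eventually.of_forall (hnn z))).symm
  have hm : ∀ z, Measurable (P z) := fun z =>
    ENNReal.measurable_ofReal.comp (h.meas.mul (by fun_prop))
  have key := Vale.Agent.P074.prekopa_leindler (hm (x + w)) (hm (x - w)) (hm x) fun y₁ y₂ => by
    simp only [P]
    rw [← ENNReal.ofReal_mul (hnn _ _), ← ENNReal.ofReal_pow (hnn _ _)]
    refine ENNReal.ofReal_le_ofReal ?_
    rw [mul_mul_mul_comm, mul_pow, ← Real.exp_add, ← Real.exp_nat_mul]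
    refine mul_le_mul (h.mid y₁ y₂) (Real.exp_le_exp.2 ?_) (Real.exp_pos _).le (sq_nonneg _)
    have e1 : x - (1 / 2 : ℝ) • (y₁ + y₂) = (1 / 2 : ℝ) • ((x + w - y₁) + (x - w - y₂)) := by
      module
    have e2 := parallelogram_law_with_norm ℝ (x + w - y₁) (x - w - y₂)
    rw [e1, norm_smul, mul_pow, Real.norm_eq_abs, sq_abs]
    push_cast
    have h3 : ‖(x + w - y₁) + (x - w - y₂)‖ ^ 2
        ≤ 2 * (‖x + w - y₁‖ ^ 2 + ‖x - w - y₂‖ ^ 2) := by
      nlinarith [mul_self_nonneg ‖(x + w - y₁) - (x - w - y₂)‖]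
    have h4 : (1 / 2 : ℝ) ^ 2 * ‖(x + w - y₁) + (x - w - y₂)‖ ^ 2 * 2 / (2 * δ)
        ≤ (‖x + w - y₁‖ ^ 2 + ‖x - w - y₂‖ ^ 2) / (2 * δ) := by
      gcongr
      linarith
    calc -(‖x + w - y₁‖ ^ 2 / (2 * δ)) + -(‖x - w - y₂‖ ^ 2 / (2 * δ))
        = -((‖x + w - y₁‖ ^ 2 + ‖x - w - y₂‖ ^ 2) / (2 * δ)) := by ring
      _ ≤ _ := (neg_le_neg h4).trans (le_of_eq (by ring))
  rw [hP, hP, hP, ← ENNReal.ofReal_mul (h.smooth_pos hδ _).le,
    ← ENNReal.ofReal_pow (h.smooth_pos hδ _).le, ENNReal.ofReal_le_ofReal_iff (sq_nonneg _)] at key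
  exact key

/-- The smoothed density is log-semiconvex, by Cauchy-Schwarz. -/
theorem LogDens.sq_smooth_le (h : LogDens ρ) {δ : ℝ} (hδ : 0 < δ) (x w : E n) :
    smooth δ ρ x ^ 2
      ≤ Real.exp (‖w‖ ^ 2 / δ) * (smooth δ ρ (x + w) * smooth δ ρ (x - w)) := by
  set sp := smooth δ ρ (x + w)
  set sm := smooth δ ρ (x - w)
  have hp : 0 < sp := h.smooth_pos hδ _
  have hm : 0 < sm := h.smooth_pos hδ _
  set t := Real.sqrt (sm / sp) with ht
  have ht0 : 0 < t := Real.sqrt_pos.2 (div_pos hm hp)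
  set c := Real.exp (‖w‖ ^ 2 / (2 * δ)) with hc
  have hpt : ∀ y, ρ y * Real.exp (-(‖x - y‖ ^ 2 / (2 * δ)))
      ≤ c * t / 2 * (ρ y * Real.exp (-(‖x + w - y‖ ^ 2 / (2 * δ))))
        + c / t / 2 * (ρ y * Real.exp (-(‖x - w - y‖ ^ 2 / (2 * δ)))) := fun y => by
    have e0 : ‖x + w - y‖ ^ 2 + ‖x - w - y‖ ^ 2 = 2 * ‖x - y‖ ^ 2 + 2 * ‖w‖ ^ 2 := by
      rw [show x + w - y = (x - y) + w by abel, show x - w - y = (x - y) - w by abel,
        norm_add_sq_real (x - y) w, norm_sub_sq_real (x - y) w]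
      ring
    set A := Real.exp (-(‖x + w - y‖ ^ 2 / (2 * δ)))
    set B := Real.exp (-(‖x - w - y‖ ^ 2 / (2 * δ)))
    set M := Real.exp (-(‖x - y‖ ^ 2 / (2 * δ)))
    have hAB : c ^ 2 * (A * B) = M ^ 2 := by
      simp only [hc, A, B, M, sq, ← Real.exp_add]
      congr 1
      field_simp
      linarith
    have h1 : M ≤ c * t / 2 * A + c / t / 2 * B := by
      have hd : 0 ≤ (c * t * A - c / t * B) ^ 2 := sq_nonneg _
      have he : 4 * M ^ 2 ≤ (c * t * A + c / t * B) ^ 2 := by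
        have : (c * t * A + c / t * B) ^ 2 - (c * t * A - c / t * B) ^ 2 = 4 * (c ^ 2 * (A * B)) := by
          field_simp
          ring
        linarith
      have h5 := (sq_le_sq₀ (by positivity : (0 : ℝ) ≤ 2 * M) (by positivity)).1
        (show (2 * M) ^ 2 ≤ (c * t * A + c / t * B) ^ 2 by linarith)
      linarith
    refine (mul_le_mul_of_nonneg_left h1 (h.nonneg y)).trans (le_of_eq ?_)
    ring
  have key : smooth δ ρ x ≤ c * t / 2 * sp + c / t / 2 * sm := by
    refine (integral_mono (h.integrable_kernel hδ x)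
      (((h.integrable_kernel hδ (x + w)).const_mul _).add
        ((h.integrable_kernel hδ (x - w)).const_mul _)) hpt).trans (le_of_eq ?_)
    simp only [Pi.add_apply]
    rw [integral_add ((h.integrable_kernel hδ (x + w)).const_mul _)
        ((h.integrable_kernel hδ (x - w)).const_mul _), integral_const_mul, integral_const_mul]
    rfl
  have et : c * t / 2 * sp + c / t / 2 * sm = c * Real.sqrt (sp * sm) := by
    have hsp := Real.sqrt_pos.2 hp
    have hsm := Real.sqrt_pos.2 hm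
    rw [ht, Real.sqrt_div hm.le, Real.sqrt_mul hp.le]
    field_simp
    rw [Real.sq_sqrt hp.le, Real.sq_sqrt hm.le]
    ring
  rw [et] at key
  refine (pow_le_pow_left₀ (h.smooth_pos hδ x).le key 2).trans (le_of_eq ?_)
  rw [mul_pow, Real.sq_sqrt (mul_pos hp hm).le, hc, ← Real.exp_nat_mul]
  congr 2
  push_cast
  ring

theorem LogDens.pinched_Wt (h : LogDens ρ) {δ : ℝ} (hδ : 0 < δ) :
    Pinched (Wt δ ρ) δ (δ⁻¹ + δ) := by
  refine pinched_of_secDiff (((h.contDiff_smooth hδ).log fun x => (h.smooth_pos hδ x).ne').neg.add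
    (contDiff_const.mul (contDiff_norm_sq ℝ))) hδ fun x w => ?_
  have hp := h.smooth_pos hδ
  have h1 := Real.log_le_log (mul_pos (hp (x + w)) (hp (x - w))) (h.smooth_mul_le hδ x w)
  have h2 := Real.log_le_log (pow_pos (hp x) 2) (h.sq_smooth_le hδ x w)
  rw [Real.log_mul (hp _).ne' (hp _).ne', Real.log_pow] at h1
  rw [Real.log_mul (Real.exp_ne_zero _) (mul_pos (hp (x + w)) (hp (x - w))).ne', Real.log_exp,
    Real.log_mul (hp _).ne' (hp _).ne', Real.log_pow] at h2
  push_cast at h1 h2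
  have e : secDiff (Wt δ ρ) x w = -(Real.log (smooth δ ρ (x + w)) + Real.log (smooth δ ρ (x - w))
      - 2 * Real.log (smooth δ ρ x)) + δ * ‖w‖ ^ 2 := by
    simp only [secDiff, Wt, norm_add_sq_real, norm_sub_sq_real]
    ring
  rw [e, add_mul, inv_mul_eq_div]
  constructor <;> linarith

end Vale.P245.Cube
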